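import Vale.Agent.P159.H896.FlowT

/-!
P159, module CHG (helper896): constant shifts, a-priori bound of the activities
`ω_q ≤ exp (-2 π² q² / <1, M 1>)`, Fourier series in the constant mode, total activity.
-/

open MeasureTheory Finset Matrix
open scoped ComplexConjugate
open Vale.Agent.P159.TM.H104 (EM nh li)
open Vale.Agent.P159.H37 (wM ZM qf bf Zn Zq Un Ev gau gau_shift)

set_option linter.unusedSectionVars false

namespace Vale.Agent.P159.H896

noncomputable section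

variable {V : Type} [Fintype V] {w : (V → ℤ) → ℝ} {M M' : Matrix V V ℝ}

/-! ### symmetries of the sectors on real backgrounds -/

/-- constants act by a phase, `ph (-q) c = exp (2 π i q c)` -/
theorem Zq_shift (h : WM w M) (q : ℤ) (F : V → ℝ) (c : ℝ) :
    Zq w M q (fun x => F x + c) = ph (-q) c * Zq w M q F := by
  rw [Zq_eq, Zq_eq, ← Sec_sh (zp_ZMc h), sh_cr]

theorem Zq_zero_eq (w : (V → ℤ) → ℝ) (M : Matrix V V ℝ) (F : V → ℝ) :
    Zq w M 0 F = (Zn w M F : ℂ) := by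
  rw [Zn_ofReal]
  unfold Zq
  refine intervalIntegral.integral_congr fun u _ => ?_
  simp

theorem Zn_shift (h : WM w M) (F : V → ℝ) (c : ℝ) : Zn w M (fun x => F x + c) = Zn w M F := by
  have h1 := Zq_shift h 0 F c
  rw [Zq_zero_eq, Zq_zero_eq, neg_zero, ph_zero_left, one_mul] at h1
  exact_mod_cast h1

theorem Zq_neg (h : WM w M) (q : ℤ) (F : V → ℝ) : Zq w M q (-F) = Zq w M (-q) F := by
  rw [Zq_eq, Zq_eq, ← Sec_neg (zp_ZMc h)]
  congr 1
  funext x
  simp [cr]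

theorem Zq_conj (h : WM w M) (q : ℤ) (F : V → ℝ) : conj (Zq w M q F) = Zq w M (-q) F := by
  rw [Zq_eq, Zq_eq]
  have h1 := Sec_star (zp_ZMc h) (-q) (cr F)
  rw [star_cr, neg_neg] at h1
  rw [h1]
  rfl

theorem Zn_neg (h : WM w M) (F : V → ℝ) : Zn w M (-F) = Zn w M F := by
  have h1 := Zq_neg h 0 F
  rw [neg_zero, Zq_zero_eq, Zq_zero_eq] at h1
  exact_mod_cast h1

theorem Ph_shift (h : WM w M) (q : ℤ) (F : V → ℝ) (c : ℝ) :
    Ph w M q (fun x => F x + c) = ph (-q) c * Ph w M q F := by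
  unfold Ph
  rw [Zq_shift h, Zn_shift h, mul_div_assoc]

theorem Ph_neg (h : WM w M) (q : ℤ) (F : V → ℝ) : Ph w M q (-F) = Ph w M (-q) F := by
  unfold Ph
  rw [Zq_neg h, Zn_neg h]

theorem Ph_conj (h : WM w M) (q : ℤ) (F : V → ℝ) : conj (Ph w M q F) = Ph w M (-q) F := by
  unfold Ph
  rw [map_div₀, Zq_conj h, Complex.conj_ofReal]

theorem Ph_zero_left (h : WM w M) (F : V → ℝ) : Ph w M 0 F = 1 := by
  unfold Ph
  rw [Zq_zero_eq, div_self]
  exact_mod_cast (Zn_pos h F).ne'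

theorem om_neg (h : WM w M) (q : ℤ) : om w M (-q) = om w M q := by
  have h1 := Ph_neg h q 0
  rw [neg_zero, Ph_zero h, Ph_zero h] at h1
  exact_mod_cast h1.symm

theorem om_zero (h : WM w M) : om w M 0 = 1 := by
  have h1 := Ph_zero_left h 0
  rw [Ph_zero h] at h1
  exact_mod_cast h1

lemma continuous_line (h : WM w M) (F : V → ℝ) : Continuous fun c : ℝ => ZM w M fun x => F x + c :=
  (continuous_ZM h).comp (continuous_pi fun x => by fun_prop)

theorem norm_Zq_le (h : WM w M) (q : ℤ) (F : V → ℝ) : ‖Zq w M q F‖ ≤ Zn w M F := by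
  unfold Zq Zn
  rw [intervalIntegral.integral_of_le zero_le_one, intervalIntegral.integral_of_le zero_le_one]
  refine norm_integral_le_of_norm_le ?_ (Filter.Eventually.of_forall fun c => ?_)
  · exact ((continuous_line h F).integrableOn_Icc (a := 0) (b := 1)).mono_set Set.Ioc_subset_Icc_self
  · have : (-(2 * Real.pi * q * c) * Complex.I : ℂ) =
        ((-(2 * Real.pi * q * c) : ℝ) : ℂ) * Complex.I := by
      push_cast; ring
    rw [norm_mul, this, Complex.norm_exp_ofReal_mul_I, mul_one, Complex.norm_real,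
      Real.norm_eq_abs, abs_of_pos (H37.ZM_pos h.sym h.em _)]

theorem om_le_one (h : WM w M) (q : ℤ) : om w M q ≤ 1 := by
  have h1 := norm_Zq_le h q 0
  have h2 := Zn_pos h 0
  rw [Zq_zero h, Complex.norm_real, Real.norm_eq_abs, abs_of_nonneg (Aw_nonneg h q 0)] at h1
  unfold om
  rw [div_le_one h2]
  exact h1

/-! ### the constant mode -/

lemma gau_unit (s : ℝ) (q : ℤ) :
    ∫ g, ph q (s * g ()) ∂(gau Unit) = Real.exp (-(2 * Real.pi ^ 2 * q ^ 2 * s ^ 2)) := by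
  have h1 : MeasurePreserving (MeasurableEquiv.funUnique Unit ℝ) (gau Unit)
      (ProbabilityTheory.gaussianReal 0 1) :=
    measurePreserving_funUnique _ _
  have h2 := h1.integral_comp (MeasurableEquiv.funUnique Unit ℝ).measurableEmbedding
    (fun x : ℝ => ph q (s * x))
  have h3 : (fun g : Unit → ℝ => ph q (s * g ())) =
      fun g => (fun x : ℝ => ph q (s * x)) (MeasurableEquiv.funUnique Unit ℝ g) := by
    funext g
    rfl
  rw [h3, h2]
  have h4 := ProbabilityTheory.charFun_gaussianReal (μ := 0) (v := 1) (-(2 * Real.pi * q * s))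
  rw [charFun_apply_real] at h4
  have h5 : ∀ x : ℝ, Complex.exp (((-(2 * Real.pi * q * s) : ℝ) : ℂ) * x * Complex.I) = ph q (s * x) := by
    intro x
    unfold ph
    congr 1
    push_cast
    ring
  simp only [h5] at h4
  rw [h4]
  push_cast
  congr 1
  ring

/-- the mass above a given one, with noise in the constant mode -/
def Mup (M' : Matrix V V ℝ) (σ : ℝ) : Matrix V V ℝ :=
  M' + (σ / (1 - σ * qf M' 1)) • Matrix.vecMulVec (M' *ᵥ 1) (M' *ᵥ 1)

theorem Ph_const (h : WM w M') (hn : ∀ u : V → ℝ, 0 ≤ qf M' u) {σ : ℝ} (hσ : 0 ≤ σ)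
    (h1 : σ * qf M' 1 < 1) (q : ℤ) (f : V → ℝ) :
    Ph w M' q f = Real.exp (-(2 * Real.pi ^ 2 * q ^ 2 * σ)) * Ph w (Mup M' σ) q f := by
  have hc := chn_dir (M' := M') (σ := σ) 1 h.sym hn hσ h1
  have hw : WM w (Mup M' σ) := hc.wm h
  have hZ := chn_Zq hc h q f
  have hN := chn_Zn hc h f
  have hB : ∀ g : Unit → ℝ, f + (√σ • Matrix.of fun (x : V) (_ : Unit) => (1 : V → ℝ) x) *ᵥ g =
      fun x => f x + √σ * g () := by
    intro g
    funext x
    simp [mulVec, dotProduct]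
  simp only [hB] at hZ hN
  change ∫ g : Unit → ℝ, Zq w (Mup M' σ) q (fun x => f x + √σ * g ()) ∂(gau Unit) = _ at hZ
  change ∫ g : Unit → ℝ, Zn w (Mup M' σ) (fun x => f x + √σ * g ()) ∂(gau Unit) = _ at hN
  simp only [Zq_shift hw, Zn_shift hw] at hZ hN
  rw [integral_mul_const, gau_unit] at hZ
  rw [integral_const, probReal_univ, one_smul] at hN
  have hs : √σ ^ 2 = σ := Real.sq_sqrt hσ
  rw [hs] at hZ
  have hcp := cN_pos (B := √σ • Matrix.of fun (x : V) (_ : Unit) => (1 : V → ℝ) x) hc.nn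
  unfold Ph
  have e1 : ((-q : ℤ) : ℝ) ^ 2 = (q : ℝ) ^ 2 := by push_cast; ring
  rw [e1] at hZ
  have h6 : ((cN (M' + (σ / (1 - σ * qf M' 1)) • Matrix.vecMulVec (M' *ᵥ 1) (M' *ᵥ 1))
    (√σ • Matrix.of fun (x : V) (_ : Unit) => (1 : V → ℝ) x) : ℝ) : ℂ) ≠ 0 := by
    exact_mod_cast hcp.ne'
  have h7 : (Zn w M' f : ℂ) ≠ 0 := by exact_mod_cast (Zn_pos h f).ne'
  rw [hN, ← mul_div_assoc, hZ]
  push_cast
  field_simp

/-- a-priori bound of the activities -/
theorem om_le_aux (h : WM w M') (hn : ∀ u : V → ℝ, 0 ≤ qf M' u) {σ : ℝ} (hσ : 0 ≤ σ)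
    (h1 : σ * qf M' 1 < 1) (q : ℤ) : om w M' q ≤ Real.exp (-(2 * Real.pi ^ 2 * q ^ 2 * σ)) := by
  have h2 := Ph_const h hn hσ h1 q 0
  have hw : WM w (Mup M' σ) := (chn_dir (M' := M') (σ := σ) 1 h.sym hn hσ h1).wm h
  rw [Ph_zero h, Ph_zero hw] at h2
  have h3 : om w M' q = Real.exp (-(2 * Real.pi ^ 2 * q ^ 2 * σ)) * om w (Mup M' σ) q := by
    exact_mod_cast h2
  rw [h3]
  exact mul_le_of_le_one_right (Real.exp_pos _).le (om_le_one hw q)

theorem om_le_exp (h : WM w M) (hn : ∀ u : V → ℝ, 0 ≤ qf M u) (hp : 0 < qf M 1) (q : ℤ) :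
    om w M q ≤ Real.exp (-(2 * Real.pi ^ 2 * q ^ 2 / qf M 1)) := by
  have h1 : Filter.Tendsto (fun σ : ℝ => Real.exp (-(2 * Real.pi ^ 2 * q ^ 2 * σ)))
      (nhdsWithin (1 / qf M 1) (Set.Iio (1 / qf M 1)))
      (nhds (Real.exp (-(2 * Real.pi ^ 2 * q ^ 2 * (1 / qf M 1))))) := by
    refine Filter.Tendsto.mono_left ?_ nhdsWithin_le_nhds
    exact (by fun_prop : Continuous fun σ : ℝ => Real.exp (-(2 * Real.pi ^ 2 * q ^ 2 * σ))).tendsto _
  have h2 : 0 < 1 / qf M 1 := by positivity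
  have h3 := ge_of_tendsto h1 (b := om w M q) ?_
  · rwa [mul_one_div] at h3
  · have h4 : Set.Ioo 0 (1 / qf M 1) ∈ nhdsWithin (1 / qf M 1) (Set.Iio (1 / qf M 1)) :=
      Ioo_mem_nhdsLT h2
    filter_upwards [h4] with σ hσ
    refine om_le_aux h hn hσ.1.le ?_ q
    have := hσ.2
    rwa [lt_div_iff₀ hp] at this

end

end Vale.Agent.P159.H896
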