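import Vale.Agent.P159.H896.Neu
import Vale.Agent.P159.H37.Spec0L

/-!
P159, module CHG (helper896): heat flow of the partition functions `ZM`, `Zn`, `Zq` in the
background. `M' = M - M B (1 + Bᵀ M B)⁻¹ Bᵀ M`, noise `B g`, `g` standard Gaussian.
-/

open MeasureTheory Finset Matrix
open Vale.Agent.P159.TM.H104 (EM nh li)
open Vale.Agent.P159.H37 (wM ZM qf bf Zn Zq Un Ev gau gau_shift)

set_option linter.unusedSectionVars false

namespace Vale.Agent.P159.H896

noncomputable section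

variable {V : Type} [Fintype V] {I : Type} [Fintype I]

/-- `M'` is the mass form `M` after averaging over the noise `B g` -/
structure Chn (M M' : Matrix V V ℝ) (B : Matrix V I ℝ) (K : Matrix I V ℝ) : Prop where
  sym : Mᵀ = M
  nn : ∀ u : V → ℝ, 0 ≤ qf M u
  eq1 : K + Bᵀ * M * B * K = Bᵀ * M
  eq2 : M' = M - M * B * K

/-- the normalisation of the channel -/
def cN (M : Matrix V V ℝ) (B : Matrix V I ℝ) : ℝ := ∫ g, Real.exp (-(qf M (B *ᵥ g) / 2)) ∂(gau I)

variable {M M' : Matrix V V ℝ} {B : Matrix V I ℝ} {K : Matrix I V ℝ}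

lemma Chn.sym' (h : Chn M M' B K) : M'ᵀ = M' := by
  have h1 : M * B * K = Kᵀ * K + Kᵀ * (Bᵀ * M * B) * K := by
    have h2 : (K + Bᵀ * M * B * K)ᵀ = (Bᵀ * M)ᵀ := by rw [h.eq1]
    simp only [transpose_add, transpose_mul, transpose_transpose, h.sym] at h2
    rw [← h2]
    simp only [Matrix.add_mul, Matrix.mul_assoc]
  rw [h.eq2, transpose_sub, h.sym, h1]
  simp only [transpose_add, transpose_mul, transpose_transpose, h.sym, Matrix.mul_assoc]

lemma measurable_chn (u : V → ℝ) : Measurable fun g : I → ℝ => u + B *ᵥ g := by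
  have : Continuous fun g : I → ℝ => u + B *ᵥ g := by
    refine continuous_const.add (continuous_pi fun x => ?_)
    simp only [mulVec, dotProduct]
    fun_prop
  exact this.measurable

lemma continuous_chn (u : V → ℝ) : Continuous fun g : I → ℝ => u + B *ᵥ g := by
  refine continuous_const.add (continuous_pi fun x => ?_)
  simp only [mulVec, dotProduct]
  fun_prop

lemma continuous_qf : Continuous (qf M) := by
  unfold qf
  fun_prop

lemma chn_integrable (hM : ∀ u : V → ℝ, 0 ≤ qf M u) (u : V → ℝ) :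
    Integrable (fun g => Real.exp (-(qf M (u + B *ᵥ g) / 2))) (gau I) := by
  refine Integrable.of_bound (C := 1) ?_ (Filter.Eventually.of_forall fun g => ?_)
  · exact (Real.continuous_exp.comp ((continuous_qf.comp (continuous_chn u)).div_const 2).neg).aestronglyMeasurable
  · rw [Real.norm_eq_abs, abs_of_pos (Real.exp_pos _), Real.exp_le_one_iff]
    have := hM (u + B *ᵥ g)
    linarith

lemma cN_pos (hM : ∀ u : V → ℝ, 0 ≤ qf M u) : 0 < cN M B := by
  unfold cN
  have h1 := chn_integrable (B := B) hM 0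
  simp only [zero_add] at h1
  rw [integral_pos_iff_support_of_nonneg (fun g => (Real.exp_pos _).le) h1]
  have : Function.support (fun g : I → ℝ => Real.exp (-(qf M (B *ᵥ g) / 2))) = Set.univ := by
    ext g
    simp [(Real.exp_pos _).ne']
  rw [this]
  simp

/-- Gaussian average of a quadratic exponential -/
theorem chn_one (h : Chn M M' B K) (u : V → ℝ) :
    ∫ g, Real.exp (-(qf M (u + B *ᵥ g) / 2)) ∂(gau I) = cN M B * Real.exp (-(qf M' u / 2)) := by
  set v : I → ℝ := K *ᵥ u with hv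
  have h1 := gau_shift (-v) fun g : I → ℝ => Real.exp (-(qf M (B *ᵥ (g + v)) / 2))
  have e0 : ∀ g : I → ℝ, g + -v + v = g := fun g => by abel
  simp only [e0] at h1
  have hkey : v + Bᵀ *ᵥ (M *ᵥ (B *ᵥ v)) = Bᵀ *ᵥ (M *ᵥ u) := by
    have := congrArg (fun X : Matrix I V ℝ => X *ᵥ u) h.eq1
    simp only [add_mulVec, ← mulVec_mulVec] at this
    exact this
  have e1 : ∀ g : I → ℝ, g ⬝ᵥ v + bf M (B *ᵥ g) (B *ᵥ v) = bf M (B *ᵥ g) u := by
    intro g
    have h3 : ∀ z : V → ℝ, bf M (B *ᵥ g) z = g ⬝ᵥ (Bᵀ *ᵥ (M *ᵥ z)) := by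
      intro z
      rw [H37.bf_eq, dotProduct_mulVec g, vecMul_transpose]
    rw [h3, h3, ← dotProduct_add, hkey]
  have e2 : qf M' u = qf M u - bf M (B *ᵥ v) u := by
    rw [h.eq2]
    have h4 : qf (M - M * B * K) u = qf M u - u ⬝ᵥ (M * B * K) *ᵥ u := by
      rw [H37.qf_eq, H37.qf_eq, sub_mulVec, dotProduct_sub]
    rw [h4, ← mulVec_mulVec, ← mulVec_mulVec, ← hv, H37.bf_comm h.sym, H37.bf_eq]
  have e3 : ∀ g : I → ℝ, Real.exp ((∑ i, (-v) i * g i) - (∑ i, (-v) i ^ 2) / 2) *
      Real.exp (-(qf M (B *ᵥ (g + v)) / 2)) =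
      Real.exp (qf M' u / 2) * Real.exp (-(qf M (u + B *ᵥ g) / 2)) := by
    intro g
    rw [← Real.exp_add, ← Real.exp_add]
    congr 1
    have s1 : (∑ i, (-v) i * g i) = -(g ⬝ᵥ v) := by
      rw [dotProduct, ← Finset.sum_neg_distrib]
      refine Finset.sum_congr rfl fun i _ => ?_
      rw [Pi.neg_apply]; ring
    have s2 : (∑ i, (-v) i ^ 2) = v ⬝ᵥ v := by
      rw [dotProduct]
      refine Finset.sum_congr rfl fun i _ => ?_
      rw [Pi.neg_apply]; ring
    have s3 := e1 g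
    have s4 := e1 v
    rw [s1, s2, mulVec_add, H37.qf_add_vec h.sym, H37.qf_add_vec h.sym, e2, H37.bf_comm h.sym u]
    rw [H37.bf_self] at s4
    linarith
  simp only [e3, integral_const_mul] at h1
  have h5 : cN M B = Real.exp (qf M' u / 2) * ∫ g, Real.exp (-(qf M (u + B *ᵥ g) / 2)) ∂(gau I) := h1
  rw [h5]
  have h6 : Real.exp (qf M' u / 2) * Real.exp (-(qf M' u / 2)) = 1 := by
    rw [← Real.exp_add]; simp
  calc _ = (Real.exp (qf M' u / 2) * Real.exp (-(qf M' u / 2))) *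
        ∫ g, Real.exp (-(qf M (u + B *ᵥ g) / 2)) ∂(gau I) := by rw [h6, one_mul]
    _ = _ := by ring

variable {w : (V → ℤ) → ℝ}

lemma w_nonneg (hw : EM (wM w M)) (h : V → ℤ) : 0 ≤ w h := by
  have h1 := hw.nn h
  unfold wM at h1
  exact (mul_nonneg_iff_of_pos_right (Real.exp_pos _)).1 h1

lemma summable_ZM (hM : Mᵀ = M) (hw : EM (wM w M)) (F : V → ℝ) :
    Summable fun h : V → ℤ => w h * Real.exp (-(qf M (H37.re h - F) / 2)) := by
  have h1 := summ_Zc hw (mc M (cr F))
  have h2 := Complex.reCLM.summable (h1.mul_left (Complex.exp (-(qc M (cr F)) / 2)))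
  refine h2.congr fun h => ?_
  rw [Complex.reCLM_apply]
  have h3 : Complex.exp (-(qc M (cr F)) / 2) * ((wM w M h : ℂ) * Complex.exp (pr (mc M (cr F)) h)) =
      ((w h * Real.exp (-(qf M (H37.re h - F) / 2)) : ℝ) : ℂ) := by
    rw [H37.qf_sub_vec hM]
    unfold wM
    have hb : pr (mc M (cr F)) h = ((bf M (H37.re h) F : ℝ) : ℂ) := by
      rw [← bc_hc]
      unfold bc hc cr bf H37.re
      push_cast
      rfl
    rw [hb, qc_cr]
    push_cast
    have e : Complex.exp (-(qf M (H37.re h) - 2 * bf M (H37.re h) F + qf M F) / 2) =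
        Complex.exp (-(qf M F) / 2) * (Complex.exp (-((qf M (H37.re h) : ℂ) / 2)) *
          Complex.exp (bf M (H37.re h) F)) := by
      rw [← Complex.exp_add, ← Complex.exp_add]
      congr 1
      ring
    have e' : (-((qf M (H37.re h) - 2 * bf M (H37.re h) F + qf M F : ℂ) / 2)) =
        (-(qf M (H37.re h) - 2 * bf M (H37.re h) F + qf M F) / 2) := by ring
    rw [e', e]
    ring
  rw [h3, Complex.ofReal_re]

/-- integrability and the heat flow of `ZM` -/
theorem chn_ZM_aux (h : Chn M M' B K) (hw : EM (wM w M')) (f : V → ℝ) :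
    HasSum (fun k : V → ℤ => cN M B * (w k * Real.exp (-(qf M' (H37.re k - f) / 2))))
      (∫ g, ZM w M (f + B *ᵥ g) ∂(gau I)) := by
  have hw0 := w_nonneg hw
  have hterm : ∀ (k : V → ℤ) (g : I → ℝ),
      w k * Real.exp (-(qf M (H37.re k - (f + B *ᵥ g)) / 2)) =
        w k * Real.exp (-(qf M ((f - H37.re k) + B *ᵥ g) / 2)) := by
    intro k g
    congr 4
    rw [← H37.qf_neg]
    congr 1
    abel
  have hI : ∀ k : V → ℤ,
      ∫ g, w k * Real.exp (-(qf M (H37.re k - (f + B *ᵥ g)) / 2)) ∂(gau I) =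
        cN M B * (w k * Real.exp (-(qf M' (H37.re k - f) / 2))) := by
    intro k
    simp only [hterm]
    rw [integral_const_mul, chn_one h]
    have : qf M' (f - H37.re k) = qf M' (H37.re k - f) := by
      rw [← H37.qf_neg]
      congr 1
      abel
    rw [this]
    ring
  have hsum := (summable_ZM h.sym' hw f).mul_left (cN M B)
  have h1 := hasSum_integral_of_summable_integral_norm
    (F := fun (k : V → ℤ) (g : I → ℝ) => w k * Real.exp (-(qf M (H37.re k - (f + B *ᵥ g)) / 2)))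
    (μ := gau I) (fun k => ?_) ?_
  · simp only [hI] at h1
    exact h1
  · simp only [hterm]
    exact (chn_integrable h.nn _).const_mul _
  · refine hsum.congr fun k => ?_
    rw [← hI k]
    refine integral_congr_ae (Filter.Eventually.of_forall fun g => ?_)
    simp only
    rw [Real.norm_eq_abs, abs_of_nonneg (mul_nonneg (hw0 k) (Real.exp_pos _).le)]

/-- **heat flow of `ZM`** -/
theorem chn_ZM (h : Chn M M' B K) (hw : EM (wM w M')) (f : V → ℝ) :
    ∫ g, ZM w M (f + B *ᵥ g) ∂(gau I) = cN M B * ZM w M' f := by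
  rw [← (chn_ZM_aux h hw f).tsum_eq, tsum_mul_left]
  rfl

theorem chn_ZM_int (h : Chn M M' B K) (hw : EM (wM w M')) (f : V → ℝ) :
    Integrable (fun g => ZM w M (f + B *ᵥ g)) (gau I) := by
  by_contra hc
  have h1 := chn_ZM h hw f
  rw [integral_undef hc] at h1
  have h2 := mul_pos (cN_pos (B := B) h.nn) (H37.ZM_pos h.sym' hw f)
  linarith

/-! ### both ends of the channel -/

lemma Chn.qf_le (h : Chn M M' B K) (u : V → ℝ) : qf M' u ≤ qf M u := by
  set v : I → ℝ := K *ᵥ u with hv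
  have hkey : v + Bᵀ *ᵥ (M *ᵥ (B *ᵥ v)) = Bᵀ *ᵥ (M *ᵥ u) := by
    have := congrArg (fun X : Matrix I V ℝ => X *ᵥ u) h.eq1
    simp only [add_mulVec, ← mulVec_mulVec] at this
    exact this
  have h3 : ∀ (g : I → ℝ) (z : V → ℝ), bf M (B *ᵥ g) z = g ⬝ᵥ (Bᵀ *ᵥ (M *ᵥ z)) := by
    intro g z
    rw [H37.bf_eq, dotProduct_mulVec g, vecMul_transpose]
  have e2 : qf M' u = qf M u - bf M (B *ᵥ v) u := by
    rw [h.eq2]
    have h4 : qf (M - M * B * K) u = qf M u - u ⬝ᵥ (M * B * K) *ᵥ u := by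
      rw [H37.qf_eq, H37.qf_eq, sub_mulVec, dotProduct_sub]
    rw [h4, ← mulVec_mulVec, ← mulVec_mulVec, ← hv, H37.bf_comm h.sym, H37.bf_eq]
  rw [e2, h3, ← hkey, dotProduct_add, ← h3, H37.bf_self]
  have h5 : 0 ≤ v ⬝ᵥ v := by
    simp only [dotProduct]
    exact Finset.sum_nonneg fun i _ => mul_self_nonneg _
  have h6 := h.nn (B *ᵥ v)
  linarith

lemma qf_sub_mat (M M' : Matrix V V ℝ) (u : V → ℝ) : qf (M - M') u = qf M u - qf M' u := by
  simp only [H37.qf_eq, sub_mulVec, dotProduct_sub]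

/-- a larger mass inherits the standing hypotheses -/
theorem WM.mono (hw : WM w M') (hM : Mᵀ = M) (hle : ∀ u : V → ℝ, qf M' u ≤ qf M u) : WM w M := by
  have e : wM w M = wM (wM w M') (M - M') := by
    funext k
    unfold wM
    rw [qf_sub_mat, mul_assoc, ← Real.exp_add]
    congr 2
    ring
  refine ⟨hM, ?_, hw.ev, hw.per, ?_⟩
  · refine H37.em_of_le hw.em (fun k => ?_) (fun k => ?_) ?_
    · exact mul_nonneg (w_nonneg hw.em k) (Real.exp_pos _).le
    · refine mul_le_mul_of_nonneg_left (Real.exp_le_exp.2 ?_) (w_nonneg hw.em k)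
      have := hle (H37.re k)
      linarith
    · obtain ⟨k, hk⟩ := hw.em.pos
      refine ⟨k, mul_pos ?_ (Real.exp_pos _)⟩
      unfold wM at hk
      exact (mul_pos_iff_of_pos_right (Real.exp_pos _)).1 hk
  · rw [e]
    refine dg_mass ?_ hw.dg
    rw [transpose_sub, hM, hw.sym]

theorem Chn.wm (h : Chn M M' B K) (hw : WM w M') : WM w M := hw.mono h.sym h.qf_le

lemma continuous_cr : Continuous (cr : (V → ℝ) → (V → ℂ)) := by
  refine continuous_pi fun x => ?_
  unfold cr
  fun_prop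

theorem continuous_ZM (hw : WM w M) : Continuous (ZM w M) := by
  have h1 := Complex.continuous_re.comp ((continuous_ZMc hw).comp continuous_cr)
  refine h1.congr fun F => ?_
  simp only [Function.comp_apply]
  rw [ZMc_real, Complex.ofReal_re]

lemma cont_sh (hw : WM w M) (f : V → ℝ) :
    Continuous fun p : (I → ℝ) × ℝ => ZM w M fun x => (f + B *ᵥ p.1) x + p.2 := by
  refine (continuous_ZM hw).comp (continuous_pi fun x => ?_)
  simp only [Pi.add_apply, mulVec, dotProduct]
  fun_prop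

/-- joint integrability -/
theorem chn_prod_int (h : Chn M M' B K) (hw : WM w M') (f : V → ℝ) :
    Integrable (fun p : (I → ℝ) × ℝ => ZM w M fun x => (f + B *ᵥ p.1) x + p.2)
      ((gau I).prod (volume.restrict (Set.Ioc (0 : ℝ) 1))) := by
  have hwM := h.wm hw
  have e : ∀ (g : I → ℝ) (c : ℝ), (fun x => (f + B *ᵥ g) x + c) = (fun x => f x + c) + B *ᵥ g := by
    intro g c
    funext x
    simp only [Pi.add_apply]
    ring
  rw [integrable_prod_iff' (cont_sh hwM f).aestronglyMeasurable]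
  constructor
  · refine Filter.Eventually.of_forall fun c => ?_
    simp only [e]
    exact chn_ZM_int h hw.em fun x => f x + c
  · have h1 : (fun c : ℝ => ∫ g : I → ℝ, ‖ZM w M fun x => (f + B *ᵥ g) x + c‖ ∂(gau I)) =
        fun c : ℝ => cN M B * ZM w M' fun x => f x + c := by
      funext c
      rw [← chn_ZM h hw.em]
      refine integral_congr_ae (Filter.Eventually.of_forall fun g => ?_)
      simp only
      rw [← e, Real.norm_eq_abs, abs_of_pos (H37.ZM_pos hwM.sym hwM.em _)]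
    have h2 : Continuous fun c : ℝ => cN M B * ZM w M' fun x => f x + c := by
      refine continuous_const.mul ((continuous_ZM hw).comp (continuous_pi fun x => ?_))
      fun_prop
    show Integrable (fun c : ℝ => ∫ g : I → ℝ, ‖ZM w M fun x => (f + B *ᵥ g) x + c‖ ∂(gau I)) _
    rw [h1]
    exact (h2.integrableOn_Icc (a := 0) (b := 1)).mono_set Set.Ioc_subset_Icc_self

/-- **heat flow of every charge sector** -/
theorem chn_phi (h : Chn M M' B K) (hw : WM w M') (f : V → ℝ) {φ : ℝ → ℂ} (hφ : Continuous φ)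
    (hb : ∀ c, ‖φ c‖ ≤ 1) :
    Integrable (fun g : I → ℝ => ∫ c in (0 : ℝ)..1, (ZM w M (fun x => (f + B *ᵥ g) x + c) : ℂ) * φ c)
        (gau I) ∧
      ∫ g, (∫ c in (0 : ℝ)..1, (ZM w M (fun x => (f + B *ᵥ g) x + c) : ℂ) * φ c) ∂(gau I) =
        (cN M B : ℂ) * ∫ c in (0 : ℝ)..1, (ZM w M' (fun x => f x + c) : ℂ) * φ c := by
  have hint := chn_prod_int h hw f
  have hI : Integrable (fun p : (I → ℝ) × ℝ => (ZM w M (fun x => (f + B *ᵥ p.1) x + p.2) : ℂ) * φ p.2)
      ((gau I).prod (volume.restrict (Set.Ioc (0 : ℝ) 1))) := by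
    refine hint.ofReal.mul_bdd (c := 1) ?_ (Filter.Eventually.of_forall fun p => hb _)
    exact (hφ.comp continuous_snd).aestronglyMeasurable
  have e : ∀ (g : I → ℝ) (c : ℝ), (fun x => (f + B *ᵥ g) x + c) = (fun x => f x + c) + B *ᵥ g := by
    intro g c
    funext x
    simp only [Pi.add_apply]
    ring
  simp only [intervalIntegral.integral_of_le zero_le_one]
  refine ⟨hI.integral_prod_left, ?_⟩
  rw [integral_integral_swap hI, ← integral_const_mul]
  refine integral_congr_ae (Filter.Eventually.of_forall fun c => ?_)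
  simp only
  rw [integral_mul_const, ← mul_assoc]
  congr 1
  simp only [e]
  rw [integral_complex_ofReal, chn_ZM h hw.em]
  push_cast
  rfl

theorem chn_Zq (h : Chn M M' B K) (hw : WM w M') (q : ℤ) (f : V → ℝ) :
    ∫ g, Zq w M q (f + B *ᵥ g) ∂(gau I) = (cN M B : ℂ) * Zq w M' q f := by
  refine (chn_phi h hw f (φ := fun c => Complex.exp (-(2 * Real.pi * q * c) * Complex.I))
    (by fun_prop) fun c => ?_).2
  have : (-(2 * Real.pi * q * c) * Complex.I : ℂ) = ((-(2 * Real.pi * q * c) : ℝ) : ℂ) * Complex.I := by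
    push_cast; ring
  rw [this, Complex.norm_exp_ofReal_mul_I]

theorem chn_Zq_int (h : Chn M M' B K) (hw : WM w M') (q : ℤ) (f : V → ℝ) :
    Integrable (fun g => Zq w M q (f + B *ᵥ g)) (gau I) := by
  refine (chn_phi h hw f (φ := fun c => Complex.exp (-(2 * Real.pi * q * c) * Complex.I))
    (by fun_prop) fun c => ?_).1
  have : (-(2 * Real.pi * q * c) * Complex.I : ℂ) = ((-(2 * Real.pi * q * c) : ℝ) : ℂ) * Complex.I := by
    push_cast; ring
  rw [this, Complex.norm_exp_ofReal_mul_I]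

lemma Zn_ofReal (w : (V → ℤ) → ℝ) (M : Matrix V V ℝ) (F : V → ℝ) :
    (Zn w M F : ℂ) = ∫ c in (0 : ℝ)..1, (ZM w M (fun x => F x + c) : ℂ) * (fun _ : ℝ => (1 : ℂ)) c := by
  unfold Zn
  simp only [mul_one]
  exact intervalIntegral.integral_ofReal.symm

theorem chn_Zn_int (h : Chn M M' B K) (hw : WM w M') (f : V → ℝ) :
    Integrable (fun g => Zn w M (f + B *ᵥ g)) (gau I) := by
  have h1 := (chn_phi h hw f (φ := fun _ => 1) continuous_const fun c => by simp).1
  simp only [← Zn_ofReal] at h1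
  have h2 := h1.re
  simpa using h2

/-- **heat flow of the neutral partition function** -/
theorem chn_Zn (h : Chn M M' B K) (hw : WM w M') (f : V → ℝ) :
    ∫ g, Zn w M (f + B *ᵥ g) ∂(gau I) = cN M B * Zn w M' f := by
  have h1 := (chn_phi h hw f (φ := fun _ => 1) continuous_const fun c => by simp).2
  simp only [← Zn_ofReal] at h1
  rw [integral_complex_ofReal] at h1
  exact_mod_cast h1

/-! ### the normalised charge functional -/

/-- `Φ⁽q⁾(F) = Z⁽q⁾(F) / Z⁰(F)` -/
def Ph (w : (V → ℤ) → ℝ) (M : Matrix V V ℝ) (q : ℤ) (F : V → ℝ) : ℂ := Zq w M q F / Zn w M F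

/-- the activity `ω_q = Φ⁽q⁾(0)` -/
def om (w : (V → ℤ) → ℝ) (M : Matrix V V ℝ) (q : ℤ) : ℝ := Aw w M q 0 / Zn w M 0

theorem Ph_zero (hw : WM w M) (q : ℤ) : Ph w M q 0 = (om w M q : ℂ) := by
  unfold Ph om
  rw [Zq_zero hw]
  push_cast
  rfl

theorem om_nonneg (hw : WM w M) (q : ℤ) : 0 ≤ om w M q :=
  div_nonneg (Aw_nonneg hw q 0) (Zn_pos hw 0).le

/-- **`|Φ⁽q⁾(F)| ≤ ω_q`** -/
theorem norm_Ph_le (hw : WM w M) (q : ℤ) (F : V → ℝ) : ‖Ph w M q F‖ ≤ om w M q := by
  unfold Ph om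
  have h1 := Zq_le hw q F
  have h2 := Zn_pos hw F
  have h3 := Zn_pos hw 0
  rw [norm_div, Complex.norm_real, Real.norm_eq_abs, abs_of_pos h2, div_le_div_iff₀ h2 h3]
  linarith

/-- conditional law at level `M` given the field `f` at level `M'` -/
def E0 (w : (V → ℤ) → ℝ) (M : Matrix V V ℝ) (B : Matrix V I ℝ) (f : V → ℝ) (Ψ : (I → ℝ) → ℂ) : ℂ :=
  (∫ g, Ψ g * (Zn w M (f + B *ᵥ g) : ℂ) ∂(gau I)) / ∫ g, (Zn w M (f + B *ᵥ g) : ℂ) ∂(gau I)

/-- **tower property of the charge functional** -/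
theorem Ph_tower (h : Chn M M' B K) (hw : WM w M') (q : ℤ) (f : V → ℝ) :
    Ph w M' q f = E0 w M B f fun g => Ph w M q (f + B *ᵥ g) := by
  have hwM := h.wm hw
  unfold E0
  have h1 : ∀ g : I → ℝ, Ph w M q (f + B *ᵥ g) * (Zn w M (f + B *ᵥ g) : ℂ) =
      Zq w M q (f + B *ᵥ g) := by
    intro g
    unfold Ph
    rw [div_mul_cancel₀]
    exact_mod_cast (Zn_pos hwM _).ne'
  simp only [h1]
  rw [chn_Zq h hw, integral_complex_ofReal, chn_Zn h hw]
  unfold Ph
  have hc : ((cN M B : ℝ) : ℂ) ≠ 0 := by exact_mod_cast (cN_pos (B := B) h.nn).ne'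
  push_cast
  rw [mul_div_mul_left _ _ hc]

/-- the activity decreases along the flow -/
theorem om_mono (h : Chn M M' B K) (hw : WM w M') (q : ℤ) : om w M' q ≤ om w M q := by
  have hwM := h.wm hw
  have h1 := Ph_tower h hw q 0
  rw [Ph_zero hw] at h1
  have h2 : ‖(om w M' q : ℂ)‖ ≤ om w M q := by
    rw [h1]
    unfold E0
    rw [norm_div, integral_complex_ofReal, Complex.norm_real, Real.norm_eq_abs,
      abs_of_pos (by rw [chn_Zn h hw]; exact mul_pos (cN_pos h.nn) (Zn_pos hw 0))]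
    rw [div_le_iff₀ (by rw [chn_Zn h hw]; exact mul_pos (cN_pos h.nn) (Zn_pos hw 0)),
      ← integral_const_mul]
    refine norm_integral_le_of_norm_le ((chn_Zn_int h hw 0).const_mul _)
      (Filter.Eventually.of_forall fun g => ?_)
    rw [norm_mul, Complex.norm_real, Real.norm_eq_abs, abs_of_pos (Zn_pos hwM _)]
    exact mul_le_mul_of_nonneg_right (norm_Ph_le hwM q _) (Zn_pos hwM _).le
  rwa [Complex.norm_real, Real.norm_eq_abs, abs_of_nonneg (om_nonneg hw q)] at h2

end

end Vale.Agent.P159.H896
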