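import Vale.Agent.P159.H896.Flow
import Vale.Agent.P159.H789.Tor

/-!
P159, module CHG (helper896): instances. The standing hypotheses `WM` on the torus, the white
channel, the projected channel (cells), the constant mode and the a-priori bound
`ω_q ≤ exp (-2 π² q² / <1, M 1>)`.
-/

open MeasureTheory Finset Matrix
open Vale.Agent.P159.TM.H104 (EM nh li)
open Vale.Agent.P159.H37 (wM ZM qf bf Zn Zq Un Ev gau gau_shift)

set_option linter.unusedSectionVars false

namespace Vale.Agent.P159.H896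

noncomputable section

/-! ### the torus -/

section torus

open Vale.Agent.P159.TM.SpecC (wT Tor)

variable {N : ℕ} [NeZero N] {b : ℝ}

lemma wT_per (h : Tor N → ℤ) : wT b N (h + 1) = wT b N h := by
  unfold wT
  refine Finset.prod_congr rfl fun x _ => ?_
  simp

/-- **standing hypotheses for the torus weight and any symmetric coercive mass form** -/
theorem wm_wT (hb : 0 ≤ b) {M : Matrix (Tor N) (Tor N) ℝ} {m0 : ℝ} (hm0 : 0 < m0) (hS : Mᵀ = M)
    (hM : ∀ u : Tor N → ℝ, m0 * ∑ x, u x ^ 2 ≤ qf M u) : WM (wT b N) M where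
  sym := hS
  em := H789.em_wM_wT hb hm0 hM
  ev := H789.wT_even
  per := wT_per
  dg := dg_mass hS (dg_wT hb N)

theorem wm_t (hb : 0 ≤ b) {t : ℝ} (ht : 0 < t) :
    WM (wT b N) (t • (1 : Matrix (Tor N) (Tor N) ℝ)) :=
  wm_wT hb ht (by rw [transpose_smul, transpose_one]) (H789.coer_smul t)

end torus

/-! ### channels -/

variable {V : Type} [Fintype V] {I : Type} [Fintype I]

/-- noise `√σ Q g`, `Q` an orthogonal projection commuting with the mass, `M Q = τ Q` -/
theorem chn_proj [DecidableEq V] {M Q : Matrix V V ℝ} {τ σ : ℝ} (hM : Mᵀ = M)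
    (hn : ∀ u : V → ℝ, 0 ≤ qf M u)
    (hQ : Qᵀ = Q) (hQQ : Q * Q = Q) (hMQ : M * Q = τ • Q) (hτ : 0 ≤ τ) (hσ : 0 ≤ σ) :
    Chn M (M - (σ * τ ^ 2 / (1 + σ * τ)) • Q) (√σ • Q) ((√σ * τ / (1 + σ * τ)) • Q) := by
  have hQM : Q * M = τ • Q := by
    have := congrArg transpose hMQ
    rw [transpose_mul, transpose_smul, hQ, hM] at this
    exact this
  have h1 : 1 + σ * τ ≠ 0 := by positivity
  have hs : √σ * √σ = σ := Real.mul_self_sqrt hσ
  refine ⟨hM, hn, ?_, ?_⟩
  · rw [transpose_smul, hQ]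
    simp only [Matrix.smul_mul, Matrix.mul_smul, smul_smul, hQM, hQQ]
    rw [← add_smul]
    congr 1
    field_simp
    linear_combination (√σ * τ ^ 2) * hs
  · simp only [Matrix.smul_mul, Matrix.mul_smul, smul_smul, hMQ, hQQ]
    congr 2
    field_simp
    linear_combination (-τ ^ 2) * hs

/-- noise `√σ Rᵀ g` with orthonormal rows, `M Rᵀ = τ Rᵀ` (cells: `R = cob N l`) -/
theorem chn_row [DecidableEq V] [DecidableEq I] {M : Matrix V V ℝ} {R : Matrix I V ℝ} {τ σ : ℝ}
    (hM : Mᵀ = M) (hn : ∀ u : V → ℝ, 0 ≤ qf M u)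
    (hR : R * Rᵀ = 1) (hMR : M * Rᵀ = τ • Rᵀ) (hτ : 0 ≤ τ) (hσ : 0 ≤ σ) :
    Chn M (M - (σ * τ ^ 2 / (1 + σ * τ)) • (Rᵀ * R)) (√σ • Rᵀ) ((√σ * τ / (1 + σ * τ)) • R) := by
  have hRM : R * M = τ • R := by
    have := congrArg transpose hMR
    rw [transpose_mul, transpose_smul, transpose_transpose, hM] at this
    exact this
  have h1 : 1 + σ * τ ≠ 0 := by positivity
  have hs : √σ * √σ = σ := Real.mul_self_sqrt hσ
  refine ⟨hM, hn, ?_, ?_⟩
  · rw [transpose_smul, transpose_transpose]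
    simp only [Matrix.smul_mul, Matrix.mul_smul, smul_smul, hRM, hR, Matrix.one_mul]
    rw [← add_smul]
    congr 1
    field_simp
    linear_combination (√σ * τ ^ 2) * hs
  · simp only [Matrix.smul_mul, Matrix.mul_smul, smul_smul, hMR]
    congr 2
    field_simp
    linear_combination (-τ ^ 2) * hs

/-- noise in one direction `u`; the mass below is the given one `M'`, the mass above is
`M' + κ (M' u)(M' u)ᵀ`, `κ = σ / (1 - σ <u, M' u>)`, noise variance `σ < 1 / <u, M' u>` -/
theorem chn_dir {M' : Matrix V V ℝ} {σ : ℝ} (u : V → ℝ) (hM : M'ᵀ = M')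
    (hn : ∀ u : V → ℝ, 0 ≤ qf M' u) (hσ : 0 ≤ σ) (h1 : σ * qf M' u < 1) :
    Chn (M' + (σ / (1 - σ * qf M' u)) • Matrix.vecMulVec (M' *ᵥ u) (M' *ᵥ u)) M'
      (√σ • Matrix.of fun x (_ : Unit) => u x)
      (√σ • Matrix.of fun (_ : Unit) y => (M' *ᵥ u) y) := by
  set m := M' *ᵥ u with hm
  set κ := σ / (1 - σ * qf M' u) with hκ
  have hd : 1 - σ * qf M' u ≠ 0 := ne_of_gt (by linarith)
  have hs : √σ * √σ = σ := Real.mul_self_sqrt hσ
  have hum : u ⬝ᵥ m = qf M' u := by rw [H37.qf_eq]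
  set a := qf M' u with ha
  have hk : κ * (1 - σ * a) = σ := by
    rw [hκ]; exact div_mul_cancel₀ _ hd
  -- `M u = (1 + κ a) m`
  have hMu : (M' + κ • Matrix.vecMulVec m m) *ᵥ u = (1 + κ * a) • m := by
    rw [add_mulVec, smul_mulVec, vecMulVec_mulVec, ← hm]
    funext x
    have e : m ⬝ᵥ u = a := by rw [dotProduct_comm, hum]
    simp only [Pi.add_apply, Pi.smul_apply, smul_eq_mul, e, MulOpposite.smul_eq_mul_unop,
      MulOpposite.unop_op]
    ring
  have hsym : (M' + κ • Matrix.vecMulVec m m)ᵀ = M' + κ • Matrix.vecMulVec m m := by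
    rw [transpose_add, hM, transpose_smul, transpose_vecMulVec]
  have hfac : (1 + κ * a) * (1 - σ * a) = 1 := by
    have : (1 + κ * a) * (1 - σ * a) = (1 - σ * a) + a * (κ * (1 - σ * a)) := by ring
    rw [this, hk]; ring
  have hfs : (1 + κ * a) * σ = κ := by
    have h5 : (1 + κ * a) * σ = (1 + κ * a) * (κ * (1 - σ * a)) := by rw [hk]
    rw [h5]
    linear_combination κ * hfac
  set M := M' + κ • Matrix.vecMulVec m m with hMdef
  have hMB : M * (√σ • Matrix.of fun x (_ : Unit) => u x) =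
      (√σ * (1 + κ * a)) • Matrix.of fun x (_ : Unit) => m x := by
    ext x i
    have h6 := congrFun hMu x
    simp only [mulVec, dotProduct, Pi.smul_apply, smul_eq_mul] at h6
    simp only [Matrix.smul_apply, mul_apply, Matrix.of_apply, smul_eq_mul]
    have h7 : ∑ j, M x j * (√σ * u j) = √σ * ∑ j, M x j * u j := by
      rw [Finset.mul_sum]
      exact Finset.sum_congr rfl fun j _ => by ring
    rw [h7, h6]
    ring
  have hBM : (√σ • Matrix.of fun x (_ : Unit) => u x)ᵀ * M =
      (√σ * (1 + κ * a)) • Matrix.of fun (_ : Unit) y => m y := by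
    have h7 := congrArg transpose hMB
    rw [transpose_mul, hsym] at h7
    rw [h7]
    ext i y
    simp
  refine ⟨hsym, fun v => ?_, ?_, ?_⟩
  · have hv : qf (κ • Matrix.vecMulVec m m) v = κ * (m ⬝ᵥ v) ^ 2 := by
      rw [H37.qf_eq, smul_mulVec, vecMulVec_mulVec, dotProduct_smul]
      have : v ⬝ᵥ (MulOpposite.op (m ⬝ᵥ v) • m) = (m ⬝ᵥ v) * (v ⬝ᵥ m) := by
        simp only [dotProduct, Pi.smul_apply, MulOpposite.smul_eq_mul_unop, MulOpposite.unop_op]
        rw [Finset.mul_sum]
        exact Finset.sum_congr rfl fun x _ => by ring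
      rw [this, dotProduct_comm v m, smul_eq_mul]
      ring
    rw [hMdef, H37.qf_add_mat, hv]
    have hκ0 : 0 ≤ κ := div_nonneg hσ (by linarith)
    have := hn v
    positivity
  · rw [hBM]
    ext i y
    have h8 : ∑ x, m x * u x = a := by rw [← hum]; simp only [dotProduct, mul_comm]
    simp only [Matrix.add_apply, Matrix.smul_apply, Matrix.of_apply, smul_eq_mul, mul_apply,
      Finset.univ_unique, Finset.sum_singleton]
    have h9 : ∑ x, √σ * (1 + κ * a) * m x * (√σ * u x) = σ * (1 + κ * a) * a := by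
      have h10 : ∑ x, √σ * (1 + κ * a) * m x * (√σ * u x) = (√σ * √σ) * (1 + κ * a) * ∑ x, m x * u x := by
        rw [Finset.mul_sum]
        exact Finset.sum_congr rfl fun x _ => by ring
      rw [h10, hs, h8]
    rw [h9]
    linear_combination (√σ * m y * a) * hfs
  · rw [hMB]
    ext x y
    simp only [hMdef, Matrix.add_apply, Matrix.sub_apply, Matrix.smul_apply, Matrix.of_apply,
      smul_eq_mul, mul_apply, Finset.univ_unique, Finset.sum_singleton, vecMulVec_apply]
    linear_combination (m x * m y) * hfs + ((1 + κ * a) * m x * m y) * hs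

end

end Vale.Agent.P159.H896
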