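import Vale.Agent.P159.H896.Chm
import Mathlib.Analysis.Fourier.AddCircle
import Mathlib.NumberTheory.ModularForms.JacobiTheta.TwoVariable

/-!
P159, module CHG (helper896): Fourier series in the constant mode; the total activity
`Om = Z(0) / Z⁰(0) - 1 = Σ_{q ≠ 0} ω_q`; `|Z(F + c) - Z⁰(F)| ≤ Om Z⁰(F)` for every `F`.
-/

open MeasureTheory Finset Matrix
open scoped ComplexConjugate
open Vale.Agent.P159.TM.H104 (EM nh li)
open Vale.Agent.P159.H37 (wM ZM qf bf Zn Zq Un Ev gau gau_shift)

set_option linter.unusedSectionVars false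

namespace Vale.Agent.P159.H896

noncomputable section

variable {V : Type} [Fintype V] {w : (V → ℤ) → ℝ} {M M' : Matrix V V ℝ}

/-- the standing hypotheses plus positivity of the mass form -/
structure WP (w : (V → ℤ) → ℝ) (M : Matrix V V ℝ) : Prop extends WM w M where
  nn : ∀ u : V → ℝ, 0 ≤ qf M u
  one : 0 < qf M 1

lemma summable_gauss {a : ℝ} (ha : 0 < a) :
    Summable fun q : ℤ => Real.exp (-(2 * Real.pi ^ 2 * q ^ 2 / a)) := by
  have h1 := summable_pow_mul_jacobiTheta₂_term_bound 0 (T := 2 * Real.pi / a) (by positivity) 0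
  refine h1.congr fun q => ?_
  rw [pow_zero, one_mul]
  congr 1
  ring

theorem summable_om (h : WP w M) : Summable fun q : ℤ => om w M q :=
  Summable.of_nonneg_of_le (fun q => om_nonneg h.toWM q)
    (fun q => om_le_exp h.toWM h.nn h.one q) (summable_gauss h.one)

theorem norm_Zq_le_om (h : WM w M) (q : ℤ) (F : V → ℝ) : ‖Zq w M q F‖ ≤ om w M q * Zn w M F := by
  have h1 := norm_Ph_le h q F
  unfold Ph at h1
  have h2 := Zn_pos h F
  rw [norm_div, Complex.norm_real, Real.norm_eq_abs, abs_of_pos h2, div_le_iff₀ h2] at h1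
  exact h1

theorem summable_Zq (h : WP w M) (F : V → ℝ) : Summable fun q : ℤ => Zq w M q F :=
  Summable.of_norm_bounded ((summable_om h).mul_right (Zn w M F))
    fun q => norm_Zq_le_om h.toWM q F

lemma periodic_line (h : WM w M) (F : V → ℝ) :
    Function.Periodic (fun c : ℝ => (ZM w M (fun x => F x + c) : ℂ)) 1 := by
  intro c
  have h1 := (zp_ZMc h).per (cr fun x => F x + c)
  have e : sh (cr fun x => F x + c) 1 = cr fun x => F x + (c + 1) := by
    funext x
    simp [sh, cr]
    ring
  rw [e, ZMc_real, ZMc_real] at h1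
  exact h1


/-- the line as a continuous function on the circle -/
def lineC (h : WM w M) (F : V → ℝ) : C(AddCircle (1 : ℝ), ℂ) where
  toFun := (periodic_line h F).lift
  continuous_toFun := by
    refine continuous_coinduced_dom.mpr ?_
    exact Complex.continuous_ofReal.comp (continuous_line h F)

lemma lineC_coe (h : WM w M) (F : V → ℝ) (c : ℝ) :
    lineC h F (c : AddCircle (1 : ℝ)) = (ZM w M (fun x => F x + c) : ℂ) := rfl

lemma fourierCoeff_lineC [hT : Fact ((0 : ℝ) < 1)] (h : WM w M) (F : V → ℝ) (q : ℤ) :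
    fourierCoeff (lineC h F) q = Zq w M q F := by
  rw [fourierCoeff_eq_intervalIntegral _ _ 0]
  rw [zero_add, div_one, one_smul]
  unfold Zq
  refine intervalIntegral.integral_congr fun c _ => ?_
  show fourier (-q) (c : AddCircle (1 : ℝ)) • lineC h F (c : AddCircle (1 : ℝ)) = _
  rw [lineC_coe, fourier_coe_apply, smul_eq_mul, mul_comm]
  congr 2
  push_cast
  ring

/-- **Fourier series in the constant mode** -/
theorem hasSum_ZM (h : WP w M) (F : V → ℝ) (c : ℝ) :
    HasSum (fun q : ℤ => ph (-q) c * Zq w M q F) (ZM w M (fun x => F x + c) : ℂ) := by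
  have hT : Fact ((0 : ℝ) < 1) := ⟨zero_lt_one⟩
  have h1 := has_pointwise_sum_fourier_series_of_summable (f := lineC h.toWM F) (by
    refine (summable_Zq h F).congr fun q => ?_
    rw [fourierCoeff_lineC]) (c : AddCircle (1 : ℝ))
  rw [lineC_coe] at h1
  refine h1.congr_fun fun q => ?_
  rw [fourierCoeff_lineC, fourier_coe_apply, smul_eq_mul, mul_comm]
  unfold ph
  congr 2
  push_cast
  ring

/-- the total activity -/
def Om (w : (V → ℤ) → ℝ) (M : Matrix V V ℝ) : ℝ := ZM w M 0 / Zn w M 0 - 1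

theorem hasSum_om (h : WP w M) : HasSum (fun q : ℤ => om w M q) (1 + Om w M) := by
  have h1 := hasSum_ZM h 0 0
  have e : (fun x : V => (0 : V → ℝ) x + 0) = 0 := by funext x; simp
  rw [e] at h1
  have h2 : HasSum (fun q : ℤ => (om w M q : ℂ)) (((1 + Om w M : ℝ)) : ℂ) := by
    have h3 := h1.div_const (Zn w M 0 : ℂ)
    have e2 : (ZM w M 0 : ℂ) / (Zn w M 0 : ℂ) = ((1 + Om w M : ℝ) : ℂ) := by
      unfold Om; push_cast; ring
    rw [e2] at h3
    refine h3.congr_fun fun q => ?_
    rw [ph_zero_right, one_mul, ← Ph_zero h.toWM]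
    rfl
  exact_mod_cast h2

theorem Om_eq (h : WP w M) : Om w M = ∑' q : ℤ, if q = 0 then 0 else om w M q := by
  have h1 := (hasSum_om h).tsum_eq
  have h2 := (summable_om h).tsum_eq_add_tsum_ite 0
  rw [h1, om_zero h.toWM] at h2
  linarith

theorem Om_nonneg (h : WP w M) : 0 ≤ Om w M := by
  rw [Om_eq h]
  refine tsum_nonneg fun q => ?_
  split_ifs
  · exact le_rfl
  · exact om_nonneg h.toWM q

/-- **oscillation of `Z` in the constant mode, every background** -/
theorem abs_ZM_sub_le (h : WP w M) (F : V → ℝ) (c : ℝ) :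
    |ZM w M (fun x => F x + c) - Zn w M F| ≤ Om w M * Zn w M F := by
  have h1 := hasSum_ZM h F c
  have h2 := h1.summable.tsum_eq_add_tsum_ite 0
  rw [h1.tsum_eq, neg_zero, ph_zero_left, one_mul, Zq_zero_eq] at h2
  have h3 : ((ZM w M (fun x => F x + c) - Zn w M F : ℝ) : ℂ) =
      ∑' q : ℤ, if q = 0 then 0 else ph (-q) c * Zq w M q F := by
    push_cast
    rw [h2]
    ring
  have h4 : ‖((ZM w M (fun x => F x + c) - Zn w M F : ℝ) : ℂ)‖ ≤ Om w M * Zn w M F := by
    rw [h3]
    have hs : Summable fun q : ℤ => (if q = 0 then 0 else om w M q) * Zn w M F := by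
      refine Summable.mul_right _ (Summable.of_nonneg_of_le (fun q => ?_) (fun q => ?_)
        (summable_om h))
      · split_ifs
        · exact le_rfl
        · exact om_nonneg h.toWM q
      · split_ifs
        · exact om_nonneg h.toWM q
        · exact le_rfl
    have h5 := tsum_of_norm_bounded hs.hasSum (f := fun q : ℤ => if q = 0 then 0 else
      ph (-q) c * Zq w M q F) (fun q => ?_)
    · rw [tsum_mul_right, ← Om_eq h] at h5
      exact h5
    · split_ifs with hq
      · simp
      · rw [norm_mul, norm_ph, one_mul]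
        exact norm_Zq_le_om h.toWM q F
  rwa [Complex.norm_real, Real.norm_eq_abs] at h4

theorem two_om_le (h : WP w M) {q : ℤ} (hq : q ≠ 0) : 2 * om w M q ≤ Om w M := by
  rw [Om_eq h]
  have hs : Summable fun q : ℤ => (if q = 0 then 0 else om w M q) := by
    refine Summable.of_nonneg_of_le (fun q => ?_) (fun q => ?_) (summable_om h)
    · split_ifs
      · exact le_rfl
      · exact om_nonneg h.toWM q
    · split_ifs
      · exact om_nonneg h.toWM q
      · exact le_rfl
  have h1 := hs.sum_le_tsum ({q, -q} : Finset ℤ) (fun p _ => by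
    split_ifs
    · exact le_rfl
    · exact om_nonneg h.toWM p)
  have hne : q ≠ -q := by omega
  rw [Finset.sum_pair hne] at h1
  have h2 : -q ≠ 0 := by omega
  simp only [hq, h2, if_false, om_neg h.toWM] at h1
  linarith

/-- products of activities -/
theorem om_mul_le (h : WM w M) (r s : ℤ) :
    (om w M r * om w M s) ^ 2 ≤ om w M (r + s) * om w M (r - s) := by
  have h1 := Aw_mul_le h r s 0 0
  have h2 := Zn_pos h 0
  have h0 : Aw w M 0 0 = Zn w M 0 := by
    have := om_zero h
    unfold om at this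
    rwa [div_eq_one_iff_eq h2.ne'] at this
  rw [add_zero, sub_zero] at h1
  unfold om
  rw [div_mul_div_comm, div_pow, div_mul_div_comm, div_le_div_iff₀ (by positivity) (by positivity)]
  nlinarith [mul_le_mul_of_nonneg_right h1 (by positivity : 0 ≤ Zn w M 0 * Zn w M 0)]

theorem om_one_pow_le (h : WM w M) : om w M 1 ^ 4 ≤ om w M 2 := by
  have h1 := om_mul_le h 1 1
  have e1 : (1 : ℤ) + 1 = 2 := rfl
  have e2 : (1 : ℤ) - 1 = 0 := rfl
  rw [e1, e2, om_zero h, mul_one] at h1
  nlinarith [h1]

/-! ### the torus -/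

section torus

open Vale.Agent.P159.TM.SpecC (wT Tor)

variable {N : ℕ} [NeZero N] {b : ℝ}

theorem wp_wT (hb : 0 ≤ b) {M : Matrix (Tor N) (Tor N) ℝ} {m0 : ℝ} (hm0 : 0 < m0) (hS : Mᵀ = M)
    (hM : ∀ u : Tor N → ℝ, m0 * ∑ x, u x ^ 2 ≤ qf M u) : WP (wT b N) M where
  toWM := wm_wT hb hm0 hS hM
  nn := fun u => le_trans (mul_nonneg hm0.le (Finset.sum_nonneg fun _ _ => sq_nonneg _)) (hM u)
  one := by
    refine lt_of_lt_of_le ?_ (hM 1)
    have : (0 : ℝ) < ∑ x : Tor N, (1 : Tor N → ℝ) x ^ 2 := by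
      refine Finset.sum_pos (fun x _ => by simp) ⟨0, Finset.mem_univ _⟩
    positivity

theorem wp_t (hb : 0 ≤ b) {t : ℝ} (ht : 0 < t) :
    WP (wT b N) (t • (1 : Matrix (Tor N) (Tor N) ℝ)) :=
  wp_wT hb ht (by rw [transpose_smul, transpose_one]) (H789.coer_smul t)

end torus

end

end Vale.Agent.P159.H896
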