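import Vale.Agent.P159.H896.CombU
import Vale.Agent.P159.H730.Law

/-!
P159, module CHG (helper896): the law of the source of the neutral cell channel in the letters of the
typical law: `Ech (nMC N l b t a) 0 (obsN N l (τ - a)) Φ` is the mean of `Φ` at the source of a typical
cell field `F = pin A g` with density `W(F) exp(-κ|F|²/2)`, `κ = l² τ a/(τ - a)`; limit `a → 0`.
-/

open MeasureTheory Finset Matrix Filter Topology
open Vale.Agent.P159.TM.H104 (EM nh li)
open Vale.Agent.P159.H37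
open Vale.Agent.P159.H363 (Pg n2 Nf acl sn lf gm Wcl Rcl)
open Vale.Agent.P159.H462 (ahat ti_ahat sym_ahat)
open Vale.Agent.P159.H864 (TI sym MC cobV cl up fc Gc)
open Vale.Agent.P159.H963 (Pn Gnc nMC obsN ntr Neu)
open Vale.Agent.P159.H730 (RL Hm)
open Vale.Agent.P159.TM.Spec (V)
open Vale.Agent.P159.TM.SpecC (wT)

set_option linter.unusedSectionVars false

namespace Vale.Agent.P159.H896

noncomputable section

variable {N l : ℕ} [NeZero N] [NeZero (N / l)] {b t τ a : ℝ}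

/-- the source of a cell field -/
def srcF (N l : ℕ) [NeZero N] [NeZero (N / l)] (t τ : ℝ) (F : V (N / l) → ℝ) : V N → ℝ :=
  ntr (MC N l t τ) τ *ᵥ lf N l F

/-- the matrix of the source -/
def srcM (N l : ℕ) [NeZero N] [NeZero (N / l)] (τ : ℝ) : Matrix (V N) (V (N / l)) ℝ :=
  (τ * l) • ((cobV N l)ᵀ * (Pn : Matrix (V (N / l)) (V (N / l)) ℝ))

lemma srcF_const (F : V (N / l) → ℝ) (hl : l ∣ N) (hτ : 0 < τ) (h : τ ≤ t) (c : ℝ) :
    srcF N l t τ (fun x => F x + c) = srcF N l t τ F := by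
  unfold srcF
  rw [H363.lf_cs]
  have h1 : (fun v => lf N l F v + c) = lf N l F + c • fun _ => (1 : ℝ) := by
    funext v
    simp
  rw [h1, mulVec_add, mulVec_smul]
  have h2 : ntr (MC N l t τ) τ *ᵥ (fun _ => (1 : ℝ)) = 0 := by
    funext v
    have := H963.ntr_row ((H963.mf_MC hl hτ h).row) v
    simpa [mulVec, dotProduct] using this
  rw [h2, smul_zero, add_zero]

lemma srcF_eq (hl : l ∣ N) (hτ : 0 < τ) (h : τ ≤ t) (F : V (N / l) → ℝ) :
    srcF N l t τ F = srcM N l τ *ᵥ F := by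
  set G : V (N / l) → ℝ := (Pn : Matrix (V (N / l)) (V (N / l)) ℝ) *ᵥ F with hG
  have hGn : Neu G := H963.neu_Pn F
  have hFG : F = fun x => G x + (∑ y, F y) / Fintype.card (V (N / l)) := by
    funext x
    rw [hG, H963.Pn_mulVec]
    ring
  have hneu : Neu (lf N l G) := by
    rw [H363.lf_eq hl]
    exact (H963.neu_cobV_tr hl hGn).smul _
  have e1 : srcF N l t τ F = srcF N l t τ G := by
    conv_lhs => rw [hFG]
    exact srcF_const G hl hτ h _
  rw [e1]
  unfold srcF srcM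
  rw [H963.ntr_of_neu _ _ hneu, H363.lf_eq hl, mulVec_smul, H864.MC_mulVec_tr hl, smul_smul,
    smul_mulVec, ← mulVec_mulVec, ← hG]
  congr 1
  ring

lemma Rcl_eq (N l : ℕ) [NeZero N] [NeZero (N / l)] (b t τ : ℝ) (F : V (N / l) → ℝ) :
    Rcl N l b t τ F = Rs (nMC N l b t τ 0) (srcF N l t τ F) := rfl

/-- covariance of the observation -/
lemma Hm_obsN (hl : l ∣ N) {q : ℝ} (hq : 0 ≤ q) :
    Hm (nMC N l b t τ 0) (obsN N l q) = q • Gnc N l b t τ := by
  unfold H730.Hm obsN Gnc H864.Gc H963.GnC H963.Cn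
  rw [transpose_smul, Matrix.smul_mul, Matrix.mul_smul, Matrix.smul_mul, smul_smul,
    Real.mul_self_sqrt hq, transpose_mul, H963.Pn_transpose, ← H963.cobV_mul_Pn hl]
  congr 1
  have e : ((cobV N l)ᵀ * (Pn : Matrix (V (N / l)) (V (N / l)) ℝ))
      = (Pn : Matrix (V N) (V N) ℝ) * (cobV N l)ᵀ := by
    have h1 := congrArg Matrix.transpose (H963.cobV_mul_Pn (N := N) hl)
    rw [transpose_mul, transpose_mul, H963.Pn_transpose, H963.Pn_transpose] at h1
    exact h1.symm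
  rw [e]
  simp only [Matrix.mul_assoc]
  rfl

/-- the form of the channel with prior mass `a` -/
def kap (l : ℕ) (τ a : ℝ) : ℝ := (l : ℝ) ^ 2 * τ * a / (τ - a)

lemma kap_pos (hl : l ∣ N) (ha : 0 < a) (h : a < τ) : 0 < kap l τ a := by
  have hlp : (0 : ℝ) < l := by exact_mod_cast H864.l_pos hl
  have h1 : 0 < τ := ha.trans h
  have h2 : 0 < τ - a := by linarith
  unfold kap
  positivity

/-- root of the pseudo-inverse of `A + κ` on neutral fields -/
def pinK {n : ℕ} [NeZero n] (A : Matrix (V n) (V n) ℝ) (κ : ℝ) : Matrix (V n) (V n) ℝ :=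
  H363.pin (A + κ • (Pn : Matrix (V n) (V n) ℝ))

lemma nf_add {n : ℕ} [NeZero n] {A : Matrix (V n) (V n) ℝ} (hA : Nf A) {κ : ℝ} (hκ : 0 ≤ κ) :
    Nf (A + κ • (Pn : Matrix (V n) (V n) ℝ)) where
  ti := hA.ti.add (H963.ti_Pn.smul κ)
  pos := fun k hk => by
    rw [H864.sym_add, H864.sym_smul, H963.sym_Pn, if_neg hk]
    have := hA.pos k hk
    linarith
  zero := by
    rw [H864.sym_add, H864.sym_smul, H963.sym_Pn, if_pos rfl, hA.zero]
    ring

lemma sym_pinK {n : ℕ} [NeZero n] {A : Matrix (V n) (V n) ℝ} (hA : Nf A) (κ : ℝ) (k : V n) :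
    sym (pinK A κ) k = if k = 0 then 0 else √((sym A k + κ)⁻¹) := by
  unfold pinK
  rw [H363.sym_pin, H864.sym_add, H864.sym_smul, H963.sym_Pn]
  by_cases hk : k = 0
  · rw [if_pos hk, if_pos hk, hk, hA.zero]
    simp
  · rw [if_neg hk, if_neg hk, mul_one]

/-- **the reference law of the source of the cell channel** -/
theorem rl_cell (hb : 0 ≤ b) (hl : l ∣ N) (ha : 0 < a) (h1 : a < τ) (h : τ ≤ t)
    (hA : Nf (acl N l b t τ)) :
    RL (nMC N l b t a 0) (obsN N l (τ - a)) (srcM N l τ * pinK (acl N l b t τ) (kap l τ a)) := by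
  have hτ : 0 < τ := ha.trans h1
  have hq : 0 < τ - a := by linarith
  have hlp : (0 : ℝ) < l := by exact_mod_cast H864.l_pos hl
  have hpost : post (nMC N l b t a 0) (obsN N l (τ - a)) = nMC N l b t τ 0 :=
    H963.post_nMC hl b h1.le 0
  refine ⟨H963.em_nMC hb hl ha (h1.le.trans h) 0, ?_, ?_⟩
  · rw [hpost]
    exact fun J => H789.Rs_nonneg (H963.em_nMC hb hl hτ h 0) (H963.ev_nMC hb t τ 0)
      (H963.pk_nMC hb hl hτ h 0) J
  · rw [hpost, Hm_obsN hl hq.le]
    have tG : TI (Gnc N l b t τ) := H963.ti_Gnc hb hl hτ h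
    set Bk := fc (fun x => (1 - (τ - a) * x)⁻¹) (Gnc N l b t τ) with hBk
    have tB : TI Bk := H864.ti_fc _ _
    have hle : ∀ k, 0 < 1 - (τ - a) * sym (Gnc N l b t τ) k := by
      intro k
      have h2 := H963.sym_Gnc_le hb hl hτ h k
      have h3 : (τ - a) * sym (Gnc N l b t τ) k ≤ (τ - a) * τ⁻¹ :=
        mul_le_mul_of_nonneg_left h2 hq.le
      have h4 : (τ - a) * τ⁻¹ < 1 := by
        rw [← div_eq_mul_inv, div_lt_one hτ]
        linarith
      linarith
    have hinv : Bk * (1 - (τ - a) • Gnc N l b t τ) = 1 := by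
      refine H864.sym_inj (tB.mul (TI.one.sub (tG.smul _))) TI.one fun k => ?_
      rw [H864.sym_mul tB (TI.one.sub (tG.smul _)), H864.sym_sub, H864.sym_one, H864.sym_smul, hBk,
        H864.sym_fc]
      exact inv_mul_cancel₀ (hle k).ne'
    rw [Matrix.inv_eq_left_inv hinv]
    set pk := pinK (acl N l b t τ) (kap l τ a) with hpk
    have tp : TI pk := H363.ti_pin _
    have tP : TI (Pn : Matrix (V (N / l)) (V (N / l)) ℝ) := H963.ti_Pn
    have e1 : (Pn : Matrix (V (N / l)) (V (N / l)) ℝ) * (((τ * l) ^ 2) • (pk * pk)) * Pn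
        = Pn * ((τ - a) • Bk) * Pn := by
      refine H864.sym_inj ((tP.mul ((tp.mul tp).smul _)).mul tP) ((tP.mul (tB.smul _)).mul tP)
        fun k => ?_
      rw [H864.sym_mul (tP.mul ((tp.mul tp).smul _)) tP, H864.sym_mul tP ((tp.mul tp).smul _),
        H864.sym_mul (tP.mul (tB.smul _)) tP, H864.sym_mul tP (tB.smul _), H864.sym_smul,
        H864.sym_smul, H864.sym_mul tp tp, H963.sym_Pn, hBk, H864.sym_fc, hpk, sym_pinK hA]
      by_cases hk : k = 0
      · rw [if_pos hk]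
        ring
      · rw [if_neg hk, if_neg hk]
        have h5 := hA.pos k hk
        have hκ := kap_pos hl ha h1
        rw [Real.mul_self_sqrt (by positivity)]
        have h6 : sym (acl N l b t τ) k + kap l τ a
            = (l : ℝ) ^ 2 * τ ^ 2 * (1 - (τ - a) * sym (Gnc N l b t τ) k) / (τ - a) := by
          rw [H363.sym_acl, if_neg hk]
          unfold kap
          field_simp
          ring
        have h7 := hle k
        rw [h6]
        field_simp
    have e2 : srcM N l τ * pk * (srcM N l τ * pk)ᵀ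
        = (cobV N l)ᵀ * (Pn * (((τ * l) ^ 2) • (pk * pk)) * Pn) * cobV N l := by
      unfold srcM
      rw [transpose_mul, transpose_smul, transpose_mul, transpose_transpose, tp.transpose,
        tP.transpose]
      simp only [Matrix.smul_mul, Matrix.mul_smul, smul_smul, Matrix.mul_assoc]
      congr 1
      ring
    have e3 : (obsN N l (τ - a))ᵀ * Bk * obsN N l (τ - a)
        = (cobV N l)ᵀ * (Pn * ((τ - a) • Bk) * Pn) * cobV N l := by
      unfold obsN
      rw [transpose_smul, transpose_mul, tP.transpose]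
      simp only [Matrix.smul_mul, Matrix.mul_smul, smul_smul, Matrix.mul_assoc]
      rw [Real.mul_self_sqrt hq.le]
    rw [e2, e3, e1]

/-- **the law of the source of the cell channel** -/
theorem Ech_cell (hb : 0 ≤ b) (hl : l ∣ N) (ha : 0 < a) (h1 : a < τ) (h : τ ≤ t)
    (hA : Nf (acl N l b t τ)) {Φ : (V N → ℝ) → ℝ} (hΦ : Measurable Φ) :
    Ech (nMC N l b t a 0) 0 (obsN N l (τ - a)) Φ
      = (∫ g, Φ (srcF N l t τ (pinK (acl N l b t τ) (kap l τ a) *ᵥ g))
          * Wcl N l b t τ (pinK (acl N l b t τ) (kap l τ a) *ᵥ g) ∂(gau (V (N / l)))) /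
        ∫ g, Wcl N l b t τ (pinK (acl N l b t τ) (kap l τ a) *ᵥ g) ∂(gau (V (N / l))) := by
  have hτ : 0 < τ := ha.trans h1
  have hpost : post (nMC N l b t a 0) (obsN N l (τ - a)) = nMC N l b t τ 0 :=
    H963.post_nMC hl b h1.le 0
  have h2 := (rl_cell hb hl ha h1 h hA).Ech_eq hΦ
  rw [hpost] at h2
  rw [h2]
  have e : ∀ g : V (N / l) → ℝ, (srcM N l τ * pinK (acl N l b t τ) (kap l τ a)) *ᵥ g
      = srcF N l t τ (pinK (acl N l b t τ) (kap l τ a) *ᵥ g) := by
    intro g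
    rw [srcF_eq hl hτ h, mulVec_mulVec]
  simp only [e]
  rfl

/-- integrability of the weight at positive prior mass -/
theorem int_cell (hb : 0 ≤ b) (hl : l ∣ N) (ha : 0 < a) (h1 : a < τ) (h : τ ≤ t)
    (hA : Nf (acl N l b t τ)) :
    Integrable (fun g => Wcl N l b t τ (pinK (acl N l b t τ) (kap l τ a) *ᵥ g))
      (gau (V (N / l))) := by
  have hτ : 0 < τ := ha.trans h1
  have hpost : post (nMC N l b t a 0) (obsN N l (τ - a)) = nMC N l b t τ 0 :=
    H963.post_nMC hl b h1.le 0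
  have h2 := (rl_cell hb hl ha h1 h hA).int_eR
  rw [hpost] at h2
  refine h2.congr (Filter.Eventually.of_forall fun g => ?_)
  simp only
  rw [← mulVec_mulVec, ← srcF_eq hl hτ h]
  rfl

/-! ### damping of the typical law -/

section damp

variable {n : ℕ} [NeZero n] {A : Matrix (V n) (V n) ℝ} {κ : ℝ}

/-- the noise of the damped law -/
def gK (A : Matrix (V n) (V n) ℝ) (κ : ℝ) : Matrix (V n) (V n) ℝ := fc (fun x => √((1 + κ * x⁻¹)⁻¹)) A

lemma pin_gK (hA : Nf A) (hκ : 0 ≤ κ) : H363.pin A * gK A κ = pinK A κ := by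
  have t1 := H363.ti_pin A
  have t2 : TI (gK A κ) := H864.ti_fc _ _
  refine H864.sym_inj (t1.mul t2) (H363.ti_pin _) fun k => ?_
  rw [H864.sym_mul t1 t2, H363.sym_pin, sym_pinK hA]
  unfold gK
  rw [H864.sym_fc]
  by_cases hk : k = 0
  · rw [if_pos hk, hk, hA.zero]
    simp
  · rw [if_neg hk, ← Real.sqrt_mul (inv_nonneg.2 (hA.nn k))]
    have h5 := hA.pos k hk
    congr 1
    field_simp

/-- **the damped typical law** -/
theorem damp_eq (hA : Nf A) (hκ : 0 ≤ κ) : ∃ c : ℝ, 0 < c ∧ ∀ G : (V n → ℝ) → ℝ, Measurable G →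
    ∫ g, Real.exp (-(κ * (∑ x, (H363.pin A *ᵥ g) x ^ 2) / 2)) * G (H363.pin A *ᵥ g) ∂(gau (V n))
      = c * ∫ g, G (pinK A κ *ᵥ g) ∂(gau (V n)) := by
  have tp := H363.ti_pin A
  have tg : TI (gK A κ) := H864.ti_fc _ _
  set Q : Matrix (V n) (V n) ℝ := κ • (H363.pin A * H363.pin A) with hQ
  have tQ : TI Q := (tp.mul tp).smul κ
  have hQq : ∀ u : V n → ℝ, qf Q u = κ * ∑ x, (H363.pin A *ᵥ u) x ^ 2 := by
    intro u
    rw [hQ, H864.qf_smul_mat]
    congr 1
    have h2 := H37.qf_gram (H363.pin A) u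
    rw [tp.transpose] at h2
    exact h2
  have hQ0 : ∀ u, 0 ≤ qf Q u := fun u => by
    rw [hQq]
    exact mul_nonneg hκ (Finset.sum_nonneg fun _ _ => sq_nonneg _)
  have hgg : gK A κ * (gK A κ)ᵀ * (1 + (1 : ℝ) ^ 2 • Q) = (1 : ℝ) ^ 2 • 1 := by
    rw [tg.transpose, one_pow, one_smul, one_smul]
    refine H864.sym_inj ((tg.mul tg).mul (TI.one.add tQ)) TI.one fun k => ?_
    rw [H864.sym_mul (tg.mul tg) (TI.one.add tQ), H864.sym_mul tg tg, H864.sym_add, H864.sym_one, hQ,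
      H864.sym_smul, H864.sym_mul tp tp, H363.sym_pin]
    unfold gK
    rw [H864.sym_fc]
    have h0 := hA.nn k
    have h1 : 0 ≤ (sym A k)⁻¹ := inv_nonneg.2 h0
    rw [Real.mul_self_sqrt h1, Real.mul_self_sqrt (by positivity)]
    have h2 : 0 < 1 + κ * (sym A k)⁻¹ := by positivity
    exact inv_mul_cancel₀ h2.ne'
  have hah : (gK A κ * (gK A κ)ᵀ) * (1 + (1 : ℝ) ^ 2 • Q) = 1 := by
    rw [hgg, one_pow, one_smul]
  refine ⟨H363.cTf Q 1 (gK A κ * (gK A κ)ᵀ) 0, H363.cTf_pos hQ0 _ _, fun G hG => ?_⟩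
  have hmp : Measurable fun u : V n → ℝ => H363.pin A *ᵥ u := H363.measurable_mulVec _
  have h3 := H363.tiltE (Q := Q) (σ := 1) tQ.transpose hQ0 one_ne_zero hgg hah 0
    (G := fun u => G (H363.pin A *ᵥ u)) (hG.comp hmp).stronglyMeasurable
  simp only [zero_add, one_smul, smul_eq_mul, mulVec_zero] at h3
  have e1 : ∀ g : V n → ℝ, H363.pin A *ᵥ (gK A κ *ᵥ g) = pinK A κ *ᵥ g := by
    intro g
    rw [mulVec_mulVec, pin_gK hA hκ]
  simp only [e1] at h3
  rw [← h3]
  refine integral_congr_ae (Filter.Eventually.of_forall fun g => ?_)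
  simp only
  rw [hQq]

/-- limit of vanishing damping -/
lemma damp_lim {f : (V n → ℝ) → ℝ} (hf : Measurable f)
    (hi : Integrable (fun g => f (H363.pin A *ᵥ g)) (gau (V n))) :
    Tendsto (fun κ : ℝ => ∫ g, Real.exp (-(κ * (∑ x, (H363.pin A *ᵥ g) x ^ 2) / 2))
      * f (H363.pin A *ᵥ g) ∂(gau (V n))) (𝓝[>] 0) (𝓝 (∫ g, f (H363.pin A *ᵥ g) ∂(gau (V n)))) := by
  have hmp : Measurable fun u : V n → ℝ => H363.pin A *ᵥ u := H363.measurable_mulVec _
  refine tendsto_integral_filter_of_dominated_convergence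
    (fun g => ‖f (H363.pin A *ᵥ g)‖) ?_ ?_ hi.norm ?_
  · filter_upwards with κ
    apply Measurable.aestronglyMeasurable
    refine Measurable.mul ?_ (hf.comp hmp)
    refine Real.measurable_exp.comp (Measurable.neg (Measurable.div_const (Measurable.const_mul
      ?_ _) _))
    exact Finset.measurable_fun_sum _ fun x _ => ((measurable_pi_apply x).comp hmp).pow_const 2
  · filter_upwards [self_mem_nhdsWithin] with κ hκ
    refine Filter.Eventually.of_forall fun g => ?_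
    rw [norm_mul, Real.norm_eq_abs, abs_of_pos (Real.exp_pos _)]
    have h1 : Real.exp (-(κ * (∑ x, (H363.pin A *ᵥ g) x ^ 2) / 2)) ≤ 1 := by
      rw [Real.exp_le_one_iff]
      have h2 : 0 ≤ κ * ∑ x, (H363.pin A *ᵥ g) x ^ 2 :=
        mul_nonneg (le_of_lt hκ) (Finset.sum_nonneg fun _ _ => sq_nonneg _)
      linarith
    exact mul_le_of_le_one_left (norm_nonneg _) h1
  · refine Filter.Eventually.of_forall fun g => ?_
    have h2 : Tendsto (fun κ : ℝ => -(κ * (∑ x, (H363.pin A *ᵥ g) x ^ 2) / 2)) (𝓝[>] 0) (𝓝 0) := by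
      have h3 : Continuous fun κ : ℝ => -(κ * (∑ x, (H363.pin A *ᵥ g) x ^ 2) / 2) := by fun_prop
      have h4 := h3.tendsto 0
      simp only [zero_mul, zero_div, neg_zero] at h4
      exact h4.mono_left nhdsWithin_le_nhds
    have h4 := ((Real.continuous_exp.tendsto 0).comp h2).mul_const (f (H363.pin A *ᵥ g))
    simpa [Function.comp_def] using h4

end damp

/-! ### the typical law from positive prior masses -/

/-- parameter of the prior mass -/
def aof (l : ℕ) (τ κ : ℝ) : ℝ := κ * τ / ((l : ℝ) ^ 2 * τ + κ)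

lemma aof_pos (hl : l ∣ N) (hτ : 0 < τ) {κ : ℝ} (hκ : 0 < κ) : 0 < aof l τ κ ∧ aof l τ κ < τ := by
  have hlp : (0 : ℝ) < l := by exact_mod_cast H864.l_pos hl
  have h1 : 0 < (l : ℝ) ^ 2 * τ + κ := by positivity
  unfold aof
  refine ⟨by positivity, ?_⟩
  rw [div_lt_iff₀ h1]
  have : 0 < (l : ℝ) ^ 2 * τ * τ := by positivity
  nlinarith

lemma kap_aof (hl : l ∣ N) (hτ : 0 < τ) {κ : ℝ} (hκ : 0 < κ) : kap l τ (aof l τ κ) = κ := by
  have hlp : (0 : ℝ) < l := by exact_mod_cast H864.l_pos hl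
  have h1 : 0 < (l : ℝ) ^ 2 * τ + κ := by positivity
  have h2 : τ - aof l τ κ = (l : ℝ) ^ 2 * τ ^ 2 / ((l : ℝ) ^ 2 * τ + κ) := by
    unfold aof
    field_simp
    ring
  unfold kap
  rw [h2]
  unfold aof
  field_simp

lemma tendsto_aof (hl : l ∣ N) (hτ : 0 < τ) : Tendsto (aof l τ) (𝓝[>] 0) (𝓝[>] 0) := by
  have hlp : (0 : ℝ) < l := by exact_mod_cast H864.l_pos hl
  refine tendsto_nhdsWithin_iff.2 ⟨?_, ?_⟩
  · have h1 : ContinuousAt (aof l τ) 0 := by
      unfold aof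
      refine ContinuousAt.div (by fun_prop) (by fun_prop) ?_
      have : 0 < (l : ℝ) ^ 2 * τ := by positivity
      simpa using this.ne'
    have h2 : aof l τ 0 = 0 := by unfold aof; simp
    have h3 := h1.tendsto
    rw [h2] at h3
    exact h3.mono_left nhdsWithin_le_nhds
  · filter_upwards [self_mem_nhdsWithin] with κ hκ
    exact (aof_pos hl hτ hκ).1

lemma measurable_srcF (N l : ℕ) [NeZero N] [NeZero (N / l)] (t τ : ℝ) :
    Measurable (srcF N l t τ) := by
  unfold srcF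
  exact (H363.measurable_mulVec _).comp H363.measurable_lf

/-- **THE TYPICAL TILTED MASS OF A BAD SET OF SOURCES** is at most `δ`, if this holds under the cell
channel for all small prior masses -/
theorem typ_bad (hb : 0 ≤ b) (hl : l ∣ N) (hτ : 0 < τ) (h : τ ≤ t) (hA : Nf (acl N l b t τ))
    (hi : Integrable (fun g => Wcl N l b t τ (H363.pin (acl N l b t τ) *ᵥ g)) (gau (V (N / l))))
    {Gd : Set (V N → ℝ)} (hG : MeasurableSet Gd) {δ : ℝ}
    (hδ : ∀ᶠ a in 𝓝[>] (0 : ℝ), 1 - δ ≤ Ech (nMC N l b t a 0) 0 (obsN N l (τ - a))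
      (Gd.indicator fun _ => (1 : ℝ))) :
    ∫ g in (fun g => H363.pin (acl N l b t τ) *ᵥ g) ⁻¹' ((srcF N l t τ) ⁻¹' Gdᶜ),
        Wcl N l b t τ (H363.pin (acl N l b t τ) *ᵥ g) ∂(gau (V (N / l)))
      ≤ δ * ∫ g, Wcl N l b t τ (H363.pin (acl N l b t τ) *ᵥ g) ∂(gau (V (N / l))) := by
  set A := acl N l b t τ with hAd
  set W := Wcl N l b t τ with hW
  have hWc : Continuous W := H363.continuous_Wcl (b := b) (t := t) hb hl hτ h
  have hW0 : ∀ F, 0 < W F := fun F => lt_of_lt_of_le one_pos (H363.one_le_Wcl hb hl hτ h F)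
  have hms := measurable_srcF N l t τ
  have hmp : Measurable fun u : V (N / l) → ℝ => H363.pin A *ᵥ u := H363.measurable_mulVec _
  set B : Set (V (N / l) → ℝ) := (srcF N l t τ) ⁻¹' Gdᶜ with hB
  have mB : MeasurableSet B := hms hG.compl
  set f : (V (N / l) → ℝ) → ℝ := B.indicator W with hf
  have mf : Measurable f := hWc.measurable.indicator mB
  have e0 : ∫ g in (fun g => H363.pin A *ᵥ g) ⁻¹' B, W (H363.pin A *ᵥ g) ∂(gau (V (N / l)))
      = ∫ g, f (H363.pin A *ᵥ g) ∂(gau (V (N / l))) := by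
    rw [← integral_indicator (hmp mB)]
    rfl
  rw [e0]
  have hif : Integrable (fun g => f (H363.pin A *ᵥ g)) (gau (V (N / l))) :=
    hi.indicator (hmp mB)
  have hκ : ∀ᶠ κ in 𝓝[>] (0 : ℝ), 1 - δ ≤ Ech (nMC N l b t (aof l τ κ) 0) 0
      (obsN N l (τ - aof l τ κ)) (Gd.indicator fun _ => (1 : ℝ)) :=
    (tendsto_aof hl hτ).eventually hδ
  refine le_of_tendsto_of_tendsto (damp_lim mf hif) ((damp_lim hWc.measurable hi).const_mul δ) ?_
  filter_upwards [hκ, self_mem_nhdsWithin] with κ h2 h3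
  obtain ⟨p1, p2⟩ := aof_pos hl hτ h3
  rw [Ech_cell hb hl p1 p2 h hA (measurable_const.indicator hG), kap_aof hl hτ h3] at h2
  obtain ⟨c, hc, hdamp⟩ := damp_eq hA (le_of_lt h3 : (0 : ℝ) ≤ κ)
  rw [hdamp f mf, hdamp W hWc.measurable]
  have hiW := int_cell hb hl p1 p2 h hA
  rw [kap_aof hl hτ h3] at hiW
  have hpos : 0 < ∫ g, W (pinK A κ *ᵥ g) ∂(gau (V (N / l))) := by
    have h5 := integral_mono (μ := gau (V (N / l))) (integrable_const (1 : ℝ)) hiW
      fun g => H363.one_le_Wcl hb hl hτ h _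
    have h6 : (1 : ℝ) ≤ ∫ g, W (pinK A κ *ᵥ g) ∂(gau (V (N / l))) := by simpa using h5
    linarith
  rw [le_div_iff₀ hpos] at h2
  have mpk : Measurable fun u : V (N / l) → ℝ => pinK A κ *ᵥ u := H363.measurable_mulVec _
  have hiG : Integrable (fun g => (Gd.indicator (fun _ => (1 : ℝ))) (srcF N l t τ (pinK A κ *ᵥ g))
      * W (pinK A κ *ᵥ g)) (gau (V (N / l))) := by
    refine hiW.mono (((measurable_const.indicator hG).comp (hms.comp mpk)).mul
      (hWc.measurable.comp mpk)).aestronglyMeasurable (Filter.Eventually.of_forall fun g => ?_)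
    rw [norm_mul]
    refine mul_le_of_le_one_left (norm_nonneg _) ?_
    by_cases hg : srcF N l t τ (pinK A κ *ᵥ g) ∈ Gd
    · rw [Set.indicator_of_mem hg]; simp
    · rw [Set.indicator_of_notMem hg]; simp
  have e1 : ∫ g, f (pinK A κ *ᵥ g) ∂(gau (V (N / l)))
      = (∫ g, W (pinK A κ *ᵥ g) ∂(gau (V (N / l))))
        - ∫ g, (Gd.indicator (fun _ => (1 : ℝ))) (srcF N l t τ (pinK A κ *ᵥ g))
          * W (pinK A κ *ᵥ g) ∂(gau (V (N / l))) := by
    rw [← integral_sub hiW hiG]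
    refine integral_congr_ae (Filter.Eventually.of_forall fun g => ?_)
    simp only
    by_cases hg : srcF N l t τ (pinK A κ *ᵥ g) ∈ Gd
    · have h7 : pinK A κ *ᵥ g ∉ B := fun hc => hc hg
      rw [hf, Set.indicator_of_mem hg, Set.indicator_of_notMem h7]
      ring
    · have h7 : pinK A κ *ᵥ g ∈ B := hg
      rw [hf, Set.indicator_of_notMem hg, Set.indicator_of_mem h7]
      ring
  have h8 : ∫ g, f (pinK A κ *ᵥ g) ∂(gau (V (N / l)))
      ≤ δ * ∫ g, W (pinK A κ *ᵥ g) ∂(gau (V (N / l))) := by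
    rw [e1]
    linarith
  have h9 := mul_le_mul_of_nonneg_left h8 hc.le
  linarith

section tint

variable {τ' : ℝ}

lemma pin_one {n : ℕ} [NeZero n] (hn : n = 1) {A : Matrix (V n) (V n) ℝ} (hA : sym A 0 = 0) :
    H363.pin A = 0 := by
  subst hn
  refine H864.sym_inj (H363.ti_pin A) TI.zero fun k => ?_
  have hk : k = 0 := by
    refine Prod.ext ?_ ?_
    · exact Subsingleton.elim (α := ZMod 1) _ _
    · exact Subsingleton.elim (α := ZMod 1) _ _
  rw [hk, H363.sym_pin, hA, H864.sym_zero]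
  simp

/-- **the weight is integrable in the typical law** -/
theorem typ_int (hb : 0 ≤ b) (hl : l ∣ N) [NeZero (N / l / (N / l))] (hτ' : 0 < τ') (h1 : τ' < τ)
    (h : τ ≤ t) (hA : Nf (acl N l b t τ)) (hM : WM (wT b N) (Mb N l (N / l) t τ')) :
    Integrable (fun g => Wcl N l b t τ (H363.pin (acl N l b t τ) *ᵥ g)) (gau (V (N / l))) := by
  have hτ : 0 < τ := hτ'.trans h1
  have hρ : N / l ∣ N / l := dvd_refl _
  have hs := H363.sn_pos hl hτ' h1
  have hwm := H363.wm_MC (b := b) (N := N) hb hl hτ h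
  have hcs := cs_tor hb hl hρ hτ' h1 h hA
  have hi := hcs.Wt_int' hwm (by rw [Mlow_tor hl hρ hτ' h1]; exact hM) 0
  rw [Wt_eq' hb hl hτ h] at hi
  have e1 : ∀ g, Ff (ahat (sn l τ τ') (acl N l b t τ)) (gm (sn l τ τ') (acl N l b t τ))
      (H708.m2 (N / l) (Ah N l b t τ τ')) (H708.Bm (N / l) (Ah N l b t τ τ')) 0 g
      = Nz (ahat (sn l τ τ') (acl N l b t τ)) (gm (sn l τ τ') (acl N l b t τ))
        (H708.Bm (N / l) (Ah N l b t τ τ')) *ᵥ g := by
    intro g
    unfold Ff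
    rw [mulVec_zero, zero_add]
  simp only [e1] at hi
  have hnf := nf_Ah (t := t) hl hτ' h1 hA
  have hlaw := law_comb (ρ := N / l) hρ hA hs.le
  have e2 : H363.pin (H708.Ac (N / l) (acl N l b t τ * ahat (sn l τ τ') (acl N l b t τ))) = 0 :=
    pin_one (Nat.div_self (NeZero.pos _)) (H708.nf_Ac hρ hnf).zero
  rw [e2, Matrix.mul_zero, transpose_fromCols, fromCols_mul_fromRows, transpose_zero,
    Matrix.mul_zero, zero_add] at hlaw
  have hm := H363.law_eq _ _ hlaw
  have hWm : Measurable (Wcl N l b t τ) := (H363.continuous_Wcl (b := b) (t := t) hb hl hτ h).measurable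
  have hi2 : Integrable (Wcl N l b t τ) ((gau (V (N / l) ⊕ V (N / l))).map fun g =>
      Cst (sn l τ τ') (acl N l b t τ) *ᵥ g) := by
    rw [← hm]
    exact (integrable_map_measure hWm.aestronglyMeasurable
      (H363.measurable_mulVec _).aemeasurable).2 hi
  have hi3 := (integrable_map_measure hWm.aestronglyMeasurable
    (H363.measurable_mulVec _).aemeasurable).1 hi2
  have hinv : ∀ F c, Wcl N l b t τ (fun x => F x + c) = Wcl N l b t τ F := fun F c =>
    Wcl_const F hl hτ h c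
  simp only [Function.comp_def, Cst_fun hinv] at hi3
  have hi4 := (itg_prod_sum (J := V (N / l)) (I := V (N / l))
    (fun p : (V (N / l) → ℝ) × (V (N / l) → ℝ) =>
      Wcl N l b t τ (H363.pin (acl N l b t τ) *ᵥ p.1))).2 hi3
  have hmf : Measurable fun g : V (N / l) → ℝ =>
      Wcl N l b t τ (H363.pin (acl N l b t τ) *ᵥ g) := hWm.comp (H363.measurable_mulVec _)
  exact (MeasureTheory.measurePreserving_fst.integrable_comp hmf.aestronglyMeasurable).1 hi4

end tint

/-- total mass from a good set -/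
theorem typ_mass {Ω : Type*} [MeasurableSpace Ω] {μ : Measure Ω} [IsProbabilityMeasure μ]
    {W : Ω → ℝ} {B : Set Ω} (hB : MeasurableSet B) (hi : Integrable W μ)
    {η δ : ℝ} (hη : ∀ x, x ∉ B → W x ≤ 1 + η) (hη0 : 0 ≤ η) (hδ : δ < 1)
    (hbad : ∫ x in B, W x ∂μ ≤ δ * ∫ x, W x ∂μ) :
    ∫ x, W x ∂μ ≤ (1 + η) / (1 - δ) ∧ (0 ≤ δ → ∫ x in B, W x ∂μ ≤ δ * ((1 + η) / (1 - δ))) := by
  have h1 : ∫ x, W x ∂μ = ∫ x in B, W x ∂μ + ∫ x in Bᶜ, W x ∂μ := (integral_add_compl hB hi).symm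
  have h2 : ∫ x in Bᶜ, W x ∂μ ≤ 1 + η := by
    have h3 : ∫ x in Bᶜ, W x ∂μ ≤ ∫ _x in Bᶜ, (1 + η) ∂μ :=
      setIntegral_mono_on hi.integrableOn (integrable_const _).integrableOn hB.compl
        fun x hx => hη x hx
    refine h3.trans ?_
    rw [setIntegral_const, smul_eq_mul]
    have : μ.real Bᶜ ≤ 1 := measureReal_le_one
    nlinarith
  have h4 : ∫ x, W x ∂μ ≤ (1 + η) / (1 - δ) := by
    rw [le_div_iff₀ (by linarith)]
    linarith
  exact ⟨h4, fun h0 => hbad.trans (mul_le_mul_of_nonneg_left h4 h0)⟩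

end

end Vale.Agent.P159.H896
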