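import Vale.Agent.P159.H896.Fub
import Vale.Agent.P159.H896.FlowT
import Vale.Agent.P159.H363.TiltE

/-!
P159, module CHG (helper896): one Gaussian step with change of cells in tilted form.
Fine fields `F : L → ℝ` (lift `E0`), coarse fields `f' : L' → ℝ` (lift `E`, average `Q`),
`F = ah (m f' + B g₁) + gm g₂`; mass form below: zero on the modes of `L` with `Q f = 0`.
-/

open MeasureTheory Finset Matrix
open Vale.Agent.P159.TM.H104 (EM nh li)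
open Vale.Agent.P159.H37 (wM ZM qf bf Zn Zq Un Ev gau gau_shift)
open Vale.Agent.P159.H363 (tilt tilt_integrable_iff cT cT_pos)

set_option linter.unusedSectionVars false

namespace Vale.Agent.P159.H896

noncomputable section

variable {V L L' I J : Type} [Fintype V] [Fintype L] [Fintype L'] [Fintype I] [Fintype J]
  [DecidableEq L] [DecidableEq L']

/-- the hypotheses on the matrices of the combined step -/
structure CS (M : Matrix V V ℝ) (E0 : Matrix V L ℝ) (ν : ℝ) (A : Matrix L L ℝ) (s : ℝ)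
    (ah : Matrix L L ℝ) (gm : Matrix L I ℝ) (E : Matrix L L' ℝ) (Q : Matrix L' L ℝ) (r2 : ℝ)
    (m : Matrix L L' ℝ) (B : Matrix L J ℝ) : Prop where
  Ms : Mᵀ = M
  Mn : ∀ u : V → ℝ, 0 ≤ qf M u
  ν0 : 0 < ν
  E0M : E0ᵀ * M * E0 = ν • 1
  As : Aᵀ = A
  An : ∀ u : L → ℝ, 0 ≤ qf A u
  A1 : ∀ u : L → ℝ, qf A u ≤ ν * (u ⬝ᵥ u)
  s0 : 0 < s
  gm1 : gm * gmᵀ * (1 + s • A) = s • 1
  ah1 : ah * (1 + s • A) = 1
  EQ : (E * Q)ᵀ = E * Q
  QE : Q * E = 1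
  EE : Eᵀ * E = r2 • 1
  Qm : Q * m = 1
  QB : Q * B = 0
  BAm : Bᵀ * (A * ah) * m = 0
  BBA : ∀ y : L → ℝ, Q *ᵥ y = 0 → B *ᵥ (Bᵀ *ᵥ ((A * ah) *ᵥ y)) = y

/-- the mass form after the step -/
def Mlow (M : Matrix V V ℝ) (E0 : Matrix V L ℝ) (ν s : ℝ) (Q : Matrix L' L ℝ) (r2 : ℝ) :
    Matrix V V ℝ :=
  M - ν⁻¹ • (M * E0 * (E0ᵀ * M)) +
    (ν / (1 + s * ν) * r2 * ν⁻¹ ^ 2) • (M * E0 * Qᵀ * (Q * (E0ᵀ * M)))

/-- cell averages -/
def av (M : Matrix V V ℝ) (E0 : Matrix V L ℝ) (ν : ℝ) (z : V → ℝ) : L → ℝ :=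
  ν⁻¹ • (E0ᵀ *ᵥ (M *ᵥ z))

section basic

variable {M : Matrix V V ℝ} {E0 : Matrix V L ℝ} {ν : ℝ}

lemma qf_sub_lift (hM : Mᵀ = M) (hν : 0 < ν) (hE : E0ᵀ * M * E0 = ν • 1) (z : V → ℝ) (F : L → ℝ) :
    qf M (z - E0 *ᵥ F) = (qf M z - ν * (av M E0 ν z ⬝ᵥ av M E0 ν z)) +
      ν * ((av M E0 ν z - F) ⬝ᵥ (av M E0 ν z - F)) := by
  rw [H37.qf_sub_vec hM]
  have h1 : bf M z (E0 *ᵥ F) = ν * (av M E0 ν z ⬝ᵥ F) := by
    rw [H37.bf_comm hM, H37.bf_eq, av, smul_dotProduct, smul_eq_mul, ← mul_assoc,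
      mul_inv_cancel₀ hν.ne', one_mul, dotProduct_comm, dotProduct_mulVec, ← mulVec_transpose]
  have h2 : qf M (E0 *ᵥ F) = ν * (F ⬝ᵥ F) := by
    rw [H37.qf_eq, mulVec_mulVec, dotProduct_comm, dotProduct_mulVec, ← mulVec_transpose,
      mulVec_mulVec, ← Matrix.mul_assoc, hE, smul_mulVec, one_mulVec, smul_dotProduct, smul_eq_mul]
  rw [h1, h2, sub_dotProduct, dotProduct_sub, dotProduct_sub, dotProduct_comm F (av M E0 ν z)]
  ring

lemma av_sub_lift (hν : 0 < ν) (hE : E0ᵀ * M * E0 = ν • 1) (z : V → ℝ) (F : L → ℝ) :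
    av M E0 ν (z - E0 *ᵥ F) = av M E0 ν z - F := by
  unfold av
  rw [mulVec_sub, mulVec_sub, smul_sub]
  congr 1
  rw [mulVec_mulVec, mulVec_mulVec, hE, smul_mulVec, one_mulVec, smul_smul,
    inv_mul_cancel₀ hν.ne', one_smul]

lemma qf_gram' {W : Type} [Fintype W] (P : Matrix W V ℝ) (u : V → ℝ) :
    qf (Pᵀ * P) u = (P *ᵥ u) ⬝ᵥ (P *ᵥ u) := by
  rw [H37.qf_gram, dotProduct]
  exact Finset.sum_congr rfl fun i _ => by ring

lemma qf_sub_mat' (M M' : Matrix V V ℝ) (u : V → ℝ) : qf (M - M') u = qf M u - qf M' u := by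
  simp only [H37.qf_eq, sub_mulVec, dotProduct_sub]

lemma qf_smul_mat' (c : ℝ) (M : Matrix V V ℝ) (u : V → ℝ) : qf (c • M) u = c * qf M u := by
  simp only [H37.qf_eq, smul_mulVec, dotProduct_smul, smul_eq_mul]

lemma qf_Mlow (hM : Mᵀ = M) (hν : 0 < ν) (s : ℝ) (Q : Matrix L' L ℝ) (r2 : ℝ) (z : V → ℝ) :
    qf (Mlow M E0 ν s Q r2) z = (qf M z - ν * (av M E0 ν z ⬝ᵥ av M E0 ν z)) +
      ν / (1 + s * ν) * r2 * ((Q *ᵥ av M E0 ν z) ⬝ᵥ (Q *ᵥ av M E0 ν z)) := by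
  have e1 : M * E0 * (E0ᵀ * M) = (E0ᵀ * M)ᵀ * (E0ᵀ * M) := by
    rw [transpose_mul, transpose_transpose, hM]
  have e2 : M * E0 * Qᵀ * (Q * (E0ᵀ * M)) = (Q * (E0ᵀ * M))ᵀ * (Q * (E0ᵀ * M)) := by
    rw [transpose_mul, transpose_mul, transpose_transpose, hM]
  unfold Mlow
  rw [H37.qf_add_mat, qf_sub_mat', qf_smul_mat', qf_smul_mat', e1, e2, qf_gram', qf_gram']
  unfold av
  simp only [mulVec_smul, smul_dotProduct, dotProduct_smul, smul_eq_mul, ← mulVec_mulVec]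
  field_simp

lemma Mlow_sym (hM : Mᵀ = M) (s : ℝ) (Q : Matrix L' L ℝ) (r2 : ℝ) :
    (Mlow M E0 ν s Q r2)ᵀ = Mlow M E0 ν s Q r2 := by
  unfold Mlow
  simp only [transpose_add, transpose_sub, transpose_smul, transpose_mul, transpose_transpose, hM,
    Matrix.mul_assoc]

end basic

variable {M : Matrix V V ℝ} {E0 : Matrix V L ℝ} {ν : ℝ} {A : Matrix L L ℝ} {s : ℝ}
    {ah : Matrix L L ℝ} {gm : Matrix L I ℝ} {E : Matrix L L' ℝ} {Q : Matrix L' L ℝ} {r2 : ℝ}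
    {m : Matrix L L' ℝ} {B : Matrix L J ℝ}

/-! ### the first noise -/

/-- `A ah ≤ ν / (1 + s ν)` -/
lemma CS.A1_le (h : CS M E0 ν A s ah gm E Q r2 m B) (f : L → ℝ) :
    qf (A * ah) f ≤ ν / (1 + s * ν) * (f ⬝ᵥ f) := by
  have hah' : (1 + s • A) * ah = 1 := mul_eq_one_comm.mp h.ah1
  set v : L → ℝ := ah *ᵥ f with hv
  have hf : f = v + s • (A *ᵥ v) := by
    have h1 := congrArg (fun X : Matrix L L ℝ => X *ᵥ f) hah'
    simp only [Matrix.one_mulVec, Matrix.add_mul, Matrix.one_mul, add_mulVec, smul_mul_assoc,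
      smul_mulVec, ← mulVec_mulVec] at h1
    exact h1.symm
  set x : ℝ := v ⬝ᵥ (A *ᵥ v) with hx
  set y : ℝ := (A *ᵥ v) ⬝ᵥ (A *ᵥ v) with hy
  set n : ℝ := v ⬝ᵥ v with hn
  have hs := h.s0
  have hν := h.ν0
  have hx0 : 0 ≤ x := by
    have := h.An v
    rwa [H37.qf_eq] at this
  have hxn : x ≤ ν * n := by
    have := h.A1 v
    rwa [H37.qf_eq] at this
  have hy0 : 0 ≤ y := by
    rw [hy, dotProduct]
    exact Finset.sum_nonneg fun i _ => mul_self_nonneg _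
  -- `|A v|² ≤ ν <v, A v>`
  have hyx : y ≤ ν * x := by
    have hq : ∀ c : ℝ, 0 ≤ x - 2 * c * y + c ^ 2 * (ν * y) := by
      intro c
      have h1 := h.An (v - c • (A *ᵥ v))
      have h2 := h.A1 (A *ᵥ v)
      rw [H37.qf_sub_vec h.As, H37.bf_smul_right, H37.qf_smul] at h1
      have h3 : bf A v (A *ᵥ v) = y := by
        rw [H37.bf_comm h.As, H37.bf_eq]
      have h4 : qf A v = x := by rw [H37.qf_eq]
      rw [h3, h4] at h1
      have h5 : c ^ 2 * qf A (A *ᵥ v) ≤ c ^ 2 * (ν * y) := mul_le_mul_of_nonneg_left h2 (sq_nonneg _)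
      nlinarith
    have h1 := hq ν⁻¹
    have h2 : ν⁻¹ ^ 2 * (ν * y) = ν⁻¹ * y := by field_simp
    rw [h2] at h1
    have h3 : ν⁻¹ * y ≤ x := by nlinarith
    rwa [inv_mul_le_iff₀ hν] at h3
  have e1 : qf (A * ah) f = x + s * y := by
    rw [H37.qf_eq, ← mulVec_mulVec, ← hv, hf, add_dotProduct, smul_dotProduct, smul_eq_mul]
  have e2 : f ⬝ᵥ f = n + 2 * s * x + s ^ 2 * y := by
    rw [hf]
    simp only [add_dotProduct, dotProduct_add, smul_dotProduct, dotProduct_smul, smul_eq_mul]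
    rw [dotProduct_comm (A *ᵥ v) v, ← hx, ← hy, ← hn]
    ring
  rw [e1, e2, div_mul_eq_mul_div, le_div_iff₀ (by positivity)]
  have : ν * (n + 2 * s * x + s ^ 2 * y) - (x + s * y) * (1 + s * ν) =
      (ν * n - x) + s * (ν * x - y) := by ring
  have h5 : 0 ≤ s * (ν * x - y) := mul_nonneg hs.le (by linarith)
  linarith

lemma CS.A1_sym (h : CS M E0 ν A s ah gm E Q r2 m B) : (A * ah)ᵀ = A * ah := by
  have hah' : (1 + s • A) * ah = 1 := mul_eq_one_comm.mp h.ah1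
  have h1 : ahᵀ = ah := by
    have h2 : (1 + s • A) * ahᵀ = 1 := by
      have := congrArg transpose h.ah1
      rwa [transpose_mul, transpose_add, transpose_one, transpose_smul, h.As] at this
    calc ahᵀ = (ah * (1 + s • A)) * ahᵀ := by rw [h.ah1, Matrix.one_mul]
      _ = ah := by rw [Matrix.mul_assoc, h2, Matrix.mul_one]
  have hs : s ≠ 0 := h.s0.ne'
  have h3 : s • (A * ah) = 1 - ah := by
    have h4 := hah'
    rw [Matrix.add_mul, Matrix.one_mul, smul_mul_assoc] at h4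
    rw [← h4]; abel
  have h4 : s • (A * ah)ᵀ = s • (A * ah) := by
    rw [← transpose_smul, h3, transpose_sub, transpose_one, h1]
  have h5 := congrArg (fun X : Matrix L L ℝ => s⁻¹ • X) h4
  simpa only [smul_smul, inv_mul_cancel₀ hs, one_smul] using h5

/-- the constant of the first noise -/
def c1 (L : Type) [Fintype L] [DecidableEq L] (ν s : ℝ) : ℝ :=
  cN (ν • (1 : Matrix L L ℝ)) (√s • (1 : Matrix L L ℝ))

lemma c1_pos (hν : 0 < ν) : 0 < c1 L ν s :=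
  cN_pos fun u => by
    rw [H37.qf_smul_one]
    exact mul_nonneg hν.le (Finset.sum_nonneg fun _ _ => sq_nonneg _)

lemma white (hν : 0 < ν) (hs : 0 < s) (y : L → ℝ) :
    ∫ g, Real.exp (-(ν * ((y + √s • g) ⬝ᵥ (y + √s • g)) / 2)) ∂(gau L) =
      c1 L ν s * Real.exp (-(ν / (1 + s * ν) * (y ⬝ᵥ y) / 2)) := by
  have hn : ∀ u : L → ℝ, 0 ≤ qf (ν • (1 : Matrix L L ℝ)) u := fun u => by
    rw [H37.qf_smul_one]
    exact mul_nonneg hν.le (Finset.sum_nonneg fun _ _ => sq_nonneg _)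
  have h1 := chn_one (chn_proj (M := ν • (1 : Matrix L L ℝ)) (Q := 1) (τ := ν) (σ := s)
    (by rw [transpose_smul, transpose_one]) hn transpose_one (Matrix.one_mul 1)
    (by rw [Matrix.mul_one]) hν.le hs.le) y
  have e : ∀ (c : ℝ) (u : L → ℝ), qf (c • (1 : Matrix L L ℝ)) u = c * (u ⬝ᵥ u) := by
    intro c u
    rw [H37.qf_eq, smul_mulVec, one_mulVec, dotProduct_smul, smul_eq_mul]
  rw [← sub_smul] at h1
  simp only [e, smul_mulVec, one_mulVec] at h1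
  rw [h1]
  unfold c1
  congr 4
  field_simp
  ring

lemma smeas (y : L → ℝ) : Measurable fun F : L → ℝ =>
    Real.exp (-(ν * ((y - F) ⬝ᵥ (y - F)) / 2)) * Real.exp (qf A F / 2) := by
  have : Continuous fun F : L → ℝ =>
      Real.exp (-(ν * ((y - F) ⬝ᵥ (y - F)) / 2)) * Real.exp (qf A F / 2) := by
    unfold qf
    simp only [dotProduct]
    fun_prop
  exact this.measurable

lemma s_cancel (y f g : L → ℝ) :
    Real.exp (-(ν * ((y - (f + √s • g)) ⬝ᵥ (y - (f + √s • g))) / 2)) *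
        Real.exp (qf A (f + √s • g) / 2) * Real.exp (-(qf A (f + √s • g) / 2)) =
      Real.exp (-(ν * ((f - y + √s • g) ⬝ᵥ (f - y + √s • g)) / 2)) := by
  rw [mul_assoc, ← Real.exp_add, add_neg_cancel, Real.exp_zero, mul_one]
  have : y - (f + √s • g) = -(f - y + √s • g) := by abel
  rw [this, neg_dotProduct_neg]

/-- integrability of the inner average -/
lemma CS.inner_int (h : CS M E0 ν A s ah gm E Q r2 m B) (y f : L → ℝ) :
    Integrable (fun g => Real.exp (-(ν * ((y - (ah *ᵥ f + gm *ᵥ g)) ⬝ᵥ (y - (ah *ᵥ f + gm *ᵥ g))) / 2)) *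
      Real.exp (qf A (ah *ᵥ f + gm *ᵥ g) / 2)) (gau I) := by
  have hs2 : √s ^ 2 = s := Real.sq_sqrt h.s0.le
  have h1 := tilt_integrable_iff (σ := √s) h.As h.An (Real.sqrt_pos.2 h.s0).ne'
    (by rw [hs2]; exact h.gm1) (by rw [hs2]; exact h.ah1) f
    (G := fun F => Real.exp (-(ν * ((y - F) ⬝ᵥ (y - F)) / 2)) * Real.exp (qf A F / 2))
    (smeas (A := A) (ν := ν) y).stronglyMeasurable
  rw [← h1]
  have h2 : ∀ g : L → ℝ, Real.exp (-(qf A (f + √s • g) / 2)) •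
      (Real.exp (-(ν * ((y - (f + √s • g)) ⬝ᵥ (y - (f + √s • g))) / 2)) *
        Real.exp (qf A (f + √s • g) / 2)) =
      Real.exp (-(ν * ((f - y + √s • g) ⬝ᵥ (f - y + √s • g)) / 2)) := by
    intro g
    rw [smul_eq_mul, mul_comm, s_cancel]
  simp only [h2]
  refine Integrable.of_bound (C := 1) ?_ (Filter.Eventually.of_forall fun g => ?_)
  · have : Continuous fun g : L → ℝ =>
        Real.exp (-(ν * ((f - y + √s • g) ⬝ᵥ (f - y + √s • g)) / 2)) := by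
      simp only [dotProduct]
      fun_prop
    exact this.aestronglyMeasurable
  · rw [Real.norm_eq_abs, abs_of_pos (Real.exp_pos _), Real.exp_le_one_iff]
    have : 0 ≤ (f - y + √s • g) ⬝ᵥ (f - y + √s • g) := by
      rw [dotProduct]
      exact Finset.sum_nonneg fun i _ => mul_self_nonneg _
    have := mul_nonneg h.ν0.le this
    linarith

/-- value of the inner average -/
lemma CS.inner (h : CS M E0 ν A s ah gm E Q r2 m B) (y f : L → ℝ) :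
    ∫ g, Real.exp (-(ν * ((y - (ah *ᵥ f + gm *ᵥ g)) ⬝ᵥ (y - (ah *ᵥ f + gm *ᵥ g))) / 2)) *
      Real.exp (qf A (ah *ᵥ f + gm *ᵥ g) / 2) ∂(gau I) =
      c1 L ν s / cT A √s * (Real.exp (qf (A * ah) f / 2) *
        Real.exp (-(ν / (1 + s * ν) * ((y - f) ⬝ᵥ (y - f)) / 2))) := by
  have hs2 : √s ^ 2 = s := Real.sq_sqrt h.s0.le
  have h1 := tilt (σ := √s) h.As h.An (Real.sqrt_pos.2 h.s0).ne'
    (by rw [hs2]; exact h.gm1) (by rw [hs2]; exact h.ah1)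
    (G := fun F => Real.exp (-(ν * ((y - F) ⬝ᵥ (y - F)) / 2)) * Real.exp (qf A F / 2))
    (smeas (A := A) (ν := ν) y) f
  simp only [s_cancel] at h1
  rw [white h.ν0 h.s0] at h1
  have hc : 0 < cT A √s := cT_pos h.An
  have h2 : ((f - y) ⬝ᵥ (f - y)) = (y - f) ⬝ᵥ (y - f) := by
    have : f - y = -(y - f) := by abel
    rw [this, neg_dotProduct_neg]
  rw [h2] at h1
  have h3 : Real.exp (-(qf (A * ah) f / 2)) * Real.exp (qf (A * ah) f / 2) = 1 := by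
    rw [← Real.exp_add]; simp
  set X := ∫ g, Real.exp (-(ν * ((y - (ah *ᵥ f + gm *ᵥ g)) ⬝ᵥ (y - (ah *ᵥ f + gm *ᵥ g))) / 2)) *
      Real.exp (qf A (ah *ᵥ f + gm *ᵥ g) / 2) ∂(gau I) with hX
  rw [div_mul_eq_mul_div, eq_div_iff hc.ne']
  calc X * cT A √s = (cT A √s * Real.exp (-(qf (A * ah) f / 2)) * X) *
        Real.exp (qf (A * ah) f / 2) := by
        linear_combination (-(cT A √s * X)) * h3
    _ = _ := by rw [← h1]; ring

/-! ### the second noise -/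

/-- the unnormalised weight of the rough modes -/
def Hv (A1 : Matrix L L ℝ) (κ : ℝ) (B : Matrix L J ℝ) (v : L → ℝ) (g : J → ℝ) : ℝ :=
  Real.exp (qf A1 (B *ᵥ g) / 2) * Real.exp (-(κ * ((v - B *ᵥ g) ⬝ᵥ (v - B *ᵥ g)) / 2))

lemma Hv_cont (A1 : Matrix L L ℝ) (κ : ℝ) (B : Matrix L J ℝ) (v : L → ℝ) :
    Continuous (Hv A1 κ B v) := by
  unfold Hv qf
  simp only [dotProduct, mulVec]
  fun_prop

lemma Hv_pos (A1 : Matrix L L ℝ) (κ : ℝ) (B : Matrix L J ℝ) (v : L → ℝ) (g : J → ℝ) :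
    0 < Hv A1 κ B v g := mul_pos (Real.exp_pos _) (Real.exp_pos _)

/-- the constant of the second noise -/
def cK (A1 : Matrix L L ℝ) (κ : ℝ) (B : Matrix L J ℝ) : ℝ := ∫ g, Hv A1 κ B 0 g ∂(gau J)

lemma cK_pos {A1 : Matrix L L ℝ} {κ : ℝ} {B : Matrix L J ℝ}
    (h1 : ∀ f : L → ℝ, qf A1 f ≤ κ * (f ⬝ᵥ f)) : 0 < cK A1 κ B := by
  have hi : Integrable (Hv A1 κ B 0) (gau J) := by
    refine Integrable.of_bound (C := 1) (Hv_cont _ _ _ _).aestronglyMeasurable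
      (Filter.Eventually.of_forall fun g => ?_)
    rw [Real.norm_eq_abs, abs_of_pos (Hv_pos _ _ _ _ _)]
    unfold Hv
    rw [← Real.exp_add, Real.exp_le_one_iff, zero_sub, neg_dotProduct_neg]
    have := h1 (B *ᵥ g)
    linarith
  unfold cK
  rw [integral_pos_iff_support_of_nonneg (fun g => (Hv_pos _ _ _ _ _).le) hi]
  have : Function.support (Hv A1 κ B 0) = Set.univ := by
    ext g
    simp [(Hv_pos A1 κ B 0 g).ne']
  rw [this]
  simp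

lemma Hv_int_eq {A1 : Matrix L L ℝ} {κ : ℝ} {B : Matrix L J ℝ} (hs : A1ᵀ = A1) {v : L → ℝ}
    (hv : B *ᵥ (Bᵀ *ᵥ (A1 *ᵥ v)) = v) : ∫ g, Hv A1 κ B v g ∂(gau J) = cK A1 κ B := by
  set k : J → ℝ := Bᵀ *ᵥ (A1 *ᵥ v) with hk
  have h1 := gau_shift k fun g : J → ℝ => Hv A1 κ B 0 (g - k)
  simp only [add_sub_cancel_right] at h1
  unfold cK
  rw [h1]
  refine integral_congr_ae (Filter.Eventually.of_forall fun g => ?_)
  simp only
  unfold Hv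
  have e1 : v - B *ᵥ g = 0 - B *ᵥ (g - k) := by
    rw [mulVec_sub, hv]; abel
  have e2 : bf A1 (B *ᵥ g) (B *ᵥ k) = ∑ i, k i * g i := by
    rw [hv, H37.bf_eq, dotProduct_comm, dotProduct_mulVec, ← mulVec_transpose, ← hk]
    rfl
  have e3 : qf A1 (B *ᵥ k) = ∑ i, k i ^ 2 := by
    have h5 : bf A1 (B *ᵥ k) (B *ᵥ k) = k ⬝ᵥ k := by
      rw [H37.bf_eq, dotProduct_comm, dotProduct_mulVec, ← mulVec_transpose, hv, ← hk]
    rw [← H37.bf_self, h5, dotProduct]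
    exact Finset.sum_congr rfl fun i _ => by ring
  have e4 : qf A1 (B *ᵥ (g - k)) = qf A1 (B *ᵥ g) - 2 * (∑ i, k i * g i) + ∑ i, k i ^ 2 := by
    rw [mulVec_sub, H37.qf_sub_vec hs, e2, e3]
  have e5 : Real.exp (qf A1 (B *ᵥ g) / 2) = Real.exp ((∑ i, k i * g i) - (∑ i, k i ^ 2) / 2) *
      Real.exp ((qf A1 (B *ᵥ g) - 2 * (∑ i, k i * g i) + ∑ i, k i ^ 2) / 2) := by
    rw [← Real.exp_add]; congr 1; ring
  rw [e1, e4, e5, mul_assoc]

lemma Hv_integrable {A1 : Matrix L L ℝ} {κ : ℝ} {B : Matrix L J ℝ} (hs : A1ᵀ = A1)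
    (h1 : ∀ f : L → ℝ, qf A1 f ≤ κ * (f ⬝ᵥ f)) {v : L → ℝ}
    (hv : B *ᵥ (Bᵀ *ᵥ (A1 *ᵥ v)) = v) : Integrable (Hv A1 κ B v) (gau J) := by
  by_contra hc
  have h2 := Hv_int_eq (κ := κ) hs hv
  rw [integral_undef hc] at h2
  have := cK_pos (B := B) h1
  linarith

variable {f' : L' → ℝ}

lemma CS.cross (h : CS M E0 ν A s ah gm E Q r2 m B) (u : L' → ℝ) {x : L → ℝ} (hx : Q *ᵥ x = 0) :
    (E *ᵥ u) ⬝ᵥ x = 0 := by
  have h1 : E *ᵥ u = (E * Q) *ᵥ (E *ᵥ u) := by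
    rw [mulVec_mulVec, Matrix.mul_assoc, h.QE, Matrix.mul_one]
  rw [h1, ← h.EQ, dotProduct_comm, dotProduct_mulVec, vecMul_transpose, ← mulVec_mulVec, hx,
    mulVec_zero, zero_dotProduct]

lemma CS.split (h : CS M E0 ν A s ah gm E Q r2 m B) (y : L → ℝ) (f' : L' → ℝ) (g : J → ℝ) :
    Real.exp (qf (A * ah) (m *ᵥ f' + B *ᵥ g) / 2) *
      Real.exp (-(ν / (1 + s * ν) * ((y - (m *ᵥ f' + B *ᵥ g)) ⬝ᵥ (y - (m *ᵥ f' + B *ᵥ g))) / 2)) =
      (Real.exp (qf (A * ah) (m *ᵥ f') / 2) *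
        Real.exp (-(ν / (1 + s * ν) * r2 * ((Q *ᵥ y - f') ⬝ᵥ (Q *ᵥ y - f')) / 2))) *
      Hv (A * ah) (ν / (1 + s * ν)) B (y - E *ᵥ (Q *ᵥ y) - (m *ᵥ f' - E *ᵥ f')) g := by
  set κ := ν / (1 + s * ν) with hκ
  set v : L → ℝ := y - E *ᵥ (Q *ᵥ y) - (m *ᵥ f' - E *ᵥ f') with hv
  have hQv : Q *ᵥ (v - B *ᵥ g) = 0 := by
    rw [hv]
    simp only [mulVec_sub, mulVec_mulVec, h.QB, zero_mulVec, h.Qm]
    rw [← Matrix.mul_assoc, h.QE, Matrix.one_mul, one_mulVec]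
    abel
  have e1 : y - (m *ᵥ f' + B *ᵥ g) = E *ᵥ (Q *ᵥ y - f') + (v - B *ᵥ g) := by
    rw [hv, mulVec_sub]; abel
  have e2 : (E *ᵥ (Q *ᵥ y - f')) ⬝ᵥ (E *ᵥ (Q *ᵥ y - f')) = r2 * ((Q *ᵥ y - f') ⬝ᵥ (Q *ᵥ y - f')) := by
    rw [dotProduct_mulVec, ← mulVec_transpose, mulVec_mulVec, h.EE, smul_mulVec, one_mulVec,
      smul_dotProduct, smul_eq_mul]
  have e3 : (y - (m *ᵥ f' + B *ᵥ g)) ⬝ᵥ (y - (m *ᵥ f' + B *ᵥ g)) =
      r2 * ((Q *ᵥ y - f') ⬝ᵥ (Q *ᵥ y - f')) + (v - B *ᵥ g) ⬝ᵥ (v - B *ᵥ g) := by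
    rw [e1, add_dotProduct, dotProduct_add, dotProduct_add, e2, h.cross _ hQv,
      dotProduct_comm (v - B *ᵥ g) (E *ᵥ _), h.cross _ hQv]
    ring
  have e4 : bf (A * ah) (m *ᵥ f') (B *ᵥ g) = 0 := by
    rw [H37.bf_comm h.A1_sym, H37.bf_eq, dotProduct_comm, dotProduct_mulVec, ← mulVec_transpose,
      mulVec_mulVec, mulVec_mulVec, h.BAm, zero_mulVec, zero_dotProduct]
  have e5 : qf (A * ah) (m *ᵥ f' + B *ᵥ g) = qf (A * ah) (m *ᵥ f') + qf (A * ah) (B *ᵥ g) := by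
    rw [H37.qf_add_vec h.A1_sym, e4]; ring
  unfold Hv
  rw [e3, e5, ← Real.exp_add, ← Real.exp_add, ← Real.exp_add, ← Real.exp_add]
  congr 1
  ring

lemma CS.BBv (h : CS M E0 ν A s ah gm E Q r2 m B) (y : L → ℝ) (f' : L' → ℝ) :
    B *ᵥ (Bᵀ *ᵥ ((A * ah) *ᵥ (y - E *ᵥ (Q *ᵥ y) - (m *ᵥ f' - E *ᵥ f')))) =
      y - E *ᵥ (Q *ᵥ y) - (m *ᵥ f' - E *ᵥ f') := by
  refine h.BBA _ ?_
  simp only [mulVec_sub, mulVec_mulVec, h.Qm]
  rw [← Matrix.mul_assoc, h.QE, Matrix.one_mul, one_mulVec]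
  abel

/-- the random fine field -/
def Fc (ah : Matrix L L ℝ) (gm : Matrix L I ℝ) (m : Matrix L L' ℝ) (B : Matrix L J ℝ)
    (f' : L' → ℝ) (p : (J → ℝ) × (I → ℝ)) : L → ℝ :=
  ah *ᵥ (m *ᵥ f' + B *ᵥ p.1) + gm *ᵥ p.2

lemma Fc_cont (ah : Matrix L L ℝ) (gm : Matrix L I ℝ) (m : Matrix L L' ℝ) (B : Matrix L J ℝ)
    (f' : L' → ℝ) : Continuous (Fc ah gm m B f') := by
  unfold Fc
  refine continuous_pi fun x => ?_
  simp only [Pi.add_apply, mulVec, dotProduct]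
  fun_prop

/-- the constant of the combined step -/
def cC (A : Matrix L L ℝ) (ν s : ℝ) (ah : Matrix L L ℝ) (m : Matrix L L' ℝ) (B : Matrix L J ℝ)
    (f' : L' → ℝ) : ℝ :=
  c1 L ν s / cT A √s * (cK (A * ah) (ν / (1 + s * ν)) B * Real.exp (qf (A * ah) (m *ᵥ f') / 2))

lemma CS.cC_pos (h : CS M E0 ν A s ah gm E Q r2 m B) (f' : L' → ℝ) : 0 < cC A ν s ah m B f' :=
  mul_pos (div_pos (c1_pos h.ν0) (cT_pos h.An)) (mul_pos (cK_pos h.A1_le) (Real.exp_pos _))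

lemma lift_meas (E0 : Matrix V L ℝ) : Continuous fun F : L → ℝ => E0 *ᵥ F := by
  refine continuous_pi fun x => ?_
  simp only [mulVec, dotProduct]
  fun_prop

/-- the integrand of the fine fields -/
def Gy (ν : ℝ) (A : Matrix L L ℝ) (y F : L → ℝ) : ℝ :=
  Real.exp (-(ν * ((y - F) ⬝ᵥ (y - F)) / 2)) * Real.exp (qf A F / 2)

lemma Gy_pos (ν : ℝ) (A : Matrix L L ℝ) (y F : L → ℝ) : 0 < Gy ν A y F :=
  mul_pos (Real.exp_pos _) (Real.exp_pos _)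

/-- the value of the inner average -/
def Iy (ν s : ℝ) (A ah : Matrix L L ℝ) (Q : Matrix L' L ℝ) (E m : Matrix L L' ℝ) (r2 : ℝ)
    (B : Matrix L J ℝ) (f' : L' → ℝ) (y : L → ℝ) (g : J → ℝ) : ℝ :=
  c1 L ν s / cT A √s * ((Real.exp (qf (A * ah) (m *ᵥ f') / 2) *
    Real.exp (-(ν / (1 + s * ν) * r2 * ((Q *ᵥ y - f') ⬝ᵥ (Q *ᵥ y - f')) / 2))) *
      Hv (A * ah) (ν / (1 + s * ν)) B (y - E *ᵥ (Q *ᵥ y) - (m *ᵥ f' - E *ᵥ f')) g)

lemma CS.inner' (h : CS M E0 ν A s ah gm E Q r2 m B) (f' : L' → ℝ) (y : L → ℝ) (g1 : J → ℝ) :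
    ∫ g2, Gy ν A y (Fc ah gm m B f' (g1, g2)) ∂(gau I) = Iy ν s A ah Q E m r2 B f' y g1 := by
  unfold Iy
  rw [← h.split, ← h.inner y (m *ᵥ f' + B *ᵥ g1)]
  simp only [Gy, Fc]

lemma CS.inner_int' (h : CS M E0 ν A s ah gm E Q r2 m B) (f' : L' → ℝ) (y : L → ℝ) (g1 : J → ℝ) :
    Integrable (fun g2 => Gy ν A y (Fc ah gm m B f' (g1, g2))) (gau I) := by
  have h1 := h.inner_int y (m *ᵥ f' + B *ᵥ g1)
  simp only [Gy, Fc]
  exact h1

lemma CS.outer_int (h : CS M E0 ν A s ah gm E Q r2 m B) (f' : L' → ℝ) (y : L → ℝ) :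
    Integrable (Iy ν s A ah Q E m r2 B f' y) (gau J) :=
  ((Hv_integrable h.A1_sym h.A1_le (h.BBv y f')).const_mul _).const_mul _

lemma CS.outer (h : CS M E0 ν A s ah gm E Q r2 m B) (f' : L' → ℝ) (y : L → ℝ) :
    ∫ g, Iy ν s A ah Q E m r2 B f' y g ∂(gau J) = cC A ν s ah m B f' *
      Real.exp (-(ν / (1 + s * ν) * r2 * ((Q *ᵥ y - f') ⬝ᵥ (Q *ᵥ y - f')) / 2)) := by
  unfold Iy
  rw [integral_const_mul, integral_const_mul, Hv_int_eq h.A1_sym (h.BBv _ f')]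
  unfold cC
  ring

lemma Gy_meas (ν : ℝ) (A : Matrix L L ℝ) (y : L → ℝ) : Measurable (Gy ν A y) := smeas y

lemma CS.int0 (h : CS M E0 ν A s ah gm E Q r2 m B) (f' : L' → ℝ) (y : L → ℝ) :
    Integrable (fun p : (J → ℝ) × (I → ℝ) => Gy ν A y (Fc ah gm m B f' p))
      ((gau J).prod (gau I)) := by
  have hm : AEStronglyMeasurable (fun p : (J → ℝ) × (I → ℝ) => Gy ν A y (Fc ah gm m B f' p))
      ((gau J).prod (gau I)) :=
    ((Gy_meas ν A y).comp (Fc_cont ah gm m B f').measurable).aestronglyMeasurable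
  rw [integrable_prod_iff hm]
  refine ⟨Filter.Eventually.of_forall fun g1 => h.inner_int' f' y g1, ?_⟩
  refine (h.outer_int f' y).congr (Filter.Eventually.of_forall fun g1 => ?_)
  simp only
  rw [← h.inner' f' y g1]
  refine integral_congr_ae (Filter.Eventually.of_forall fun g2 => ?_)
  simp only
  rw [Real.norm_eq_abs, abs_of_pos (Gy_pos _ _ _ _)]

lemma CS.one0 (h : CS M E0 ν A s ah gm E Q r2 m B) (f' : L' → ℝ) (y : L → ℝ) :
    ∫ p, Gy ν A y (Fc ah gm m B f' p) ∂((gau J).prod (gau I)) = cC A ν s ah m B f' *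
      Real.exp (-(ν / (1 + s * ν) * r2 * ((Q *ᵥ y - f') ⬝ᵥ (Q *ᵥ y - f')) / 2)) := by
  rw [integral_prod _ (h.int0 f' y), ← h.outer f' y]
  refine integral_congr_ae (Filter.Eventually.of_forall fun g1 => ?_)
  exact h.inner' f' y g1

lemma CS.key (h : CS M E0 ν A s ah gm E Q r2 m B) (z : V → ℝ) (F : L → ℝ) :
    Real.exp (-(qf M (z - E0 *ᵥ F) / 2)) * Real.exp (qf A F / 2) =
      Real.exp (-((qf M z - ν * (av M E0 ν z ⬝ᵥ av M E0 ν z)) / 2)) *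
        Gy ν A (av M E0 ν z) F := by
  unfold Gy
  rw [qf_sub_lift h.Ms h.ν0 h.E0M, ← mul_assoc, ← Real.exp_add (-((qf M z - _) / 2))]
  congr 2
  ring

/-- **the combined step is an averaging** -/
theorem CS.avg (h : CS M E0 ν A s ah gm E Q r2 m B) (f' : L' → ℝ) :
    Avg M (Mlow M E0 ν s Q r2) ((gau J).prod (gau I)) (fun p => E0 *ᵥ Fc ah gm m B f' p)
      (fun p => Real.exp (qf A (Fc ah gm m B f' p) / 2)) (E0 *ᵥ (E *ᵥ f')) (cC A ν s ah m B f') := by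
  have hcF := Fc_cont ah gm m B f'
  have hD : Continuous fun p : (J → ℝ) × (I → ℝ) => Real.exp (qf A (Fc ah gm m B f' p) / 2) :=
    Real.continuous_exp.comp ((continuous_qf.comp hcF).div_const 2)
  refine ⟨((lift_meas E0).comp hcF).measurable, hD.measurable, fun p => (Real.exp_pos _).le,
    h.cC_pos f', fun z => ?_, fun z => ?_⟩
  · simp only [h.key]
    exact (h.int0 f' _).const_mul _
  · simp only [h.key]
    rw [integral_const_mul, h.one0]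
    have e1 : qf (Mlow M E0 ν s Q r2) (z - E0 *ᵥ (E *ᵥ f')) =
        (qf M z - ν * (av M E0 ν z ⬝ᵥ av M E0 ν z)) +
          ν / (1 + s * ν) * r2 * ((Q *ᵥ av M E0 ν z - f') ⬝ᵥ (Q *ᵥ av M E0 ν z - f')) := by
      rw [qf_Mlow h.Ms h.ν0, av_sub_lift h.ν0 h.E0M, qf_sub_lift h.Ms h.ν0 h.E0M, mulVec_sub,
        mulVec_mulVec, h.QE, one_mulVec]
      ring
    have e2 : Real.exp (-((qf M z - ν * (av M E0 ν z ⬝ᵥ av M E0 ν z) +
          ν / (1 + s * ν) * r2 * ((Q *ᵥ av M E0 ν z - f') ⬝ᵥ (Q *ᵥ av M E0 ν z - f'))) / 2)) =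
        Real.exp (-((qf M z - ν * (av M E0 ν z ⬝ᵥ av M E0 ν z)) / 2)) *
          Real.exp (-(ν / (1 + s * ν) * r2 * ((Q *ᵥ av M E0 ν z - f') ⬝ᵥ
            (Q *ᵥ av M E0 ν z - f')) / 2)) := by
      rw [← Real.exp_add]; congr 1; ring
    rw [e1, e2]
    ring

/-! ### consequences for the charge functionals -/

variable {w : (V → ℤ) → ℝ}

/-- the tilting weight `W = e^R`: `Zn(E0 F) = Zn(0) e^{-<F, A F>/2} W(F)` -/
def Wt (w : (V → ℤ) → ℝ) (M : Matrix V V ℝ) (E0 : Matrix V L ℝ) (A : Matrix L L ℝ) (F : L → ℝ) : ℝ :=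
  Zn w M (E0 *ᵥ F) * Real.exp (qf A F / 2) / Zn w M 0

lemma Zn_eq_Wt (hw : WM w M) (F : L → ℝ) :
    Zn w M (E0 *ᵥ F) = Zn w M 0 * Real.exp (-(qf A F / 2)) * Wt w M E0 A F := by
  unfold Wt
  have h1 := (Zn_pos hw 0).ne'
  have h2 : Real.exp (-(qf A F / 2)) * Real.exp (qf A F / 2) = 1 := by
    rw [← Real.exp_add]; simp
  field_simp
  linear_combination (-Zn w M (E0 *ᵥ F)) * h2

lemma Wt_pos (hw : WM w M) (F : L → ℝ) : 0 < Wt w M E0 A F :=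
  div_pos (mul_pos (Zn_pos hw _) (Real.exp_pos _)) (Zn_pos hw _)

theorem CS.Wt_int (h : CS M E0 ν A s ah gm E Q r2 m B) (hw : WM w M)
    (hw' : WM w (Mlow M E0 ν s Q r2)) (f' : L' → ℝ) :
    Integrable (fun p => Wt w M E0 A (Fc ah gm m B f' p)) ((gau J).prod (gau I)) :=
  (avg_Zn_int (h.avg f') hw hw').div_const _

/-- the total mass of the tilt -/
theorem CS.Wt_tot (h : CS M E0 ν A s ah gm E Q r2 m B) (hw : WM w M)
    (hw' : WM w (Mlow M E0 ν s Q r2)) (f' : L' → ℝ) :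
    ∫ p, Wt w M E0 A (Fc ah gm m B f' p) ∂((gau J).prod (gau I)) =
      cC A ν s ah m B f' * Zn w (Mlow M E0 ν s Q r2) (E0 *ᵥ (E *ᵥ f')) / Zn w M 0 := by
  unfold Wt
  rw [integral_div, avg_Zn (h.avg f') hw hw']

/-- **the combined step for every charge functional** -/
theorem CS.Ph (h : CS M E0 ν A s ah gm E Q r2 m B) (hw : WM w M)
    (hw' : WM w (Mlow M E0 ν s Q r2)) (q : ℤ) (f' : L' → ℝ) :
    Ph w (Mlow M E0 ν s Q r2) q (E0 *ᵥ (E *ᵥ f')) =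
      (∫ p, ((Wt w M E0 A (Fc ah gm m B f' p) : ℝ) : ℂ) * Ph w M q (E0 *ᵥ Fc ah gm m B f' p)
        ∂((gau J).prod (gau I))) /
      ((∫ p, Wt w M E0 A (Fc ah gm m B f' p) ∂((gau J).prod (gau I)) : ℝ) : ℂ) := by
  rw [avg_Ph (h.avg f') hw hw']
  have h0 : (Zn w M 0 : ℂ) ≠ 0 := by exact_mod_cast (Zn_pos hw 0).ne'
  have e1 : ∫ p, ((Wt w M E0 A (Fc ah gm m B f' p) : ℝ) : ℂ) * H896.Ph w M q (E0 *ᵥ Fc ah gm m B f' p)
        ∂((gau J).prod (gau I)) =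
      (∫ p, H896.Ph w M q (E0 *ᵥ Fc ah gm m B f' p) * ((Zn w M (E0 *ᵥ Fc ah gm m B f' p) *
        Real.exp (qf A (Fc ah gm m B f' p) / 2) : ℝ) : ℂ) ∂((gau J).prod (gau I))) / (Zn w M 0 : ℂ) := by
    rw [← integral_div]
    refine integral_congr_ae (Filter.Eventually.of_forall fun p => ?_)
    simp only
    unfold Wt
    push_cast
    ring
  have e2 : ((∫ p, Wt w M E0 A (Fc ah gm m B f' p) ∂((gau J).prod (gau I)) : ℝ) : ℂ) =
      ((∫ p, Zn w M (E0 *ᵥ Fc ah gm m B f' p) *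
        Real.exp (qf A (Fc ah gm m B f' p) / 2) ∂((gau J).prod (gau I)) : ℝ) : ℂ) /
        (Zn w M 0 : ℂ) := by
    unfold Wt
    rw [integral_div]
    push_cast
    rfl
  rw [e1, e2, div_div_div_cancel_right₀ h0]

end

end Vale.Agent.P159.H896
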