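import Vale.Agent.P159.H896.Feat

/-!
P159, module CHG (helper896): the massive partition function in complex backgrounds, its charge
sectors, in the letters of `H37/Spec0`.
-/

open MeasureTheory Complex Finset Matrix
open scoped ComplexConjugate InnerProductSpace
open Vale.Agent.P159.TM.H104 (EM nh li)
open Vale.Agent.P159.H37 (wM ZM qf Zn Zq Un Ev)

set_option linter.unusedSectionVars false

namespace Vale.Agent.P159.H896

noncomputable section

variable {V : Type} [Fintype V] {w : (V → ℤ) → ℝ} {M : Matrix V V ℝ}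

/-- complex quadratic form -/
def qc (M : Matrix V V ℝ) (F : V → ℂ) : ℂ := ∑ x, ∑ y, F x * (M x y : ℂ) * F y

/-- complex bilinear form -/
def bc (M : Matrix V V ℝ) (F G : V → ℂ) : ℂ := ∑ x, ∑ y, F x * (M x y : ℂ) * G y

/-- `M` applied to a complex field -/
def mc (M : Matrix V V ℝ) (F : V → ℂ) : V → ℂ := fun x => ∑ y, (M x y : ℂ) * F y

/-- height field as a complex field -/
def hc (h : V → ℤ) : V → ℂ := fun x => (h x : ℂ)

/-- partition function in a complex background -/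
def ZMc (w : (V → ℤ) → ℝ) (M : Matrix V V ℝ) (F : V → ℂ) : ℂ :=
  ∑' h : V → ℤ, (w h : ℂ) * cexp (-(qc M (hc h - F)) / 2)

lemma bc_self (M : Matrix V V ℝ) (F : V → ℂ) : bc M F F = qc M F := rfl

lemma bc_add_left (M : Matrix V V ℝ) (F F' G : V → ℂ) : bc M (F + F') G = bc M F G + bc M F' G := by
  simp only [bc, Pi.add_apply, add_mul, Finset.sum_add_distrib]

lemma bc_add_right (M : Matrix V V ℝ) (F G G' : V → ℂ) : bc M F (G + G') = bc M F G + bc M F G' := by
  simp only [bc, Pi.add_apply, mul_add, Finset.sum_add_distrib]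

lemma bc_neg_left (M : Matrix V V ℝ) (F G : V → ℂ) : bc M (-F) G = -bc M F G := by
  simp only [bc, Pi.neg_apply, neg_mul, Finset.sum_neg_distrib]

lemma bc_neg_right (M : Matrix V V ℝ) (F G : V → ℂ) : bc M F (-G) = -bc M F G := by
  simp only [bc, Pi.neg_apply, mul_neg, Finset.sum_neg_distrib]

lemma bc_comm (hM : Mᵀ = M) (F G : V → ℂ) : bc M F G = bc M G F := by
  unfold bc
  rw [Finset.sum_comm]
  refine Finset.sum_congr rfl fun y _ => Finset.sum_congr rfl fun x _ => ?_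
  have : M x y = M y x := by
    conv_lhs => rw [← hM]
    rfl
  rw [this]; ring

lemma qc_add (hM : Mᵀ = M) (F G : V → ℂ) : qc M (F + G) = qc M F + 2 * bc M F G + qc M G := by
  rw [← bc_self, bc_add_left, bc_add_right, bc_add_right, bc_self, bc_self, bc_comm hM G F]
  ring

lemma qc_neg (M : Matrix V V ℝ) (F : V → ℂ) : qc M (-F) = qc M F := by
  rw [← bc_self, bc_neg_left, bc_neg_right, neg_neg, bc_self]

lemma qc_sub (hM : Mᵀ = M) (F G : V → ℂ) : qc M (F - G) = qc M F - 2 * bc M F G + qc M G := by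
  rw [sub_eq_add_neg, qc_add hM, qc_neg, bc_neg_right]
  ring

lemma bc_hc (F : V → ℂ) (h : V → ℤ) : bc M (hc h) F = pr (mc M F) h := by
  unfold bc pr mc hc
  refine Finset.sum_congr rfl fun x _ => ?_
  rw [Finset.sum_mul]
  exact Finset.sum_congr rfl fun y _ => by ring

lemma qc_hc (h : V → ℤ) : qc M (hc h) = (qf M (H37.re h) : ℂ) := by
  unfold qc hc qf H37.re
  push_cast
  rfl

lemma qc_cr (F : V → ℝ) : qc M (cr F) = (qf M F : ℂ) := by
  unfold qc cr qf
  push_cast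
  rfl

lemma qc_star (F : V → ℂ) : qc M (star F) = conj (qc M F) := by
  simp only [qc, map_sum, map_mul, Complex.conj_ofReal]
  rfl

lemma mc_star (F : V → ℂ) : mc M (star F) = star (mc M F) := by
  funext x
  simp only [mc, Pi.star_apply, star_sum, star_mul']
  refine Finset.sum_congr rfl fun y _ => ?_
  have : star (M x y : ℂ) = (M x y : ℂ) := Complex.conj_ofReal _
  rw [this]

lemma mc_add (F G : V → ℂ) : mc M (F + G) = mc M F + mc M G := by
  funext x
  simp only [mc, Pi.add_apply, mul_add, Finset.sum_add_distrib]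

lemma mc_sub (F G : V → ℂ) : mc M (F - G) = mc M F - mc M G := by
  funext x
  simp only [mc, Pi.sub_apply, mul_sub, Finset.sum_sub_distrib]

lemma continuous_mc : Continuous (mc M) := by
  refine continuous_pi fun x => ?_
  unfold mc
  fun_prop

lemma continuous_qc : Continuous (qc M) := by
  unfold qc
  fun_prop

/-- background = source -/
lemma ZMc_eq (hM : Mᵀ = M) (F : V → ℂ) :
    ZMc w M F = cexp (-(qc M F) / 2) * Zc (wM w M) (mc M F) := by
  unfold ZMc Zc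
  rw [← tsum_mul_left]
  refine tsum_congr fun h => ?_
  rw [qc_sub hM, bc_hc, qc_hc]
  unfold wM
  push_cast
  have e : cexp (-(qf M (H37.re h) - 2 * pr (mc M F) h + qc M F) / 2) =
      cexp (-(qc M F) / 2) * (cexp (-((qf M (H37.re h) : ℂ) / 2)) * cexp (pr (mc M F) h)) := by
    rw [← Complex.exp_add, ← Complex.exp_add]
    congr 1
    ring
  rw [e]
  ring

lemma ZMc_real (w : (V → ℤ) → ℝ) (M : Matrix V V ℝ) (F : V → ℝ) :
    ZMc w M (cr F) = (ZM w M F : ℂ) := by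
  unfold ZMc ZM
  rw [Complex.ofReal_tsum]
  refine tsum_congr fun h => ?_
  have e : hc h - cr F = cr (H37.re h - F) := by
    funext x
    simp [hc, cr, H37.re]
  rw [e, qc_cr]
  push_cast
  congr 2
  ring

/-- the standing hypotheses on the weight and the mass form -/
structure WM (w : (V → ℤ) → ℝ) (M : Matrix V V ℝ) : Prop where
  sym : Mᵀ = M
  em : EM (wM w M)
  ev : ∀ h, w (-h) = w h
  per : ∀ h, w (h + 1) = w h
  dg : DG (wM w M)

lemma dg_mass (hM : Mᵀ = M) (hw : DG w) : DG (wM w M) := by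
  have h1 := DG.quad (V := V) (fun h => qf M (H37.re h) / 2) (fun h h' => ?_)
  · exact hw.mul h1
  · have e1 : H37.re (h + h') = H37.re h + H37.re h' := by funext x; simp [H37.re]
    have e2 : H37.re (h - h') = H37.re h - H37.re h' := by funext x; simp [H37.re]
    rw [e1, e2, H37.qf_add_vec hM, H37.qf_sub_vec hM]
    ring

theorem continuous_ZMc (h : WM w M) : Continuous (ZMc w M) := by
  have e : ZMc w M = fun F => cexp (-(qc M F) / 2) * Zc (wM w M) (mc M F) :=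
    funext fun F => ZMc_eq h.sym F
  rw [e]
  exact (Complex.continuous_exp.comp (continuous_qc.neg.div_const _)).mul
    ((continuous_Zc h.em).comp continuous_mc)

theorem zp_ZMc (h : WM w M) : Zp (ZMc w M) where
  cont := continuous_ZMc h
  per a := by
    unfold ZMc
    rw [← (Equiv.addRight (1 : V → ℤ)).tsum_eq]
    refine tsum_congr fun k => ?_
    simp only [Equiv.coe_addRight]
    have e : hc (k + 1) - sh a 1 = hc k - a := by
      funext x
      simp only [hc, sh, Pi.sub_apply, Pi.add_apply, Pi.one_apply]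
      push_cast
      ring
    rw [h.per, e]
  even a := by
    unfold ZMc
    rw [← (Equiv.neg (V → ℤ)).tsum_eq]
    refine tsum_congr fun k => ?_
    simp only [Equiv.neg_apply]
    rw [h.ev]
    have e : hc (-k) - -a = -(hc k - a) := by
      funext x
      simp only [hc, Pi.sub_apply, Pi.neg_apply]
      push_cast
      ring
    rw [e, qc_neg]
  str a := by
    have h1 := ZMc_eq (w := w) h.sym (star a)
    have h2 := ZMc_eq (w := w) h.sym a
    rw [h1, h2, mc_star, Zc_star, qc_star]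
    show _ = conj (cexp (-(qc M a) / 2) * Zc (wM w M) (mc M a))
    rw [map_mul, ← Complex.exp_conj]
    congr 2
    rw [map_div₀, map_neg, map_ofNat]

theorem pos_ZMc (h : WM w M) : Pos (ZMc w M) := by
  intro F
  rw [ZMc_real, Complex.ofReal_re]
  exact H37.ZM_pos h.sym h.em F

/-- **the feature map of complex backgrounds** -/
theorem feat_ZMc (h : WM w M) :
    ∃ (H : Type) (_ : NormedAddCommGroup H) (_ : InnerProductSpace ℂ H) (_ : CompleteSpace H)
      (Φ : (V → ℂ) → H), Feat (ZMc w M) Φ := by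
  have hE : ∀ k, wM w M (-k) = wM w M k := H37.ev_wM (w := w) h.ev M
  obtain ⟨H, i1, i2, i3, Φ, hΦ⟩ := feat_src h.em hE h.dg
  refine ⟨H, i1, i2, i3, fun a => cexp (-(qc M a)) • Φ (mc M a), ⟨fun a c => ?_⟩⟩
  rw [inner_smul_left, inner_smul_right, hΦ.ker, ZMc_eq h.sym, ZMc_eq h.sym, qc_add h.sym,
    qc_sub h.sym, mc_add, mc_sub, mc_star, qc_star, ← Complex.exp_conj]
  have e : conj (-(qc M a)) = -conj (qc M a) := map_neg _ _
  rw [e]
  have e2 : cexp (-(conj (qc M a) + 2 * bc M (star a) c + qc M c) / 2) *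
      cexp (-(conj (qc M a) - 2 * bc M (star a) c + qc M c) / 2) =
      cexp (-conj (qc M a)) * cexp (-(qc M c)) := by
    rw [← Complex.exp_add, ← Complex.exp_add]
    congr 1
    ring
  calc _ = (cexp (-conj (qc M a)) * cexp (-(qc M c))) *
        (Zc (wM w M) (star (mc M a) + mc M c) * Zc (wM w M) (star (mc M a) - mc M c)) := by ring
    _ = _ := by rw [← e2]; ring

/-! ### the letters of `H37/Spec0` -/

lemma sh_cr (F : V → ℝ) (u : ℝ) : sh (cr F) u = cr fun x => F x + u := by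
  funext x
  simp [sh, cr]

theorem Zq_eq (w : (V → ℤ) → ℝ) (M : Matrix V V ℝ) (q : ℤ) (F : V → ℝ) :
    Zq w M q F = Sec (ZMc w M) q (cr F) := by
  unfold Zq Sec
  refine intervalIntegral.integral_congr fun u _ => ?_
  show (ZM w M (fun x => F x + u) : ℂ) * cexp (-(2 * Real.pi * q * u) * I) =
    ZMc w M (sh (cr F) u) * ph q u
  rw [sh_cr, ZMc_real]
  rfl

theorem Zn_eq (h : WM w M) (F : V → ℝ) : Zn w M F = Z0 (ZMc w M) F := by
  rw [Z0_eq (zp_ZMc h)]
  unfold Zn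
  refine intervalIntegral.integral_congr fun u _ => ?_
  show ZM w M (fun x => F x + u) = (ZMc w M (cr fun x => F x + u)).re
  rw [ZMc_real, Complex.ofReal_re]

/-- charge `q` at the imaginary background `i ψ` -/
def Aw (w : (V → ℤ) → ℝ) (M : Matrix V V ℝ) (q : ℤ) (ψ : V → ℝ) : ℝ := Aq (ZMc w M) q ψ

theorem Zq_zero (h : WM w M) (q : ℤ) : Zq w M q 0 = (Aw w M q 0 : ℂ) := by
  rw [Zq_eq, ← bg_zero]
  exact Sec_im_real (zp_ZMc h) q 0

theorem Zn_pos (h : WM w M) (F : V → ℝ) : 0 < Zn w M F := by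
  rw [Zn_eq h]
  exact Z0_pos (zp_ZMc h) (pos_ZMc h) F

theorem Aw_nonneg (h : WM w M) (q : ℤ) (ψ : V → ℝ) : 0 ≤ Aw w M q ψ := by
  obtain ⟨H, i1, i2, i3, Φ, hΦ⟩ := feat_ZMc h
  exact Aq_nonneg hΦ (zp_ZMc h) (pos_ZMc h) q ψ

/-- `|Z⁽q⁾(F)| Z⁰(0) ≤ Z⁰(F) Z⁽q⁾(0)` -/
theorem Zq_le (h : WM w M) (q : ℤ) (F : V → ℝ) :
    ‖Zq w M q F‖ * Zn w M 0 ≤ Zn w M F * Aw w M q 0 := by
  obtain ⟨H, i1, i2, i3, Φ, hΦ⟩ := feat_ZMc h
  rw [Zq_eq, Zn_eq h, Zn_eq h]
  exact sec_le_real hΦ (zp_ZMc h) (pos_ZMc h) q F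

/-- complex backgrounds -/
theorem Sec_le (h : WM w M) (q : ℤ) (g ψ : V → ℝ) :
    ‖Sec (ZMc w M) q (bg g ψ)‖ * Zn w M 0 ≤ Zn w M g * Aw w M q ψ := by
  obtain ⟨H, i1, i2, i3, Φ, hΦ⟩ := feat_ZMc h
  rw [Zn_eq h, Zn_eq h]
  exact sec_le hΦ (zp_ZMc h) (pos_ZMc h) q g ψ

/-- the master inequality -/
theorem Sec_master (h : WM w M) (r s : ℤ) (x ξ y η : V → ℝ) :
    (‖Sec (ZMc w M) r (bg x ξ)‖ * ‖Sec (ZMc w M) s (bg y η)‖) ^ 2 ≤
      (Zn w M (x + y) * Aw w M (r + s) (ξ + η)) * (Zn w M (x - y) * Aw w M (r - s) (ξ - η)) := by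
  obtain ⟨H, i1, i2, i3, Φ, hΦ⟩ := feat_ZMc h
  rw [Zn_eq h, Zn_eq h]
  exact master hΦ (zp_ZMc h) r s x ξ y η

theorem Aw_mul_le (h : WM w M) (r s : ℤ) (ξ η : V → ℝ) :
    (Aw w M r ξ * Aw w M s η) ^ 2 ≤
      Zn w M 0 ^ 2 * (Aw w M (r + s) (ξ + η) * Aw w M (r - s) (ξ - η)) := by
  obtain ⟨H, i1, i2, i3, Φ, hΦ⟩ := feat_ZMc h
  rw [Zn_eq h]
  exact Aq_mul_le' hΦ (zp_ZMc h) (pos_ZMc h) r s ξ η

theorem Zn_par (h : WM w M) (x y : V → ℝ) :
    (Zn w M x * Zn w M y) ^ 2 ≤ Zn w M (x + y) * Zn w M (x - y) * Zn w M 0 ^ 2 := by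
  obtain ⟨H, i1, i2, i3, Φ, hΦ⟩ := feat_ZMc h
  rw [Zn_eq h, Zn_eq h, Zn_eq h, Zn_eq h, Zn_eq h]
  exact Z0_par hΦ (zp_ZMc h) (pos_ZMc h) x y

theorem Un_eq (h : WM w M) (F : V → ℝ) : Un w M F = U0 (ZMc w M) F := by
  unfold Un U0
  rw [Zn_eq h, Zn_eq h]

theorem Un_par (h : WM w M) (x y : V → ℝ) :
    Un w M (x + y) + Un w M (x - y) ≤ 2 * Un w M x + 2 * Un w M y := by
  obtain ⟨H, i1, i2, i3, Φ, hΦ⟩ := feat_ZMc h
  rw [Un_eq h, Un_eq h, Un_eq h, Un_eq h]
  exact U0_par hΦ (zp_ZMc h) (pos_ZMc h) x y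

/-- **(PK) for the neutral model** -/
theorem psd_Zn (h : WM w M) {n : ℕ} (a : Fin n → V → ℝ) (c : Fin n → ℝ) :
    0 ≤ ∑ i, ∑ j, c i * c j * (Zn w M (a i + a j) * Zn w M (a i - a j)) := by
  obtain ⟨H, i1, i2, i3, Φ, hΦ⟩ := feat_ZMc h
  have := psd0 hΦ (zp_ZMc h) a c
  simpa only [Zn_eq h] using this

/-- complex Ginibre inequality for the background `g + iψ` -/
theorem ZMc_ginibre (h : WM w M) (g ψ : V → ℝ) :
    ‖ZMc w M (bg g ψ)‖ * ZM w M 0 ≤ ZM w M g * (ZMc w M (bg 0 ψ)).re := by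
  obtain ⟨H, i1, i2, i3, Φ, hΦ⟩ := feat_ZMc h
  have h1 := ginibre_complex hΦ (zp_ZMc h) (pos_ZMc h) g ψ
  rw [ZMc_real, Complex.ofReal_re] at h1
  have h0 : (0 : V → ℂ) = cr 0 := by funext z; simp [cr]
  rw [h0, ZMc_real, Complex.ofReal_re] at h1
  exact h1

/-! ### the torus -/

open Vale.Agent.P159.TM.SpecC (wT Tor)

theorem dg_wT {b : ℝ} (hb : 0 ≤ b) (N : ℕ) [NeZero N] : DG (wT b N) := by
  classical
  have h1 := DG.edges (V := Tor N) (univ : Finset (Tor N)) (fun x => x) (fun x => x + (1, 0))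
    (fun _ => b) (fun _ _ => hb)
  have h2 := DG.edges (V := Tor N) (univ : Finset (Tor N)) (fun x => x) (fun x => x + (0, 1))
    (fun _ => b) (fun _ _ => hb)
  have h3 := h1.mul h2
  have e : wT b N = fun h : Tor N → ℤ =>
      (∏ x ∈ (univ : Finset (Tor N)), H353.wI b (h (x + (1, 0)) - h x)) *
        ∏ x ∈ (univ : Finset (Tor N)), H353.wI b (h (x + (0, 1)) - h x) := by
    funext h
    unfold wT
    rw [Finset.prod_mul_distrib]
  rw [e]
  exact h3

end

end Vale.Agent.P159.H896
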