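import Vale.Agent.P159.H896.Ht0

/-!
P159 (helper896): instances of `tail0` (neutral model, source zero, every prior mass), `n = N / l`:

* `tail_blk`  : `1_B (1 - cellP n q) T cobV h` on a set `B` of cells, blocks of `q` by `q` cells;
* `tail_mean` : difference of two averages `<T (a - a'), cobV h>`;
* `tail_psd`  : a positive semidefinite form of small trace;
* `tail_all`  : the whole field `T Pn cobV h`.

In the letters `indh {h | ρ < |c F cobV h|²}` of helper816: `tailF` (any `F`), `tailF_blk`,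
`tailF_mean`, `tailF_ball` (norm `a0` and trace `r₁` of `F`), `tailF_all`.
-/

set_option linter.unusedSectionVars false

namespace Vale.Agent.P159.H896

open Finset Matrix MeasureTheory ProbabilityTheory
open Vale.Agent.P159.TM.H104 (EM Ex Cv K3 Lg li nh Gr)
open Vale.Agent.P159.TM.H764 (EE grd nrm)
open Vale.Agent.P159.TM.Spec (V)
open Vale.Agent.P159.TM.SpecC (Tor wT)
open Vale.Agent.P159.H37
open Vale.Agent.P159.H864 hiding qf_smul_mat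
open Vale.Agent.P159.H859 (Rk sq sym_Rk gd gd_le gd_nonneg dB ravg sum_ravg dB_row qf_sq
  qf_Rk_single sq_sum_le sq_add_le pd_Rk op_pos)
open Vale.Agent.P159.H663 (TC bE cE2 E2_op E2_trace E2_sq row_contr ti_sum)
open Vale.Agent.P159.H963 (Neu nM nMC MF Pn Pn_of_neu ti_Pn sym_Pn)
open Vale.Agent.P159.H239 (indh)

noncomputable section

section gen

variable {n : ℕ} [NeZero n]

/-- the rows of the mean removed cut are neutral -/
lemma row_neu' {T : Matrix (V n) (V n) ℝ} (hT : TC T) {q : ℕ} (hq : q ∣ n) (B : Finset (V n))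
    (x : V n) : Neu (bE B q T x) := by
  have : NeZero (n / q) := ne_div hq
  have e : bE B q T x = T *ᵥ (fun y => (dB B * (1 - cellP n q)) x y) := by
    unfold bE
    exact row_contr hT _ x
  rw [e]
  unfold H963.Neu
  rw [ti_sum hT.ti]
  have e2 : (fun y => (dB B * (1 - cellP n q)) x y) = (dB B * (1 - cellP n q)) x := rfl
  rw [e2, dB_row]
  split_ifs with h
  · rw [sum_ravg x (H963.cellP_ones hq x), mul_zero]
  · simp

/-- the form of the resolvent on an average -/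
lemma qf_avg {r κ : ℝ} (hr : 0 < r) (hκ : 0 < κ) {a : V n → ℝ} (ha0 : ∀ y, 0 ≤ a y)
    (ha : ∑ y, a y = 1) : qf (Rk r κ : Matrix (V n) (V n) ℝ) a ≤ gd n r κ := by
  obtain ⟨T, hT⟩ := qf_sq (pd_Rk (n := n) hr hκ.le).posSemidef
  have e : T *ᵥ a = ∑ y ∈ Finset.univ, a y • (T *ᵥ (Pi.single y 1 : V n → ℝ)) := by
    have e1 : a = ∑ y, a y • (Pi.single y 1 : V n → ℝ) := by
      funext z
      simp [Finset.sum_apply, Pi.single_apply]
    conv_lhs => rw [e1]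
    rw [Matrix.mulVec_sum]
    exact Finset.sum_congr rfl fun y _ => by rw [Matrix.mulVec_smul]
  rw [hT, e]
  refine (sq_sum_le _ _ _ (gd_nonneg (n := n) hr hκ.le) fun y _ => ?_).trans ?_
  · rw [← hT, qf_Rk_single]
  · have h1 : ∑ y, |a y| = 1 := by
      rw [← ha]
      exact Finset.sum_congr rfl fun y _ => abs_of_nonneg (ha0 y)
    rw [h1]
    linarith

lemma qf_avg2 {r κ : ℝ} (hr : 0 < r) (hκ : 0 < κ) {a a' : V n → ℝ} (ha0 : ∀ y, 0 ≤ a y)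
    (ha : ∑ y, a y = 1) (ha0' : ∀ y, 0 ≤ a' y) (ha' : ∑ y, a' y = 1) :
    qf (Rk r κ : Matrix (V n) (V n) ℝ) (a - a') ≤
      4 * (1 / (r * (n : ℝ) ^ 2) + (1 + Real.log n) / κ) := by
  have h1 := qf_avg hr hκ ha0 ha
  have h2 := qf_avg hr hκ ha0' ha'
  have h3 := gd_le (n := n) hr hκ
  obtain ⟨T, hT⟩ := qf_sq (pd_Rk (n := n) hr hκ.le).posSemidef
  have e : T *ᵥ (a - a') = T *ᵥ a + (-1 : ℝ) • (T *ᵥ a') := by
    rw [Matrix.mulVec_sub, neg_smul, one_smul, sub_eq_add_neg]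
  have h4 := sq_add_le (T *ᵥ a) ((-1 : ℝ) • (T *ᵥ a'))
  rw [H859.sq_smul, ← e, ← hT, ← hT, ← hT] at h4
  linarith

lemma sum_sq_le_one {a : V n → ℝ} (ha0 : ∀ y, 0 ≤ a y) (ha : ∑ y, a y = 1) :
    ∑ y, a y ^ 2 ≤ 1 := by
  rw [← ha]
  refine Finset.sum_le_sum fun y _ => ?_
  have h1 : a y ≤ 1 := by
    rw [← ha]
    exact Finset.single_le_sum (fun z _ => ha0 z) (Finset.mem_univ y)
  have := ha0 y
  nlinarith

lemma sum_sq_sub {a a' : V n → ℝ} (ha0 : ∀ y, 0 ≤ a y) (ha : ∑ y, a y = 1)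
    (ha0' : ∀ y, 0 ≤ a' y) (ha' : ∑ y, a' y = 1) : ∑ y, (a - a') y ^ 2 ≤ 2 := by
  have h1 := sum_sq_le_one ha0 ha
  have h2 := sum_sq_le_one ha0' ha'
  have h3 : ∑ y, (a - a') y ^ 2 ≤ ∑ y, (a y ^ 2 + a' y ^ 2) := by
    refine Finset.sum_le_sum fun y _ => ?_
    rw [Pi.sub_apply]
    nlinarith [mul_nonneg (ha0 y) (ha0' y)]
  rw [Finset.sum_add_distrib] at h3
  linarith

end gen

section inst

variable {N l : ℕ} [NeZero N] [NeZero (N / l)] {b t τ κ cs : ℝ}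

lemma cast_div' (hl : l ∣ N) : ((N / l : ℕ) : ℝ) = (N : ℝ) / l :=
  Nat.cast_div hl (by exact_mod_cast (l_pos hl).ne')

/-- norm of the bare resolvent on neutral vectors -/
lemma R0_le (hl : l ∣ N) (hκ : 0 < κ) {u : V (N / l) → ℝ} (hu : Neu u) :
    qf (R0 N l κ) u ≤ (N : ℝ) ^ 2 / (17 * κ) * ∑ x, u x ^ 2 := by
  have hl0 : (0 : ℝ) < l := by exact_mod_cast l_pos hl
  have hN : (0 : ℝ) < N := by exact_mod_cast NeZero.pos N
  have h := qf_neu_le (S := R0 N l κ) (R := 1) (H859.ti_Rk _ _) TI.one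
    (c := (N : ℝ) ^ 2 / (17 * κ)) (fun k hk => by
      rw [sym_Rk (by positivity) (by positivity), sym_one, mul_one]
      have h1 := EE_gap' hk
      rw [cast_div' hl] at h1
      rw [inv_eq_one_div, div_le_div_iff₀ (add_pos_of_pos_of_nonneg (by positivity)
        (mul_nonneg (by positivity) (TM.H764.EE_nonneg k))) (by positivity)]
      have h2 : κ / (l : ℝ) ^ 2 * (16 / ((N : ℝ) / l) ^ 2) ≤ κ / (l : ℝ) ^ 2 * EE k :=
        mul_le_mul_of_nonneg_left h1 (by positivity)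
      have e : κ / (l : ℝ) ^ 2 * (16 / ((N : ℝ) / l) ^ 2) = 16 * κ / (N : ℝ) ^ 2 := by
        field_simp
      rw [e] at h2
      have h3 : (N : ℝ) ^ 2 * (κ / (N : ℝ) ^ 2 + 16 * κ / (N : ℝ) ^ 2) = 17 * κ := by
        field_simp
        ring
      have h4 := mul_le_mul_of_nonneg_left h2 (show 0 ≤ (N : ℝ) ^ 2 by positivity)
      nlinarith) hu
  have e : qf (1 : Matrix (V (N / l)) (V (N / l)) ℝ) u = ∑ x, u x ^ 2 := by
    rw [qf_eq, one_mulVec]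
    unfold dotProduct
    exact Finset.sum_congr rfl fun x _ => by ring
  rwa [e] at h

lemma gd0 (hl : l ∣ N) (hκ : 0 < κ) :
    1 / (κ / (N : ℝ) ^ 2 * ((N / l : ℕ) : ℝ) ^ 2) +
      (1 + Real.log ((N / l : ℕ) : ℝ)) / (κ / (l : ℝ) ^ 2) =
    (l : ℝ) ^ 2 / κ * (2 + Real.log ((N / l : ℕ) : ℝ)) := by
  have hl0 : (0 : ℝ) < l := by exact_mod_cast l_pos hl
  have hN : (0 : ℝ) < N := by exact_mod_cast NeZero.pos N
  generalize Real.log ((N / l : ℕ) : ℝ) = w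
  rw [cast_div' hl]
  field_simp
  ring

/-- **(S1)** the field on a block, block mean removed -/
theorem tail_blk (hb : 0 ≤ b) (hl : l ∣ N) (hτ : 0 < τ) (h : τ ≤ t) (hκ : 0 < κ)
    (hcs0 : 0 ≤ cs) (hcs : κ * (b + 12 * max b 1 ^ 2 * cs ^ 2) ≤ 1) (hcs1 : cs ≤ 1) (x₀ : V N)
    {c : ℝ} (hc : 0 < c) {q : ℕ} (hq : q ∣ N / l) (B : Finset (V (N / l)))
    {T : Matrix (V (N / l)) (V (N / l)) ℝ} (hT : TC T) {ρ : ℝ} (hρ0 : 0 ≤ ρ)
    (hs : Gam0 N t κ * (κ / (32 * ((q : ℝ) * l) ^ 2) *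
      (κ * ρ / (64 * c ^ 2 * ((q : ℝ) * l) ^ 2) + 2 * ((N / l : ℕ) : ℝ) ^ 2)) ≤ cs ^ 2) :
    Ex (nMC N l b t τ x₀) 0 ({h : V N → ℤ | ρ ≤ ∑ w,
      ((c • (bE B q T * cobV N l)) *ᵥ re h) w ^ 2}.indicator fun _ => (1 : ℝ)) ≤
      2 * Real.exp (B.card * (2 + Real.log ((N / l : ℕ) : ℝ)) / (8 * (q : ℝ) ^ 2) -
        κ * ρ / (128 * c ^ 2 * ((q : ℝ) * l) ^ 2)) := by
  have hlR : (0 : ℝ) < l := by exact_mod_cast l_pos hl
  have hN : (0 : ℝ) < N := by exact_mod_cast NeZero.pos N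
  have hqR : (0 : ℝ) < q := by exact_mod_cast Nat.pos_of_dvd_of_pos hq (NeZero.pos _)
  have hκ' : 0 < κ / (l : ℝ) ^ 2 := by positivity
  have hr : 0 < κ / (N : ℝ) ^ 2 := by positivity
  have hE : bE B q T = cE2 B q T := rfl
  have etr : ∀ φ : V (N / l) → ℝ, (c • bE B q T)ᵀ *ᵥ φ = c • ((bE B q T)ᵀ *ᵥ φ) := fun φ => by
    rw [transpose_smul, Matrix.smul_mulVec]
  have hmain := tail0 hb hl hτ h hκ hcs0 hcs hcs1 x₀ (A := c • bE B q T) (ρ := ρ) (a0 := c ^ 2)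
    (k₂ := c ^ 2 * (16 * (q : ℝ) ^ 2 / (κ / (l : ℝ) ^ 2)))
    (r₂ := c ^ 2 * (B.card * (4 * ((l : ℝ) ^ 2 / κ * (2 + Real.log ((N / l : ℕ) : ℝ))))))
    (fun x => (row_neu' hT hq B x).smul c) hρ0 (by positivity)
    (fun φ => by
      rw [etr]
      have h1 := mul_le_mul_of_nonneg_left (E2_sq (B := B) hq hT φ) (sq_nonneg c)
      rw [← hE, Finset.mul_sum] at h1
      refine le_trans (le_of_eq ?_) h1
      exact Finset.sum_congr rfl fun i _ => by rw [Pi.smul_apply, smul_eq_mul]; ring)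
    (by positivity)
    (fun φ => by
      rw [etr, H37.qf_smul]
      have h1 := mul_le_mul_of_nonneg_left (E2_op (B := B) hq hT hr hκ' φ) (sq_nonneg c)
      rw [← hE] at h1
      refine h1.trans (le_of_eq (by ring)))
    (by
      have h1 := E2_trace (B := B) hq hT hr hκ'
      rw [H859.trace_conj, gd0 hl hκ, ← hE] at h1
      have h2 := mul_le_mul_of_nonneg_left h1 (sq_nonneg c)
      rw [Finset.mul_sum] at h2
      refine le_trans (le_of_eq ?_) h2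
      refine Finset.sum_congr rfl fun k _ => ?_
      have : (c • bE B q T) k = c • (bE B q T k) := rfl
      rw [this, H37.qf_smul])
    (by
      refine le_trans (le_of_eq ?_) hs
      rw [TM.H764.card_V]
      congr 1
      field_simp
      ring)
  rw [Matrix.smul_mul] at hmain
  refine hmain.trans (le_of_eq ?_)
  congr 2
  generalize Real.log ((N / l : ℕ) : ℝ) = w
  field_simp
  ring

/-- **(S2)** the difference of two averages -/
theorem tail_mean (hb : 0 ≤ b) (hl : l ∣ N) (hτ : 0 < τ) (h : τ ≤ t) (hκ : 0 < κ)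
    (hcs0 : 0 ≤ cs) (hcs : κ * (b + 12 * max b 1 ^ 2 * cs ^ 2) ≤ 1) (hcs1 : cs ≤ 1) (x₀ : V N)
    {T : Matrix (V (N / l)) (V (N / l)) ℝ} (hT : TC T) {a a' : V (N / l) → ℝ}
    (ha0 : ∀ y, 0 ≤ a y) (ha : ∑ y, a y = 1) (ha0' : ∀ y, 0 ≤ a' y) (ha' : ∑ y, a' y = 1)
    {L : ℝ} (hL : 0 ≤ L)
    (hs : Gam0 N t κ * (κ / (4 * (l : ℝ) ^ 2) * (κ * L ^ 2 / (16 * (l : ℝ) ^ 2) + 2)) ≤ cs ^ 2) :
    Ex (nMC N l b t τ x₀) 0 ({h : V N → ℤ | L ≤
      |(T *ᵥ (a - a')) ⬝ᵥ (cobV N l *ᵥ re h)|}.indicator fun _ => (1 : ℝ)) ≤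
      2 * Real.exp (1 / 2 - κ * L ^ 2 / (32 * (l : ℝ) ^ 2 *
        (2 + Real.log ((N / l : ℕ) : ℝ)))) := by
  have hlR : (0 : ℝ) < l := by exact_mod_cast l_pos hl
  have hN : (0 : ℝ) < N := by exact_mod_cast NeZero.pos N
  have hκ' : 0 < κ / (l : ℝ) ^ 2 := by positivity
  have hr : 0 < κ / (N : ℝ) ^ 2 := by positivity
  set w : ℝ := 2 + Real.log ((N / l : ℕ) : ℝ) with hw
  have hw2 : 2 ≤ w := by
    have := Real.log_natCast_nonneg (N / l)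
    rw [hw]
    linarith
  set A : Matrix Unit (V (N / l)) ℝ := fun _ => T *ᵥ (a - a') with hA
  have hsR : ∀ k : V (N / l), 0 ≤ sym (R0 N l κ) k := fun k => by
    rw [sym_Rk hr hκ'.le]
    exact (inv_pos.2 (op_pos hr hκ'.le k)).le
  have hrow : qf (R0 N l κ) (T *ᵥ (a - a')) ≤ 4 * ((l : ℝ) ^ 2 / κ * w) := by
    refine (hT.form (H859.ti_Rk _ _) hsR _).trans ?_
    have h1 := qf_avg2 (n := N / l) hr hκ' ha0 ha ha0' ha'
    rwa [gd0 hl hκ] at h1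
  have hsq : ∑ c, (T *ᵥ (a - a')) c ^ 2 ≤ 2 :=
    (hT.contr _).trans (sum_sq_sub ha0 ha ha0' ha')
  have etr : ∀ φ : Unit → ℝ, Aᵀ *ᵥ φ = φ () • (T *ᵥ (a - a')) := fun φ => by
    funext z
    have e1 : (Aᵀ *ᵥ φ) z = ∑ k : Unit, A k z * φ k := rfl
    rw [e1, Fintype.univ_ofSubsingleton, Finset.sum_singleton, Pi.smul_apply, smul_eq_mul, mul_comm]
  have hneu : Neu (T *ᵥ (a - a')) := by
    unfold H963.Neu
    rw [ti_sum hT.ti]
    simp only [Pi.sub_apply, Finset.sum_sub_distrib, ha, ha', sub_self, mul_zero]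
  have hmain := tail0 hb hl hτ h hκ hcs0 hcs hcs1 x₀ (A := A) (ρ := L ^ 2) (a0 := 2)
    (k₂ := 4 * ((l : ℝ) ^ 2 / κ * w)) (r₂ := 4 * ((l : ℝ) ^ 2 / κ * w))
    (fun _ => hneu) (sq_nonneg L) (by norm_num)
    (fun φ => by
      rw [etr]
      simp only [Pi.smul_apply, smul_eq_mul, mul_pow, ← Finset.mul_sum, Fintype.univ_ofSubsingleton,
        Finset.sum_singleton]
      have := mul_le_mul_of_nonneg_left hsq (sq_nonneg (φ ()))
      have e : φ (default : Unit) = φ () := rfl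
      linarith)
    (by positivity)
    (fun φ => by
      rw [etr, H37.qf_smul]
      have := mul_le_mul_of_nonneg_left hrow (sq_nonneg (φ ()))
      simp only [Fintype.univ_ofSubsingleton, Finset.sum_singleton]
      have e : φ (default : Unit) = φ () := rfl
      linarith)
    (by
      simp only [Fintype.univ_ofSubsingleton, Finset.sum_singleton]
      exact hrow)
    (by
      refine le_trans ?_ hs
      have hG := Gam0_nonneg (N := N) (T := t) (κ := κ)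
      refine mul_le_mul_of_nonneg_left ?_ hG
      have h1 : 2 / (2 * (4 * ((l : ℝ) ^ 2 / κ * w))) ≤ κ / (4 * (l : ℝ) ^ 2) := by
        have e : 2 / (2 * (4 * ((l : ℝ) ^ 2 / κ * w))) = κ / (4 * (l : ℝ) ^ 2) * w⁻¹ := by
          field_simp
        rw [e]
        refine mul_le_of_le_one_right (by positivity) (inv_le_one_of_one_le₀ (by linarith))
      have h2 : L ^ 2 / (4 * (4 * ((l : ℝ) ^ 2 / κ * w))) ≤ κ * L ^ 2 / (16 * (l : ℝ) ^ 2) := by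
        have e : L ^ 2 / (4 * (4 * ((l : ℝ) ^ 2 / κ * w))) =
            κ * L ^ 2 / (16 * (l : ℝ) ^ 2) * w⁻¹ := by
          field_simp
          ring
        rw [e]
        refine mul_le_of_le_one_right (by positivity) (inv_le_one_of_one_le₀ (by linarith))
      have h3 : 0 ≤ L ^ 2 / (4 * (4 * ((l : ℝ) ^ 2 / κ * w))) := by positivity
      have h4 : (Fintype.card Unit : ℝ) = 1 := by simp
      rw [h4]
      refine mul_le_mul h1 ?_ (by linarith) (by positivity)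
      linarith)
  have eset : {h : V N → ℤ | L ≤ |(T *ᵥ (a - a')) ⬝ᵥ (cobV N l *ᵥ re h)|} =
      {h : V N → ℤ | L ^ 2 ≤ ∑ k, ((A * cobV N l) *ᵥ re h) k ^ 2} := by
    ext h
    simp only [Set.mem_ofPred_eq, Fintype.univ_ofSubsingleton, Finset.sum_singleton]
    have e : ((A * cobV N l) *ᵥ re h) (default : Unit) =
        (T *ᵥ (a - a')) ⬝ᵥ (cobV N l *ᵥ re h) := by
      rw [← Matrix.mulVec_mulVec]
      rfl
    rw [e, ← sq_abs ((T *ᵥ (a - a')) ⬝ᵥ (cobV N l *ᵥ re h))]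
    exact (pow_le_pow_iff_left₀ hL (abs_nonneg _) two_ne_zero).symm
  rw [eset]
  refine hmain.trans (le_of_eq ?_)
  congr 2
  have hw0 : w ≠ 0 := by positivity
  field_simp
  ring

/-- the norm is at most the trace -/
lemma norm_le_tr {n : ℕ} [NeZero n] {K : Type*} [Fintype K] {R : Matrix (V n) (V n) ℝ}
    (hR : R.PosSemidef) (A : Matrix K (V n) ℝ) (φ : K → ℝ) :
    qf R (Aᵀ *ᵥ φ) ≤ (∑ k, qf R (A k)) * ∑ k, φ k ^ 2 := by
  classical
  obtain ⟨T, hT⟩ := qf_sq hR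
  have e : T *ᵥ (Aᵀ *ᵥ φ) = ∑ k, φ k • (T *ᵥ A k) := by
    have e1 : Aᵀ *ᵥ φ = ∑ k, φ k • A k := by
      funext z
      have : (Aᵀ *ᵥ φ) z = ∑ k, A k z * φ k := rfl
      rw [this, Finset.sum_apply]
      exact Finset.sum_congr rfl fun k _ => by rw [Pi.smul_apply, smul_eq_mul, mul_comm]
    rw [e1, Matrix.mulVec_sum]
    exact Finset.sum_congr rfl fun k _ => by rw [Matrix.mulVec_smul]
  rw [hT, e]
  simp only [hT]
  have h1 : ∀ z, (∑ k, φ k • (T *ᵥ A k)) z ^ 2 ≤ (∑ k, φ k ^ 2) * ∑ k, (T *ᵥ A k) z ^ 2 := by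
    intro z
    rw [Finset.sum_apply]
    simp only [Pi.smul_apply, smul_eq_mul]
    exact Finset.sum_mul_sq_le_sq_mul_sq _ _ _
  have h2 : H859.sq (∑ k, φ k • (T *ᵥ A k)) = ∑ z, (∑ k, φ k • (T *ᵥ A k)) z ^ 2 := by
    unfold H859.sq dotProduct
    exact Finset.sum_congr rfl fun z _ => by ring
  have h3 : ∀ k, H859.sq (T *ᵥ A k) = ∑ z, (T *ᵥ A k) z ^ 2 := fun k => by
    unfold H859.sq dotProduct
    exact Finset.sum_congr rfl fun z _ => by ring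
  rw [h2]
  simp only [h3]
  refine (Finset.sum_le_sum fun z _ => h1 z).trans (le_of_eq ?_)
  rw [← Finset.mul_sum, Finset.sum_comm, mul_comm]

lemma psd_R0 (hκ : 0 < κ) (hl : l ∣ N) : (R0 N l κ).PosSemidef := by
  have hlR : (0 : ℝ) < l := by exact_mod_cast l_pos hl
  have hN : (0 : ℝ) < N := by exact_mod_cast NeZero.pos N
  exact (pd_Rk (by positivity) (by positivity)).posSemidef

/-- **(S3)** a positive semidefinite form without constant mode, of small trace -/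
theorem tail_psd (hb : 0 ≤ b) (hl : l ∣ N) (hτ : 0 < τ) (h : τ ≤ t) (hκ : 0 < κ)
    (hcs0 : 0 ≤ cs) (hcs : κ * (b + 12 * max b 1 ^ 2 * cs ^ 2) ≤ 1) (hcs1 : cs ≤ 1) (x₀ : V N)
    {W : Matrix (V (N / l)) (V (N / l)) ℝ} (hW : W.PosSemidef)
    (hW1 : W *ᵥ (fun _ => (1 : ℝ)) = 0) {w u : ℝ} (hw0 : 0 < w) (hw : W.trace ≤ w) (hu : 0 ≤ u)
    (hs : Gam0 N t κ * (17 * κ / (2 * (N : ℝ) ^ 2) *
      (17 * κ * u / (4 * (N : ℝ) ^ 2 * w) + 2 * ((N / l : ℕ) : ℝ) ^ 2)) ≤ cs ^ 2) :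
    Ex (nMC N l b t τ x₀) 0 ({h : V N → ℤ | u ≤ qf W (cobV N l *ᵥ re h)}.indicator
      fun _ => (1 : ℝ)) ≤ 2 * Real.exp (1 / 2 - 17 * κ * u / (8 * (N : ℝ) ^ 2 * w)) := by
  have hlR : (0 : ℝ) < l := by exact_mod_cast l_pos hl
  have hN : (0 : ℝ) < N := by exact_mod_cast NeZero.pos N
  obtain ⟨B, hB⟩ := H859.exists_gram hW
  have hsq : ∀ v : V (N / l) → ℝ, qf W v = ∑ k, (Bᵀ *ᵥ v) k ^ 2 := fun v => by
    rw [← hB]
    have := qf_gram Bᵀ v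
    rwa [Matrix.transpose_transpose] at this
  have hrow : ∀ k, Neu (Bᵀ k) := by
    have h1 : qf W (fun _ => (1 : ℝ)) = 0 := by
      rw [qf_eq, hW1, dotProduct_zero]
    rw [hsq] at h1
    intro k
    have h2 := (Finset.sum_eq_zero_iff_of_nonneg fun k _ => sq_nonneg _).1 h1 k (Finset.mem_univ k)
    have h3 : (Bᵀ *ᵥ fun _ => (1 : ℝ)) k = 0 := by
      exact pow_eq_zero_iff two_ne_zero |>.1 h2
    unfold H963.Neu
    rw [← h3]
    simp [Matrix.mulVec, dotProduct]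
  have htr : ∑ k, ∑ x, (Bᵀ k) x ^ 2 ≤ w := by
    refine le_trans (le_of_eq ?_) hw
    rw [← hB]
    unfold Matrix.trace
    rw [Finset.sum_comm]
    refine Finset.sum_congr rfl fun x _ => ?_
    rw [Matrix.diag_apply, Matrix.mul_apply]
    exact Finset.sum_congr rfl fun k _ => by rw [Matrix.transpose_apply]; ring
  have hR : ∑ k, qf (R0 N l κ) (Bᵀ k) ≤ (N : ℝ) ^ 2 / (17 * κ) * w := by
    refine (Finset.sum_le_sum fun k _ => R0_le hl hκ (hrow k)).trans ?_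
    rw [← Finset.mul_sum]
    exact mul_le_mul_of_nonneg_left htr (by positivity)
  have hmain := tail0 hb hl hτ h hκ hcs0 hcs hcs1 x₀ (A := Bᵀ) (ρ := u) (a0 := w)
    (k₂ := (N : ℝ) ^ 2 / (17 * κ) * w) (r₂ := (N : ℝ) ^ 2 / (17 * κ) * w)
    hrow hu hw0.le
    (fun φ => by
      have h1 := norm_le_tr (R := 1) Matrix.PosSemidef.one Bᵀ φ
      have e : ∀ v : V (N / l) → ℝ, qf (1 : Matrix (V (N / l)) (V (N / l)) ℝ) v =
          ∑ x, v x ^ 2 := fun v => by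
        rw [qf_eq, one_mulVec]
        unfold dotProduct
        exact Finset.sum_congr rfl fun x _ => by ring
      simp only [e] at h1
      exact h1.trans (mul_le_mul_of_nonneg_right htr (Finset.sum_nonneg fun _ _ => sq_nonneg _)))
    (by positivity)
    (fun φ => (norm_le_tr (psd_R0 hκ hl) Bᵀ φ).trans
      (mul_le_mul_of_nonneg_right hR (Finset.sum_nonneg fun _ _ => sq_nonneg _)))
    hR
    (by
      refine le_trans (le_of_eq ?_) hs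
      rw [TM.H764.card_V]
      congr 1
      field_simp)
  have eset : {h : V N → ℤ | u ≤ qf W (cobV N l *ᵥ re h)} =
      {h : V N → ℤ | u ≤ ∑ k, ((Bᵀ * cobV N l) *ᵥ re h) k ^ 2} := by
    ext h
    simp only [Set.mem_ofPred_eq]
    rw [hsq, ← Matrix.mulVec_mulVec]
  rw [eset]
  refine hmain.trans (le_of_eq ?_)
  congr 2
  field_simp

/-- **(S0)** the whole field -/
theorem tail_all (hb : 0 ≤ b) (hl : l ∣ N) (hτ : 0 < τ) (h : τ ≤ t) (hκ : 0 < κ)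
    (hcs0 : 0 ≤ cs) (hcs : κ * (b + 12 * max b 1 ^ 2 * cs ^ 2) ≤ 1) (hcs1 : cs ≤ 1) (x₀ : V N)
    {c : ℝ} (hc : 0 < c) {T : Matrix (V (N / l)) (V (N / l)) ℝ} (hT : TC T) {ρ : ℝ}
    (hρ0 : 0 ≤ ρ)
    (hs : Gam0 N t κ * (17 * κ / (2 * (N : ℝ) ^ 2) *
      (17 * κ * ρ / (4 * (N : ℝ) ^ 2 * c ^ 2) + 2 * ((N / l : ℕ) : ℝ) ^ 2)) ≤ cs ^ 2) :
    Ex (nMC N l b t τ x₀) 0 ({h : V N → ℤ | ρ ≤ ∑ w,
      ((c • (T * Pn * cobV N l)) *ᵥ re h) w ^ 2}.indicator fun _ => (1 : ℝ)) ≤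
      2 * Real.exp (17 * (2 + Real.log ((N / l : ℕ) : ℝ)) / 2 -
        17 * κ * ρ / (8 * (N : ℝ) ^ 2 * c ^ 2)) := by
  have hlR : (0 : ℝ) < l := by exact_mod_cast l_pos hl
  have hN : (0 : ℝ) < N := by exact_mod_cast NeZero.pos N
  have hκ' : 0 < κ / (l : ℝ) ^ 2 := by positivity
  have hr : 0 < κ / (N : ℝ) ^ 2 := by positivity
  have hPn : TC (Pn : Matrix (V (N / l)) (V (N / l)) ℝ) := ⟨ti_Pn, fun k => by
    rw [sym_Pn]
    split_ifs <;> simp⟩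
  have hTP : TC (T * Pn) := hT.mul hPn
  have hsR : ∀ k : V (N / l), 0 ≤ sym (R0 N l κ) k := fun k => by
    rw [sym_Rk hr hκ'.le]
    exact (inv_pos.2 (op_pos hr hκ'.le k)).le
  set A : Matrix (V (N / l)) (V (N / l)) ℝ := c • (T * Pn) with hA
  have etr : ∀ φ : V (N / l) → ℝ, Aᵀ *ᵥ φ = c • ((T * Pn) *ᵥ φ) := fun φ => by
    rw [hA, transpose_smul, hTP.ti.transpose, Matrix.smul_mulVec]
  have hz : sym (T * Pn) (0 : V (N / l)) = 0 := by
    rw [sym_mul hT.ti ti_Pn, sym_Pn, if_pos rfl, mul_zero]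
  have hneu : ∀ u : V (N / l) → ℝ, Neu ((T * Pn) *ᵥ u) := fun u => by
    unfold H963.Neu
    rw [ti_sum hTP.ti, hz, zero_mul]
  have erow : ∀ k, A k = c • ((T * Pn) *ᵥ (Pi.single k 1)) := fun k => by
    funext z
    have e1 : A k z = c * (T * Pn : Matrix (V (N / l)) (V (N / l)) ℝ) k z := rfl
    have e2 : (T * Pn : Matrix (V (N / l)) (V (N / l)) ℝ) k z =
        (T * Pn : Matrix (V (N / l)) (V (N / l)) ℝ) z k := by
      conv_lhs => rw [← hTP.ti.transpose]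
      rfl
    rw [e1, e2, Pi.smul_apply, smul_eq_mul, mulVec_single_one, Matrix.col_apply]
  have hmain := tail0 hb hl hτ h hκ hcs0 hcs hcs1 x₀ (A := A) (ρ := ρ) (a0 := c ^ 2)
    (k₂ := c ^ 2 * ((N : ℝ) ^ 2 / (17 * κ)))
    (r₂ := c ^ 2 * ((N : ℝ) ^ 2 * (2 + Real.log ((N / l : ℕ) : ℝ)) / κ))
    (fun k => by
      rw [erow]
      exact (hneu _).smul c) hρ0 (by positivity)
    (fun φ => by
      rw [etr]
      have h1 := mul_le_mul_of_nonneg_left (hTP.contr φ) (sq_nonneg c)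
      rw [Finset.mul_sum] at h1
      refine le_trans (le_of_eq ?_) h1
      exact Finset.sum_congr rfl fun i _ => by rw [Pi.smul_apply, smul_eq_mul]; ring)
    (by positivity)
    (fun φ => by
      rw [etr, H37.qf_smul]
      have h1 := (R0_le hl hκ (hneu φ)).trans
        (mul_le_mul_of_nonneg_left (hTP.contr φ) (show 0 ≤ (N : ℝ) ^ 2 / (17 * κ) by positivity))
      have h2 := mul_le_mul_of_nonneg_left h1 (sq_nonneg c)
      refine h2.trans (le_of_eq (by ring)))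
    (by
      have h1 : ∀ k, qf (R0 N l κ) (A k) ≤
          c ^ 2 * ((l : ℝ) ^ 2 / κ * (2 + Real.log ((N / l : ℕ) : ℝ))) := fun k => by
        rw [erow, H37.qf_smul]
        refine mul_le_mul_of_nonneg_left ?_ (sq_nonneg c)
        refine (hTP.form (H859.ti_Rk _ _) hsR _).trans ?_
        rw [qf_Rk_single, ← gd0 hl hκ]
        exact gd_le (n := N / l) hr hκ'
      refine (Finset.sum_le_sum fun k _ => h1 k).trans (le_of_eq ?_)
      rw [Finset.sum_const, nsmul_eq_mul, Finset.card_univ, TM.H764.card_V, cast_div' hl]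
      generalize Real.log ((N : ℝ) / l) = z
      field_simp)
    (by
      refine le_trans (le_of_eq ?_) hs
      rw [TM.H764.card_V]
      congr 1
      field_simp)
  rw [hA, Matrix.smul_mul] at hmain
  refine hmain.trans (le_of_eq ?_)
  congr 2
  generalize Real.log ((N / l : ℕ) : ℝ) = z
  field_simp

/-! ### the letters of helper816 -/

/-- from `≤` to `<` -/
lemma lt_of_tail (hb : 0 ≤ b) (hl : l ∣ N) (hτ : 0 < τ) (h : τ ≤ t) (x₀ : V N)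
    (f : (V N → ℤ) → ℝ) (ρ : ℝ) :
    Ex (nMC N l b t τ x₀) 0 (indh {h | ρ < f h}) ≤
      Ex (nMC N l b t τ x₀) 0 ({h | ρ ≤ f h}.indicator fun _ => (1 : ℝ)) := by
  refine TM.H104.Ex_mono (H963.em_nMC (N := N) hb hl hτ h x₀) (H239.Gr.indh _)
    (H239.Gr.indh _) (fun h => ?_) 0
  exact Set.indicator_le_indicator_of_subset (fun h (h1 : ρ < f h) => h1.le)
    (fun _ => zero_le_one) h

/-- **tail of `c F cobV h`**, `F` with neutral rows, every prior mass -/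
theorem tailF (hb : 0 ≤ b) (hl : l ∣ N) (hτ : 0 < τ) (h : τ ≤ t) (hκ : 0 < κ)
    (hcs0 : 0 ≤ cs) (hcs : κ * (b + 12 * max b 1 ^ 2 * cs ^ 2) ≤ 1) (hcs1 : cs ≤ 1) (x₀ : V N)
    {K : Type*} [Fintype K] {F : Matrix K (V (N / l)) ℝ} (hF : ∀ k, Neu (F k))
    {c ρ a0 k₂ r₂ : ℝ} (hc : 0 < c) (hρ0 : 0 ≤ ρ) (ha0 : 0 ≤ a0)
    (hA : ∀ φ : K → ℝ, ∑ c, (Fᵀ *ᵥ φ) c ^ 2 ≤ a0 * ∑ k, φ k ^ 2)
    (hk : 0 < k₂) (h1 : ∀ φ : K → ℝ, qf (R0 N l κ) (Fᵀ *ᵥ φ) ≤ k₂ * ∑ k, φ k ^ 2)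
    (hr : ∑ k, qf (R0 N l κ) (F k) ≤ r₂)
    (hs : Gam0 N t κ * (a0 / (2 * k₂) * (ρ / (4 * c ^ 2 * k₂) + 2 * Fintype.card K)) ≤ cs ^ 2) :
    Ex (nMC N l b t τ x₀) 0 (indh {h | ρ < ∑ w, ((c • (F * cobV N l)) *ᵥ re h) w ^ 2}) ≤
      2 * Real.exp (r₂ / (2 * k₂) - ρ / (8 * c ^ 2 * k₂)) := by
  have hset : {h : V N → ℤ | ρ < ∑ w, ((c • (F * cobV N l)) *ᵥ re h) w ^ 2} =
      {h : V N → ℤ | ρ / c ^ 2 < ∑ w, ((F * cobV N l) *ᵥ re h) w ^ 2} := by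
    ext h
    simp only [Set.mem_ofPred_eq]
    rw [div_lt_iff₀ (by positivity), Finset.sum_mul]
    have e : ∀ w, ((c • (F * cobV N l)) *ᵥ re h) w ^ 2 =
        ((F * cobV N l) *ᵥ re h) w ^ 2 * c ^ 2 := fun w => by
      rw [Matrix.smul_mulVec, Pi.smul_apply, smul_eq_mul]
      ring
    simp only [e]
  rw [hset]
  refine (lt_of_tail hb hl hτ h x₀ _ _).trans ((tail0 hb hl hτ h hκ hcs0 hcs hcs1 x₀ hF
    (ρ := ρ / c ^ 2) (by positivity) ha0 hA hk h1 hr ?_).trans (le_of_eq ?_))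
  · refine le_trans (le_of_eq ?_) hs
    congr 3
    field_simp
  · congr 2
    field_simp

/-- (S1) in these letters -/
theorem tailF_blk (hb : 0 ≤ b) (hl : l ∣ N) (hτ : 0 < τ) (h : τ ≤ t) (hκ : 0 < κ)
    (hcs0 : 0 ≤ cs) (hcs : κ * (b + 12 * max b 1 ^ 2 * cs ^ 2) ≤ 1) (hcs1 : cs ≤ 1) (x₀ : V N)
    {c : ℝ} (hc : 0 < c) {q : ℕ} (hq : q ∣ N / l) (B : Finset (V (N / l)))
    {T : Matrix (V (N / l)) (V (N / l)) ℝ} (hT : TC T) {ρ : ℝ} (hρ0 : 0 ≤ ρ)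
    (hs : Gam0 N t κ * (κ / (32 * ((q : ℝ) * l) ^ 2) *
      (κ * ρ / (64 * c ^ 2 * ((q : ℝ) * l) ^ 2) + 2 * ((N / l : ℕ) : ℝ) ^ 2)) ≤ cs ^ 2) :
    Ex (nMC N l b t τ x₀) 0 (indh {h | ρ < ∑ w,
      ((c • (bE B q T * cobV N l)) *ᵥ re h) w ^ 2}) ≤
      2 * Real.exp (B.card * (2 + Real.log ((N / l : ℕ) : ℝ)) / (8 * (q : ℝ) ^ 2) -
        κ * ρ / (128 * c ^ 2 * ((q : ℝ) * l) ^ 2)) :=
  (lt_of_tail hb hl hτ h x₀ _ _).trans
    (tail_blk hb hl hτ h hκ hcs0 hcs hcs1 x₀ hc hq B hT hρ0 hs)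

/-- **balls**: `F` with neutral rows, norm `a0`, trace `r₁` -/
theorem tailF_ball (hb : 0 ≤ b) (hl : l ∣ N) (hτ : 0 < τ) (h : τ ≤ t) (hκ : 0 < κ)
    (hcs0 : 0 ≤ cs) (hcs : κ * (b + 12 * max b 1 ^ 2 * cs ^ 2) ≤ 1) (hcs1 : cs ≤ 1) (x₀ : V N)
    {K : Type*} [Fintype K] {F : Matrix K (V (N / l)) ℝ} (hF : ∀ k, Neu (F k))
    {c ρ a0 r₁ : ℝ} (hc : 0 < c) (hρ0 : 0 ≤ ρ) (ha0 : 0 < a0)
    (hA : ∀ φ : K → ℝ, ∑ c, (Fᵀ *ᵥ φ) c ^ 2 ≤ a0 * ∑ k, φ k ^ 2)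
    (hr : (F * Fᵀ).trace ≤ r₁)
    (hs : Gam0 N t κ * (17 * κ / (2 * (N : ℝ) ^ 2) *
      (17 * κ * ρ / (4 * (N : ℝ) ^ 2 * c ^ 2 * a0) + 2 * Fintype.card K)) ≤ cs ^ 2) :
    Ex (nMC N l b t τ x₀) 0 (indh {h | ρ < ∑ w, ((c • (F * cobV N l)) *ᵥ re h) w ^ 2}) ≤
      2 * Real.exp (r₁ / (2 * a0) - 17 * κ * ρ / (8 * (N : ℝ) ^ 2 * c ^ 2 * a0)) := by
  have hN : (0 : ℝ) < N := by exact_mod_cast NeZero.pos N
  have htr : ∑ k, ∑ x, (F k) x ^ 2 ≤ r₁ := by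
    refine le_trans (le_of_eq ?_) hr
    unfold Matrix.trace
    refine Finset.sum_congr rfl fun x _ => ?_
    rw [Matrix.diag_apply, Matrix.mul_apply]
    exact Finset.sum_congr rfl fun k _ => by rw [Matrix.transpose_apply]; ring
  refine (tailF hb hl hτ h hκ hcs0 hcs hcs1 x₀ hF hc hρ0 ha0.le hA
    (k₂ := (N : ℝ) ^ 2 / (17 * κ) * a0) (r₂ := (N : ℝ) ^ 2 / (17 * κ) * r₁) (by positivity)
    (fun φ => ?_) ?_ ?_).trans (le_of_eq ?_)
  · refine (R0_le hl hκ (neu_tr hF φ)).trans ?_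
    rw [mul_assoc]
    exact mul_le_mul_of_nonneg_left (hA φ) (by positivity)
  · refine (Finset.sum_le_sum fun k _ => R0_le hl hκ (hF k)).trans ?_
    rw [← Finset.mul_sum]
    exact mul_le_mul_of_nonneg_left htr (by positivity)
  · refine le_trans (le_of_eq ?_) hs
    congr 1
    field_simp
  · congr 2
    field_simp

/-- the row `T (a - a')` as a matrix -/
def rowM (T : Matrix (V (N / l)) (V (N / l)) ℝ) (a a' : V (N / l) → ℝ) :
    Matrix Unit (V (N / l)) ℝ := fun _ => T *ᵥ (a - a')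

/-- (S2) in these letters -/
theorem tailF_mean (hb : 0 ≤ b) (hl : l ∣ N) (hτ : 0 < τ) (h : τ ≤ t) (hκ : 0 < κ)
    (hcs0 : 0 ≤ cs) (hcs : κ * (b + 12 * max b 1 ^ 2 * cs ^ 2) ≤ 1) (hcs1 : cs ≤ 1) (x₀ : V N)
    {T : Matrix (V (N / l)) (V (N / l)) ℝ} (hT : TC T) {a a' : V (N / l) → ℝ}
    (ha0 : ∀ y, 0 ≤ a y) (ha : ∑ y, a y = 1) (ha0' : ∀ y, 0 ≤ a' y) (ha' : ∑ y, a' y = 1)
    {c ρ : ℝ} (hc : 0 < c) (hρ0 : 0 ≤ ρ)
    (hs : Gam0 N t κ * (κ / (4 * (l : ℝ) ^ 2) *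
      (κ * ρ / (16 * (l : ℝ) ^ 2 * c ^ 2) + 2)) ≤ cs ^ 2) :
    Ex (nMC N l b t τ x₀) 0 (indh {h | ρ < ∑ w,
      ((c • (rowM T a a' * cobV N l)) *ᵥ re h) w ^ 2}) ≤
      2 * Real.exp (1 / 2 - κ * ρ / (32 * c ^ 2 * (l : ℝ) ^ 2 *
        (2 + Real.log ((N / l : ℕ) : ℝ)))) := by
  have hL : Real.sqrt (ρ / c ^ 2) ^ 2 = ρ / c ^ 2 := Real.sq_sqrt (by positivity)
  have hset : {h : V N → ℤ | ρ < ∑ w, ((c • (rowM T a a' * cobV N l)) *ᵥ re h) w ^ 2} ⊆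
      {h : V N → ℤ | Real.sqrt (ρ / c ^ 2) ≤ |(T *ᵥ (a - a')) ⬝ᵥ (cobV N l *ᵥ re h)|} := by
    intro h h1
    simp only [Set.mem_ofPred_eq] at h1 ⊢
    rw [Fintype.univ_ofSubsingleton, Finset.sum_singleton] at h1
    have e : ((c • (rowM T a a' * cobV N l)) *ᵥ re h) (default : Unit) =
        c * ((T *ᵥ (a - a')) ⬝ᵥ (cobV N l *ᵥ re h)) := by
      rw [Matrix.smul_mulVec, Pi.smul_apply, smul_eq_mul, ← Matrix.mulVec_mulVec]
      rfl
    rw [e, mul_pow] at h1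
    refine Real.sqrt_le_iff.2 ⟨abs_nonneg _, ?_⟩
    rw [sq_abs, div_le_iff₀ (by positivity)]
    linarith
  have hmain := tail_mean hb hl hτ h hκ hcs0 hcs hcs1 x₀ hT ha0 ha ha0' ha'
    (L := Real.sqrt (ρ / c ^ 2)) (Real.sqrt_nonneg _) (by
      rw [hL]
      refine le_trans (le_of_eq ?_) hs
      have hlR : (0 : ℝ) < l := by exact_mod_cast l_pos hl
      congr 3
      field_simp)
  rw [hL] at hmain
  refine le_trans ?_ (hmain.trans (le_of_eq ?_))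
  · refine TM.H104.Ex_mono (H963.em_nMC (N := N) hb hl hτ h x₀) (H239.Gr.indh _)
      (H239.Gr.indh _) (fun h => ?_) 0
    exact Set.indicator_le_indicator_of_subset hset (fun _ => zero_le_one) h
  · have hlR : (0 : ℝ) < l := by exact_mod_cast l_pos hl
    have hw0 : 2 + Real.log ((N / l : ℕ) : ℝ) ≠ 0 := by
      have := Real.log_natCast_nonneg (N / l)
      positivity
    congr 2
    field_simp

/-- (norm) in these letters -/
theorem tailF_all (hb : 0 ≤ b) (hl : l ∣ N) (hτ : 0 < τ) (h : τ ≤ t) (hκ : 0 < κ)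
    (hcs0 : 0 ≤ cs) (hcs : κ * (b + 12 * max b 1 ^ 2 * cs ^ 2) ≤ 1) (hcs1 : cs ≤ 1) (x₀ : V N)
    {c : ℝ} (hc : 0 < c) {T : Matrix (V (N / l)) (V (N / l)) ℝ} (hT : TC T) {ρ : ℝ}
    (hρ0 : 0 ≤ ρ)
    (hs : Gam0 N t κ * (17 * κ / (2 * (N : ℝ) ^ 2) *
      (17 * κ * ρ / (4 * (N : ℝ) ^ 2 * c ^ 2) + 2 * ((N / l : ℕ) : ℝ) ^ 2)) ≤ cs ^ 2) :
    Ex (nMC N l b t τ x₀) 0 (indh {h | ρ < ∑ w,
      ((c • (T * Pn * cobV N l)) *ᵥ re h) w ^ 2}) ≤
      2 * Real.exp (17 * (2 + Real.log ((N / l : ℕ) : ℝ)) / 2 -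
        17 * κ * ρ / (8 * (N : ℝ) ^ 2 * c ^ 2)) :=
  (lt_of_tail hb hl hτ h x₀ _ _).trans
    (tail_all hb hl hτ h hκ hcs0 hcs hcs1 x₀ hc hT hρ0 hs)

end inst

end

end Vale.Agent.P159.H896
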