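import Vale.Agent.P159.H896.Pe6
import Vale.Agent.P159.H640.Ve4
import Vale.Agent.P159.H816.Rf2
import Vale.Agent.P159.H889.Vasm4
import Vale.Agent.P159.H767.Nr15

/-!
P159 (helper896), (P8), part 7: **`bdE_ev`** = the functional of the next level on the typical fields,
in the order of constants.
-/

set_option linter.unusedSectionVars false

namespace Vale.Agent.P159.H896

open Finset Matrix MeasureTheory Filter Topology
open Vale.Agent.P159.H363 (lf rel)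
open Vale.Agent.P159.H239 (TypE)
open Vale.Agent.P159.H340 (anw)
open Vale.Agent.P159.H889 (Wc Cx Cw Cy CxF lam Mw hS tn2 EvC BdH2 BdE2)
open Vale.Agent.P159.H972 (Par lg tn GP FL Good tn_pos)
open Vale.Agent.P159.H145 (mt)
open Vale.Agent.P159.H801 (Ev PS)
open Vale.Agent.P159.H640 (sm_rpow)
open Vale.Agent.P159.H767 (Lv Sm1)
open Vale.Agent.P159.H816 (RfV TypV ev_rf ev_typV)
open Vale.Agent.P159.TM.Spec (V)
open Vale.Agent.P159.TM.SpecC (wT)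

noncomputable section

/-- the numbers in the order of constants -/
theorem pen_ev {b b1 b2 pf κ C c : ℝ} (hb : 0 < b) (hκ : 0 < κ) (hC : 0 ≤ C) (hc : 0 < c)
    (hc1 : c ≤ 1) (Q : ℕ) : Ev b1 b2 pf Q fun P c1 => 0 < c1 ∧ c1 ≤ 1 / 400 ∧ 1 ≤ P.C0 ∧
      ∀ e, 0 < e → e ≤ P.es → PeN b κ C c (P.th + 4 * P.q0 * P.thp) P c1 e := by
  refine H889.ev_numC (ρ0 := 1 / 400) (κ := 1) (Cmin := max 3 (4 / c)) (by norm_num) one_pos
    fun th thp q0 h0 h1 h2 h3 hθ C0 hC0 c1 hc0 hc1' => ?_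
  have h3' : (2 : ℝ) ≤ q0 := by exact_mod_cast h3
  have hq : 8 * thp ≤ 4 * q0 * thp := by nlinarith
  have hthθ : th ≤ th + 4 * q0 * thp := by linarith
  have hthpθ : 4 * thp ≤ th + 4 * q0 * thp := by linarith
  have hc1θ : c1 ≤ th + 4 * q0 * thp := by linarith
  have hC03 : 3 ≤ C0 := (le_max_left _ _).trans hC0
  have hC04 : 4 ≤ c * C0 := by
    have h5 : 4 / c ≤ C0 := (le_max_right _ _).trans hC0
    rw [div_le_iff₀ hc] at h5
    linarith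
  have hKc : 0 ≤ C * (1 + 1 / (16 * b)) := by positivity
  obtain ⟨Ea, hEa, ka⟩ := pe_prob (th := th) (θ := th + 4 * q0 * thp) h0 hθ
  obtain ⟨Eb, hEb, kb⟩ := pe_fin (κ := κ) (C := C) (c := c) (th := th) (thp := thp) (C0 := C0)
    (c1 := c1) (θ := th + 4 * q0 * thp) (q0 := q0) hκ hC hc hc1 h0 hthθ hthpθ hθ hc0 hc1θ hC04
  obtain ⟨Ec, hEc, kc⟩ := pe_edge (b := b) (Kc := C * (1 + 1 / (16 * b))) (th := th) (thp := thp)
    (C0 := C0) (c1 := c1) (θ := th + 4 * q0 * thp) (q0 := q0) hb.le hKc h0 hthθ h1.le hthpθ hθ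
    hc0 hc1θ (by linarith)
  obtain ⟨Ed, hEd, kd⟩ := sm_rpow (s := th / 20) (A := 4) (by positivity) one_pos
  obtain ⟨Ee, hEe, ke⟩ := sm_rpow (s := (22 / 25 : ℝ)) (A := 2) (by norm_num) one_pos
  obtain ⟨Ef, hEf, kf⟩ := sm_rpow (s := (1 : ℝ)) (A := 16) one_pos one_pos
  refine ⟨min (min Ea Eb) (min (min Ec Ed) (min Ee Ef)), by positivity, ?_⟩
  intro P hA e1 e2 e3 e4 hes e5 e6 e7
  refine ⟨hc0, by linarith, by rw [e4]; linarith, fun e he hee => ?_⟩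
  have hle := hee.trans hes
  simp only [le_min_iff] at hle
  obtain ⟨⟨la, lb⟩, ⟨lc, ld⟩, le, lf⟩ := hle
  have he1 : e ≤ 1 := hee.trans (P.es1.trans (by norm_num))
  have kd1 := kd e he ld
  have ke1 := ke e he le
  have kf1 := kf e he lf
  rw [Real.rpow_one] at kf1
  constructor
  · rw [e1, e2, e3]
    exact ka e he la
  · rw [e1, e2, e3, e4]
    exact kb e he lb
  · rw [e1, e2, e3, e4]
    exact kc e he lc
  · rw [e2, e4, ← Real.rpow_mul he.le, mul_assoc, ← Real.rpow_add he]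
    have h5 : e ^ (-(4 * thp) + 47 / 50 * C0) ≤ e ^ (1 : ℝ) := by
      refine Real.rpow_le_rpow_of_exponent_ge he he1 ?_
      linarith
    rw [Real.rpow_one] at h5
    linarith
  · rw [e1, Real.rpow_neg he.le, ← one_div, le_div_iff₀ (Real.rpow_pos_of_pos he _)]
    exact kd1
  · exact Real.one_le_rpow_of_pos_of_le_one_of_nonpos he he1 (by linarith [P.th0])
  · unfold hS
    linarith

lemma lv_of {P : Par} {b C1 c1 : ℝ} {n s : ℕ} {e y : ℝ} (h : Cx P b C1 c1 n s e y) :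
    Lv P C1 c1 n s e y := ⟨h.e0, h.es, h.y0, h.y1, h.yL, h.s1, h.s2⟩

/-- the window is proper -/
lemma Cw_lt {P : Par} {n m : ℕ} {e e' : ℝ} (hW : Cw P n m e e') (he : 0 < e) (he2 : e ≤ 1 / 2) :
    n < m := by
  have h1 : 0 < P.w e := by
    have h2 := H972.one_le_logb he he2
    have h3 : 0 < P.thp * Real.logb 2 (1 / e) := mul_pos P.thp0 (by linarith)
    exact Nat.ceil_pos.2 h3
  have := hW.w1
  omega

/-- **(P8) in the order of constants** -/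
theorem bdE_ev {b b1 b2 : ℝ} (hb1 : 0 < b1) (h1 : b1 ≤ b) (K : ℝ) (Q : ℕ)
    (hH : EvC b1 b2 (9 / 10) Q K (BdH2 b)) : EvC b1 b2 (9 / 10) Q K (BdE2 b) := by
  have hb : 0 < b := hb1.trans_le h1
  set κ : ℝ := (b + 12 * max b 1 ^ 2)⁻¹ with hκd
  have hD : 0 < b + 12 * max b 1 ^ 2 := by positivity
  have hκ : 0 < κ := inv_pos.2 hD
  have hκb : κ * (b + 12 * max b 1 ^ 2) ≤ 1 := (inv_mul_cancel₀ hD.ne').le
  have hκb' : κ * b ≤ 1 := by
    refine le_trans (mul_le_mul_of_nonneg_left ?_ hκ.le) hκb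
    have : 0 ≤ 12 * max b 1 ^ 2 := by positivity
    linarith
  obtain ⟨C, c, hC, hc, hc1, hV⟩ := H640.Ve.vbv_EMb hb hκ hκb
  have hall := (((Ev.and (pen_ev (b1 := b1) (b2 := b2) (pf := 9 / 10) hb hκ hC hc hc1 Q)
    (ev_rf (b2 := b2) hb1 h1 (by norm_num : (0 : ℝ) < 9 / 10) Q
      (by norm_num : (0 : ℝ) < 1 / 20))).and
    (ev_typV (b2 := b2) hb1 h1 (by norm_num : (0 : ℝ) < 9 / 10) Q)).and
    (H767.sm1_ev (b1 := b1) (b2 := b2) K Q)).and
    ((H43.ev_p7n (b1 := b1) (b2 := b2) (pf := 9 / 10) (Q := Q)).and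
      (H43.ev_p7c (b1 := b1) (b2 := b2) (pf := 9 / 10) (Q := Q)))
  refine Ev.mono (Ev.and hH hall) fun P cc hA h C1 a1 a2 a3 => ?_
  obtain ⟨hH', ⟨⟨⟨⟨hc0, hc400, hC01, hN⟩, hRf⟩, hTy⟩, -, -, -, -, hSm⟩, ⟨-, hP7⟩, hO⟩ := h
  intro a n m s s' e e' y y' hCF hW hY r hr hr' i1 i2 i3 E1 hE1
  have hCx := hCF.cx
  have hCy := hY.cx
  have he := hCx.e0
  have he2 := hCx.e1
  have he1 : e ≤ 1 := by linarith
  have hs1 := hSm C1 a1 a3 e he hCx.es
  have hs2 := hSm C1 a1 a3 e' hCy.e0 hCy.es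
  have hL1 := lv_of hCx
  have hL2 := lv_of hCy
  have hsn := hL1.sn hs1 a1
  have hsm := hL2.sn hs2 a1
  have hC0p : 0 ≤ P.C0 := by linarith
  have hnm := Cw_lt hW he he2
  obtain ⟨τ, a0, t1, t2, hGP⟩ := hCx.G
  obtain ⟨τ', a0', t1', t2', hGP'⟩ := hCy.G
  have hG := hGP e le_rfl hCx.es
  have hG' := hGP' e' le_rfl hCy.es
  have hkE : 3 ≤ P.kE e := hA.hk.trans (H972.lg_anti P.th0.le he hCx.es)
  have hrn : n + P.kE e ≤ r := hr.1
  have hrm : m + P.kE e' ≤ r := hr'.1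
  have hns1 : (n : ℝ) - s ≤ e ^ (-(2 * cc)) := by
    have h5 := hL1.ns hs1 a1 hc0
    rwa [Nat.cast_sub hsn] at h5
  have hns2 : (m : ℝ) - s' ≤ e' ^ (-(2 * cc)) := by
    have h5 := hL2.ns hs2 a1 hc0
    rwa [Nat.cast_sub hsm] at h5
  refine pce_tor hb hκ hκb' hC hV hCx hW hY hnm a2 hC0p hc0 hc400 hG.nE (hN e he hCx.es)
    (by omega) (H43.tt_R hr he he1) (by omega) hsm (hL2.ns hs2 a1 hc0) ?_ ?_
    (hH' C1 a1 a2 a3 a n m s s' e e' y y' hCF hW hY r hr hr') ?_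
    (omT_half hb hCx (hP7 e he hCx.es) hr (H43.tt_R hr he he1)) hE1
  · intro a' ha ha'
    have h5 := hRf n e τ a0 he hCx.es t1 t2 hG a hCF.a1 hCF.a2 r hr (hCF.fl r hr) s
      (hL1.sE hs1 a1 a2 hC0p) hCx.ns hns1 a' ha ha'
    rwa [show (1 - 1 / 20 : ℝ) = 19 / 20 by norm_num] at h5
  · intro a' ha ha' _
    exact hTy m e' τ' a0' hCy.e0 hCy.es hG' r hr' s' (hL2.sE hs2 a1 a2 hC0p) hCy.ns hns2 (tn m)
      le_rfl (by linarith [tn_pos m]) a' ha ha'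
  · exact (hO b n s e y hb he hCx.es hCx.y0 hCx.y1 hCx.vy r hr).2.2

end

end Vale.Agent.P159.H896
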