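import Vale.Agent.P159.H896.CombT
import Vale.Agent.P159.H340.Al2

/-!
P159, module CHG (helper896): the lift of the coarse cells and the mass form `Mb` in the letters
`lf N (l ρ)`, `cellP N (l ρ)`.
-/

open MeasureTheory Finset Matrix
open Vale.Agent.P159.H37 (qf cellP)
open Vale.Agent.P159.H363 (lf)
open Vale.Agent.P159.H864 (MC cobV cl up)
open Vale.Agent.P159.H340 (tce)
open Vale.Agent.P159.TM.Spec (V)
open Vale.Agent.P159.TM.SpecC (wT)

set_option linter.unusedSectionVars false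

namespace Vale.Agent.P159.H896

noncomputable section

variable {N l ρ : ℕ} [NeZero N] [NeZero (N / l)] [NeZero (N / l / ρ)] [NeZero (N / (l * ρ))]
  {b t τ τ' : ℝ}

/-- a field on the coarse cells in the letters of the cells `l ρ` -/
def tcf (N l ρ : ℕ) (f' : V (N / l / ρ) → ℝ) : V (N / (l * ρ)) → ℝ :=
  f' ∘ (tce (Nat.div_div_eq_div_mul N l ρ)).symm

theorem lf2_eq (hl : l ∣ N) (hρ : ρ ∣ N / l) (f' : V (N / l / ρ) → ℝ) :
    lf2 N l ρ f' = lf N (l * ρ) (tcf N l ρ f') := by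
  funext v
  rw [lf2_apply hρ]
  unfold lf tcf
  rw [← H340.cl_cl hl hρ v]
  simp

/-- the mass form of the combined step -/
theorem Mb_eq (hl : l ∣ N) (hρ : ρ ∣ N / l) :
    Mb N l ρ t τ' = t • (1 - cellP N l) + τ' • cellP N (l * ρ) := by
  unfold Mb
  congr 2
  have e1 : (cobV (N / l) ρ * cobV N l)ᵀ * (cobV (N / l) ρ * cobV N l)
      = (cobV N l)ᵀ * (cellP (N / l) ρ * cobV N l) := by
    rw [transpose_mul, H864.cellP_eq hρ]
    simp only [Matrix.mul_assoc]
  rw [e1]
  ext x y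
  have e2 : ((cobV N l)ᵀ * (cellP (N / l) ρ * cobV N l)) x y
      = ((cobV N l)ᵀ *ᵥ fun c => (cellP (N / l) ρ * cobV N l) c y) x := rfl
  have e3 : ∀ c : V (N / l), (cellP (N / l) ρ * cobV N l) c y
      = ((cobV N l)ᵀ *ᵥ fun c' => cellP (N / l) ρ c c') y := by
    intro c
    rw [Matrix.mul_apply, Matrix.mulVec, dotProduct]
    exact Finset.sum_congr rfl fun k _ => mul_comm _ _
  rw [e2, H864.cobV_tr_mulVec, e3, H864.cobV_tr_mulVec, H864.cellP_apply hρ,
    H864.cellP_apply (H340.dvd_lr hl hρ)]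
  have e4 : ((cl (cl x : V (N / l)) : V (N / l / ρ)) = cl (cl y : V (N / l)))
      ↔ ((cl x : V (N / (l * ρ))) = cl y) := by
    rw [← H340.cl_cl hl hρ x, ← H340.cl_cl hl hρ y]
    exact (EmbeddingLike.apply_eq_iff_eq _).symm
  by_cases hc : (cl x : V (N / (l * ρ))) = cl y
  · rw [if_pos hc, if_pos (e4.2 hc)]
    push_cast
    rw [mul_pow, mul_inv, pow_two, mul_inv]
    ring
  · rw [if_neg hc, if_neg (fun h => hc (e4.1 h))]
    ring

end

end Vale.Agent.P159.H896
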