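import Vale.Agent.P159.H896.Rq1

/-!
P159 (helper896), quantitative V bound, part 2: exact law and Gaussian law, closure uniformly in the
prior mass.

* `gau_of_exact` : a set small in the exact law is small in the Gaussian law;
* `typ_gauss` : the same for `TypE`, every realisation `X`;
* `bad_q`, `typ_bad` : closure with the covariance bound `q₁ (T - a)`, Gaussian law;
* `typ_exact` : exact law.
-/

set_option linter.unusedSectionVars false

namespace Vale.Agent.P159.H896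

open Finset Matrix MeasureTheory
open Vale.Agent.P159.TM.H104 (EM Ex Cv K3 Lg li nh Gr)
open Vale.Agent.P159.H37
open Vale.Agent.P159.H663 (GC ind)
open Vale.Agent.P159.H864 (TI sym MC cobV cl up fc Gc lapM)
open Vale.Agent.P159.H963 (Pn Gnc nMC nwt obsN ntr Neu)
open Vale.Agent.P159.H730 (RL Hm wN)
open Vale.Agent.P159.H859 (psd_of Rk Sgn)
open Vale.Agent.P159.H447 (SN CN CN_gram SN_tr K4S K4S_psd K4S_smul2 Maj maj_nwt Ful)
open Vale.Agent.P159.H239 (TypE neg_log_le chi_set exists_lin typ_meas rs_ray exists_increment)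
open Vale.Agent.P159.TM.Spec (V)
open Vale.Agent.P159.TM.SpecC (wT)

noncomputable section

section gen

variable {W : Type*} [Fintype W] {J I : Type*} [Fintype J] [Fintype I] [DecidableEq J]
  {μ' : (W → ℤ) → ℝ} {P : Matrix J W ℝ} {X : Matrix W I ℝ}

/-- a set small in the exact law is small in the Gaussian law -/
theorem gau_of_exact (hX : RL μ' P X) {ρ p q : ℝ} (hρ : ρ ≤ 1) (hp : p ≤ 1 / 2)
    (h : Ech μ' 0 P ({F : W → ℝ | Rs (post μ' P) F ≤ ρ}ᶜ.indicator fun _ => (1 : ℝ)) ≤ p)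
    {S : Set (W → ℝ)} (hS : MeasurableSet S)
    (hs : Ech μ' 0 P (Sᶜ.indicator fun _ => (1 : ℝ)) ≤ q) :
    (gau I).real {g | X *ᵥ g ∉ S} ≤ 6 * q := by
  have hE := hX.em
  have hG : MeasurableSet {F : W → ℝ | Rs (post μ' P) F ≤ ρ} :=
    measurableSet_le (H114.continuous_Rs (em_post hE P)).measurable measurable_const
  set Gd : Set (W → ℝ) := {F : W → ℝ | Rs (post μ' P) F ≤ ρ} with hGd
  have hsp := H730.split_good hX measurable_const (H730.chi_one hX) hG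
  rw [Ech_const hE] at hsp
  have h1 := hX.norm_le (p := p) hG (fun J hJ => hJ) (by linarith)
  have h2 := hX.G_le (Φ := Sᶜ.indicator fun _ => (1 : ℝ)) (measurable_const.indicator hS.compl)
    (fun J => Set.indicator_nonneg (fun _ _ => zero_le_one) J) (chi_set hE 0 _ hS.compl)
  have h3 : ∫ g, Sᶜ.indicator (fun _ => (1 : ℝ)) (X *ᵥ g) ∂(gau I) =
      (gau I).real {g | X *ᵥ g ∉ S} := by
    have e2 : (fun g : I → ℝ => Sᶜ.indicator (fun _ => (1 : ℝ)) (X *ᵥ g)) =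
        ((fun g : I → ℝ => X *ᵥ g) ⁻¹' Sᶜ).indicator fun _ => (1 : ℝ) := by
      funext g
      rfl
    rw [e2, integral_indicator (H552.meas_mulVec _ hS.compl), setIntegral_const, smul_eq_mul,
      mul_one]
    rfl
  rw [h3] at h2
  set Z := ∫ g, Real.exp (Rs (post μ' P) (X *ᵥ g)) ∂(gau I) with hZ
  have hZ0 : 0 ≤ Z := hX.pos.le
  have h4 : Real.exp ρ ≤ 2.7182818286 := (Real.exp_le_exp.2 hρ).trans Real.exp_one_lt_d9.le
  have h5 : Z ≤ 6 := by nlinarith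
  refine h2.trans (mul_le_mul h5 hs ?_ (by norm_num))
  exact Ech_nonneg hE _ _ fun _ => Set.indicator_nonneg (fun _ _ => zero_le_one) _

end gen

variable {N l : ℕ} [NeZero N] [NeZero (N / l)] {b T a Y ρ p : ℝ} {I : Type*} [Fintype I]
  {X : Matrix (V N) I ℝ}

/-- **(T1), every realisation** -/
theorem typ_gauss (hb : 0 ≤ b) (hl : l ∣ N) (ha : 0 < a) (h1 : a < T)
    (hX : RL (nMC N l b T a 0) (obsN N l (T - a)) X) (h : TypE N l b T a Y ρ p) (hY : 1 ≤ Y)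
    (hρ : ρ ≤ 1) (hp : p ≤ 1 / 2) :
    (gau I).real {g | ρ < Rs (nwt N b T 0) (Y • (X *ᵥ g))} ≤ 6 * p := by
  have hT : 0 < T := ha.trans h1
  have hpost : post (nMC N l b T a 0) (obsN N l (T - a)) = nwt N b T 0 := by
    rw [H963.post_nMC hl b h1.le 0, H963.nMC_self]
  have h2 := h.mono hb hl ha h1.le zero_le_one hY le_rfl le_rfl
  unfold H239.TypE at h2 h
  simp only [one_smul] at h2
  have h3 := gau_of_exact hX hρ hp (p := p) (by rw [hpost]; exact h2)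
    (S := {F : V N → ℝ | Rs (nwt N b T 0) (Y • F) ≤ ρ}) (typ_meas hb hT Y ρ) h
  refine le_trans (le_of_eq ?_) h3
  congr 1
  ext g
  simp only [Set.mem_ofPred_eq, not_le]

/-- **closure for a covariance bounded by `q` times the cells**, Gaussian law -/
theorem bad_q (hb : 0 ≤ b) (hT : 0 < T) {q : ℝ}
    (hup : (q • SN N l - X * Xᵀ).PosSemidef) {κ D lam : ℝ} {n : ℕ} (hD : 0 < D)
    (hK : κ ^ 4 * (q ^ 2 * K4S (nwt N b T 0) (SN N l) (SN N l)) ≤ D) (hlam : 0 ≤ lam)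
    (hp : (gau I).real {g | 1 < Rs (nwt N b T 0) (((2 : ℝ) ^ (n + 1) * κ) • (X *ᵥ g))} ≤ p) :
    (gau I).real {g | ¬Rs (nwt N b T 0) (κ • (X *ᵥ g)) ≤ H447.cl n (8 * (lam * D))} ≤
      p + 6 * Real.exp (-(√lam / 10)) := by
  have hM := maj_nwt (N := N) hb hT 0
  have e : (κ • X) * (κ • X)ᵀ = (κ ^ 2) • (X * Xᵀ) := by
    rw [Matrix.transpose_smul, Matrix.smul_mul, Matrix.mul_smul, smul_smul, pow_two]
  have h1 : K4S (nwt N b T 0) ((κ • X) * (κ • X)ᵀ) ((κ • X) * (κ • X)ᵀ) ≤ D := by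
    rw [e, K4S_smul2]
    refine le_trans ?_ hK
    have e2 : (κ ^ 2) ^ 2 = κ ^ 4 := by ring
    rw [e2]
    have e4 : 0 ≤ κ ^ 4 := Even.pow_nonneg (by decide) κ
    have h2 := K4S_psd hM.em hM.ev hM.pk (H447.psd_gram X) hup
    rw [K4S_smul2] at h2
    exact mul_le_mul_of_nonneg_left h2 e4
  have h2 := hM.RT_prob (κ • X) hD h1 n hlam (p := p) (by
    simp only [Matrix.smul_mulVec, smul_smul]
    exact hp)
  simp only [Matrix.smul_mulVec] at h2
  refine (measureReal_mono fun g hg => ?_).trans h2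
  simp only [Set.mem_ofPred_eq] at hg ⊢
  exact fun hc => hg hc.1

/-- **(T3) uniformly in the prior mass**, Gaussian law -/
theorem typ_bad_q (hb : 0 < b) (hl : l ∣ N) (ha : 0 < a) (h1 : a < T)
    (hX : RL (nMC N l b T a 0) (obsN N l (T - a)) X) (h : TypE N l b T a Y ρ p) {κ D lam : ℝ}
    {n : ℕ} (hκ : 0 ≤ κ) (hY : (2 : ℝ) ^ (n + 1) * κ ≤ Y) (hY1 : 1 ≤ Y) (hρ : ρ ≤ 1)
    (hp : p ≤ 1 / 2) (hD : 0 < D)
    (hK : κ ^ 4 * ((q1 N b T * T) ^ 2 * K4S (nwt N b T 0) (SN N l) (SN N l)) ≤ D)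
    (hlam : 0 ≤ lam) :
    (gau I).real {g | ¬Rs (nwt N b T 0) (κ • (X *ᵥ g)) ≤ H447.cl n (8 * (lam * D))} ≤
      6 * p + 6 * Real.exp (-(√lam / 10)) := by
  have hT : 0 < T := ha.trans h1
  have hM := maj_nwt (N := N) hb.le hT 0
  have hq := one_le_q1 N hb.le hT.le
  have hK0 : 0 ≤ K4S (nwt N b T 0) (SN N l) (SN N l) :=
    H447.K4S_nonneg hM.em hM.ev hM.pk (SN N l)
  have hq0 : 0 ≤ q1 N b T * (T - a) := mul_nonneg (by linarith) (by linarith)
  have hsq : (q1 N b T * (T - a)) ^ 2 ≤ (q1 N b T * T) ^ 2 :=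
    pow_le_pow_left₀ hq0 (mul_le_mul_of_nonneg_left (by linarith) (by linarith)) 2
  refine bad_q hb.le hT (rl_up hb.le hl ha h1 le_rfl hb hX) hD (le_trans ?_ hK) hlam ?_
  · have e4 : 0 ≤ κ ^ 4 := Even.pow_nonneg (by decide) κ
    exact mul_le_mul_of_nonneg_left (mul_le_mul_of_nonneg_right hsq hK0) e4
  · refine (measureReal_mono fun g hg => ?_).trans (typ_gauss hb.le hl ha h1 hX h hY1 hρ hp)
    simp only [Set.mem_ofPred_eq] at hg ⊢
    exact hρ.trans_lt (hg.trans_le (rs_ray hb.le hT _ (by positivity) hY))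

/-- **(T3) uniformly in the prior mass**, exact law -/
theorem typ_exact_q (hb : 0 < b) (hl : l ∣ N) (ha : 0 < a) (h1 : a < T)
    (h : TypE N l b T a Y ρ p) {κ D lam : ℝ}
    {n : ℕ} (hκ : 0 ≤ κ) (hY : (2 : ℝ) ^ (n + 1) * κ ≤ Y) (hY1 : 1 ≤ Y) (hρ : ρ ≤ 1)
    (hp : p ≤ 1 / 2) (hD : 0 < D)
    (hK : κ ^ 4 * ((q1 N b T * T) ^ 2 * K4S (nwt N b T 0) (SN N l) (SN N l)) ≤ D)
    (hlam : 0 ≤ lam) :
    TypE N l b T a κ (H447.cl n (8 * (lam * D))) (18 * p + 17 * Real.exp (-(√lam / 10))) := by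
  have hT : 0 < T := ha.trans h1
  have hd := H859.dat_neu' (N := N) (l := l) (t := T) hb hl hT
  obtain ⟨A, hA⟩ := exists_increment (hd.pd ha h1).posSemidef
  have hA' : A * Aᵀ = Sgn N l b T a := hA.symm
  have hF : Ful N l b T a A := ⟨hb, hl, ha, h1, hA'⟩
  have hX := H447.rl_tor hb.le hl ha h1 hA'
  have h2 := typ_bad_q hb hl ha h1 hX h hκ hY hY1 hρ hp hD hK hlam
  have h0 : Ech (wN N l b T a) 0 (obsN N l (T - a))
      ({J : V N → ℝ | Rs (nwt N b T 0) J ≤ 1}ᶜ.indicator fun _ => (1 : ℝ)) ≤ p := by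
    have h3 := h.mono hb.le hl ha h1.le zero_le_one hY1 hρ le_rfl
    unfold H239.TypE at h3
    simpa only [one_smul] using h3
  have h3 := hF.exact (κ := κ) (ρ := H447.cl n (8 * (lam * D))) (η := 1) h0 h2
  unfold H239.TypE
  refine h3.trans ?_
  have h4 : Real.exp 1 ≤ 2.7182818286 := Real.exp_one_lt_d9.le
  have h5 := Real.exp_pos (-(√lam / 10))
  have h6 := h.nonneg hb.le hl ha h1.le
  nlinarith

end

end Vale.Agent.P159.H896
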