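import Mathlib

/-!
P159, module CHG (helper896), abstract part: charge sectors of a kernel `Z : (V → ℂ) → ℂ` which has a
feature map `Φ` for the duplication kernel `(a, c) ↦ Z (conj a + c) Z (conj a - c)`.
-/

open MeasureTheory Complex
open scoped ComplexConjugate InnerProductSpace

namespace Vale.Agent.P159.H896

set_option linter.unusedSectionVars false

noncomputable section

variable {V : Type*}

/-- shift of a background by a real constant -/
def sh (a : V → ℂ) (u : ℝ) : V → ℂ := fun x => a x + (u : ℂ)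

lemma sh_zero (a : V → ℂ) : sh a 0 = a := by
  funext x; simp [sh]

lemma continuous_sh (a : V → ℂ) : Continuous (sh a) := by
  refine continuous_pi fun x => ?_
  unfold sh
  fun_prop

/-- the phase `e^{-2π i q u}` -/
def ph (q : ℤ) (u : ℝ) : ℂ := cexp (-(2 * Real.pi * q * u) * I)

lemma continuous_ph (q : ℤ) : Continuous (ph q) := by
  unfold ph
  fun_prop

lemma norm_ph (q : ℤ) (u : ℝ) : ‖ph q u‖ = 1 := by
  unfold ph
  have : (-(2 * (Real.pi : ℂ) * q * u)) * I = ((-(2 * Real.pi * q * u) : ℝ) : ℂ) * I := by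
    push_cast; ring
  rw [this, Complex.norm_exp_ofReal_mul_I]

lemma ph_add (q : ℤ) (u v : ℝ) : ph q (u + v) = ph q u * ph q v := by
  unfold ph
  rw [← Complex.exp_add]
  congr 1
  push_cast
  ring

lemma ph_add_int (p q : ℤ) (u : ℝ) : ph (p + q) u = ph p u * ph q u := by
  unfold ph
  rw [← Complex.exp_add]
  congr 1
  push_cast
  ring

lemma ph_one (q : ℤ) : ph q 1 = 1 := by
  unfold ph
  have : (-(2 * (Real.pi : ℂ) * q * (1 : ℝ))) * I = ((-q : ℤ) : ℂ) * (2 * Real.pi * I) := by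
    push_cast; ring
  rw [this, Complex.exp_int_mul_two_pi_mul_I]

lemma ph_zero_left (u : ℝ) : ph 0 u = 1 := by
  simp [ph]

lemma ph_zero_right (q : ℤ) : ph q 0 = 1 := by
  simp [ph]

lemma ph_per (q : ℤ) : Function.Periodic (ph q) 1 := by
  intro u
  rw [ph_add, ph_one, mul_one]

lemma conj_ph (q : ℤ) (u : ℝ) : conj (ph q u) = ph (-q) u := by
  unfold ph
  rw [← Complex.exp_conj]
  congr 1
  simp only [map_mul, map_neg, Complex.conj_ofReal, Complex.conj_I, map_ofNat, map_intCast]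
  push_cast
  ring

lemma ph_neg_right (q : ℤ) (u : ℝ) : ph q (-u) = ph (-q) u := by
  unfold ph
  congr 1
  push_cast
  ring

/-- the standing properties of the (complexified) partition function of a background -/
structure Zp (Z : (V → ℂ) → ℂ) : Prop where
  cont : Continuous Z
  per : ∀ a, Z (sh a 1) = Z a
  even : ∀ a, Z (-a) = Z a
  str : ∀ a, Z (star a) = star (Z a)

/-- `Φ` is a feature map of the duplication kernel of `Z` -/
structure Feat (Z : (V → ℂ) → ℂ) {H : Type*} [NormedAddCommGroup H] [InnerProductSpace ℂ H]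
    (Φ : (V → ℂ) → H) : Prop where
  ker : ∀ a c, inner ℂ (Φ a) (Φ c) = Z (star a + c) * Z (star a - c)

/-- charge sector `q` -/
def Sec (Z : (V → ℂ) → ℂ) (q : ℤ) (a : V → ℂ) : ℂ := ∫ u in (0 : ℝ)..1, Z (sh a u) * ph q u

/-- charge sector `q` of the feature map -/
def fS {H : Type*} [NormedAddCommGroup H] [InnerProductSpace ℂ H] (Φ : (V → ℂ) → H) (q : ℤ)
    (a : V → ℂ) : H := ∫ u in (0 : ℝ)..1, ph q u • Φ (sh a u)

/-! ### the change of variables on the torus -/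

lemma int_double {g : ℝ → ℂ} (hg : Continuous g) (hp : Function.Periodic g 1) (β : ℝ) :
    ∫ v in (0 : ℝ)..1, g (β + 2 * v) = ∫ v in (0 : ℝ)..1, g v := by
  have h1 : ∫ v in (0 : ℝ)..1, g (β + 2 * v) = (2 : ℝ)⁻¹ • ∫ v in (β + 2 * 0)..(β + 2 * 1), g v :=
    intervalIntegral.integral_comp_add_mul g (by norm_num : (2 : ℝ) ≠ 0) β
  rw [h1]
  have h2 : ∫ v in (β + 2 * 0)..(β + 2 * 1), g v =
      (∫ v in β..(β + 1), g v) + ∫ v in (β + 1)..(β + 1 + 1), g v := by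
    rw [intervalIntegral.integral_add_adjacent_intervals (hg.intervalIntegrable _ _)
      (hg.intervalIntegrable _ _)]
    congr 1 <;> ring
  have h3 : ∀ t : ℝ, ∫ v in t..(t + 1), g v = ∫ v in (0 : ℝ)..1, g v := by
    intro t
    have := hp.intervalIntegral_add_eq t 0
    simpa using this
  rw [h2, h3, h3, ← two_smul ℝ, smul_smul]
  norm_num

lemma int_prod {g₁ g₂ : ℝ → ℂ} (h1 : Continuous g₁) (h2 : Continuous g₂)
    (p1 : Function.Periodic g₁ 1) (p2 : Function.Periodic g₂ 1) :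
    ∫ v in (0 : ℝ)..1, ∫ u in (0 : ℝ)..1, g₁ (u + v) * g₂ (u - v) =
      (∫ u in (0 : ℝ)..1, g₁ u) * ∫ u in (0 : ℝ)..1, g₂ u := by
  have e1 : ∀ v : ℝ, ∫ u in (0 : ℝ)..1, g₁ (u + v) * g₂ (u - v) =
      ∫ u in (0 : ℝ)..1, g₁ (u + 2 * v) * g₂ u := by
    intro v
    have hper : Function.Periodic (fun u => g₁ (u + 2 * v) * g₂ u) 1 := by
      intro u
      have a1 : g₁ (u + 1 + 2 * v) = g₁ (u + 2 * v) := by
        rw [show u + 1 + 2 * v = (u + 2 * v) + 1 by ring]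
        exact p1 _
      show g₁ (u + 1 + 2 * v) * g₂ (u + 1) = _
      rw [a1, p2 u]
    have h3 : ∫ u in (0 : ℝ)..1, g₁ (u + v) * g₂ (u - v) =
        ∫ u in (0 - v)..(1 - v), g₁ (u + 2 * v) * g₂ u := by
      rw [← intervalIntegral.integral_comp_sub_right (fun u => g₁ (u + 2 * v) * g₂ u) v]
      refine intervalIntegral.integral_congr fun u _ => ?_
      show _ = g₁ (u - v + 2 * v) * g₂ (u - v)
      rw [show u - v + 2 * v = u + v by ring]
    rw [h3]
    have := hper.intervalIntegral_add_eq (0 - v) 0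
    rw [show (1 : ℝ) - v = 0 - v + 1 by ring, this, zero_add]
  simp only [e1]
  have hc : Continuous (Function.uncurry fun v u : ℝ => g₁ (u + 2 * v) * g₂ u) := by
    unfold Function.uncurry
    fun_prop
  rw [intervalIntegral_intervalIntegral_swap
    ((hc.continuousOn.integrableOn_compact
      (isCompact_Icc (a := ((0 : ℝ), (0 : ℝ))) (b := ((1 : ℝ), (1 : ℝ))))).mono_set ?_)]
  · have e2 : ∀ u : ℝ, ∫ v in (0 : ℝ)..1, g₁ (u + 2 * v) * g₂ u =
        (∫ v in (0 : ℝ)..1, g₁ v) * g₂ u := by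
      intro u
      rw [intervalIntegral.integral_mul_const, int_double h1 p1]
    simp only [e2]
    rw [intervalIntegral.integral_const_mul]
  · rintro ⟨x, y⟩ ⟨hx, hy⟩
    rw [Set.uIoc_of_le zero_le_one] at hx hy
    exact ⟨⟨hx.1.le, hy.1.le⟩, ⟨hx.2, hy.2⟩⟩

/-! ### the sectors -/

section

variable {Z : (V → ℂ) → ℂ} {H : Type*} [NormedAddCommGroup H] [InnerProductSpace ℂ H]
  {Φ : (V → ℂ) → H}

/-- real part of a background, as a complex background -/
def cr (f : V → ℝ) : V → ℂ := fun x => (f x : ℂ)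

lemma star_cr (f : V → ℝ) : star (cr f) = cr f := by
  funext x
  simp [cr]

lemma sh_star (a : V → ℂ) (u : ℝ) : star (sh a u) = sh (star a) u := by
  funext x
  simp [sh]

lemma sh_add_sh (a c : V → ℂ) (u v : ℝ) : sh a u + sh c v = sh (a + c) (u + v) := by
  funext x
  simp only [sh, Pi.add_apply]
  push_cast
  ring

lemma sh_sub_sh (a c : V → ℂ) (u v : ℝ) : sh a u - sh c v = sh (a - c) (u - v) := by
  funext x
  simp only [sh, Pi.sub_apply]
  push_cast
  ring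

lemma sh_sh (a : V → ℂ) (u v : ℝ) : sh (sh a u) v = sh a (u + v) := by
  funext x
  simp only [sh]
  push_cast
  ring

lemma neg_sh (a : V → ℂ) (u : ℝ) : -(sh a u) = sh (-a) (-u) := by
  funext x
  simp only [sh, Pi.neg_apply]
  push_cast
  ring

lemma Zp.per' (hZ : Zp Z) (a : V → ℂ) : Function.Periodic (fun u : ℝ => Z (sh a u)) 1 := by
  intro u
  show Z (sh a (u + 1)) = Z (sh a u)
  rw [← sh_sh, hZ.per]

lemma Zp.cont_sh (hZ : Zp Z) (a : V → ℂ) : Continuous fun u : ℝ => Z (sh a u) :=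
  hZ.cont.comp (continuous_sh a)

lemma Zp.per_int (hZ : Zp Z) (q : ℤ) (a : V → ℂ) :
    Function.Periodic (fun u : ℝ => Z (sh a u) * ph q u) 1 := fun u => by
  have h1 : Z (sh a (u + 1)) = Z (sh a u) := hZ.per' a u
  show Z (sh a (u + 1)) * ph q (u + 1) = Z (sh a u) * ph q u
  rw [h1, ph_per q u]

lemma Zp.cont_int (hZ : Zp Z) (q : ℤ) (a : V → ℂ) :
    Continuous fun u : ℝ => Z (sh a u) * ph q u :=
  (hZ.cont_sh a).mul (continuous_ph q)

/-- **equivariance of the sector** under constants -/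
theorem Sec_sh (hZ : Zp Z) (q : ℤ) (a : V → ℂ) (v : ℝ) :
    Sec Z q (sh a v) = ph (-q) v * Sec Z q a := by
  unfold Sec
  have h1 : ∫ u in (0 : ℝ)..1, Z (sh (sh a v) u) * ph q u =
      ∫ u in (0 : ℝ)..1, ph (-q) v * (Z (sh a (u + v)) * ph q (u + v)) := by
    refine intervalIntegral.integral_congr fun u _ => ?_
    show Z (sh (sh a v) u) * ph q u = ph (-q) v * (Z (sh a (u + v)) * ph q (u + v))
    have h2 : ph (-q) v * ph q v = 1 := by
      rw [← ph_add_int]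
      simp [ph_zero_left]
    rw [sh_sh, ph_add, add_comm v u]
    calc _ = Z (sh a (u + v)) * ph q u * (ph (-q) v * ph q v) := by rw [h2, mul_one]
      _ = _ := by ring
  rw [h1, intervalIntegral.integral_const_mul]
  congr 1
  rw [intervalIntegral.integral_comp_add_right (fun u => Z (sh a u) * ph q u) v]
  have := (hZ.per_int q a).intervalIntegral_add_eq (0 + v) 0
  rw [show (1 : ℝ) + v = 0 + v + 1 by ring, this, zero_add]

/-- reflection -/
theorem Sec_neg (hZ : Zp Z) (q : ℤ) (a : V → ℂ) : Sec Z q (-a) = Sec Z (-q) a := by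
  unfold Sec
  have h1 : ∫ u in (0 : ℝ)..1, Z (sh (-a) u) * ph q u =
      ∫ u in (0 : ℝ)..1, (fun v => Z (sh a v) * ph (-q) v) (-u) := by
    refine intervalIntegral.integral_congr fun u _ => ?_
    show Z (sh (-a) u) * ph q u = Z (sh a (-u)) * ph (-q) (-u)
    have h2 : sh a (-u) = -(sh (-a) u) := by rw [neg_sh, neg_neg]
    rw [h2, hZ.even, ph_neg_right, neg_neg]
  rw [h1, intervalIntegral.integral_comp_neg (fun v => Z (sh a v) * ph (-q) v)]
  have := (hZ.per_int (-q) a).intervalIntegral_add_eq (-1) 0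
  rw [neg_zero, show (0 : ℝ) = -1 + 1 by ring, this]
  norm_num

/-- complex conjugation -/
theorem Sec_star (hZ : Zp Z) (q : ℤ) (a : V → ℂ) : Sec Z q (star a) = star (Sec Z (-q) a) := by
  unfold Sec
  have h1 : star (∫ u in (0 : ℝ)..1, Z (sh a u) * ph (-q) u) =
      ∫ u in (0 : ℝ)..1, conj (Z (sh a u) * ph (-q) u) := by
    rw [intervalIntegral.integral_of_le zero_le_one, intervalIntegral.integral_of_le zero_le_one]
    exact (integral_conj).symm
  rw [h1]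
  refine intervalIntegral.integral_congr fun u _ => ?_
  show Z (sh (star a) u) * ph q u = conj (Z (sh a u) * ph (-q) u)
  rw [map_mul, conj_ph, neg_neg, ← sh_star, hZ.str]
  rfl

/-! ### the feature map -/

theorem Feat.normSq (hF : Feat Z Φ) (a : V → ℂ) :
    ‖Φ a‖ ^ 2 = (Z (star a + a) * Z (star a - a)).re := by
  rw [← hF.ker, @norm_sq_eq_re_inner ℂ]
  rfl

theorem Feat.continuous (hF : Feat Z Φ) (hZ : Zp Z) : Continuous Φ := by
  refine continuous_iff_continuousAt.2 fun a => ?_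
  have h1 : ∀ b, ‖Φ b - Φ a‖ ^ 2 = (Z (star b + b) * Z (star b - b)).re
      - 2 * (Z (star a + b) * Z (star a - b)).re + (Z (star a + a) * Z (star a - a)).re := by
    intro b
    rw [← hF.normSq, ← hF.normSq, @norm_sub_sq ℂ, ← hF.ker a b]
    have : RCLike.re (inner ℂ (Φ b) (Φ a)) = (inner ℂ (Φ a) (Φ b)).re :=
      inner_re_symm (𝕜 := ℂ) (Φ b) (Φ a)
    rw [this]
  have hst : Continuous fun b : V → ℂ => star b := continuous_star
  have hc : Continuous fun b : V → ℂ => (Z (star b + b) * Z (star b - b)).re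
      - 2 * (Z (star a + b) * Z (star a - b)).re + (Z (star a + a) * Z (star a - a)).re := by
    have c1 : Continuous fun b : V → ℂ => Z (star b + b) * Z (star b - b) :=
      (hZ.cont.comp (hst.add continuous_id)).mul (hZ.cont.comp (hst.sub continuous_id))
    have c2 : Continuous fun b : V → ℂ => Z (star a + b) * Z (star a - b) :=
      (hZ.cont.comp (continuous_const.add continuous_id)).mul
        (hZ.cont.comp (continuous_const.sub continuous_id))
    exact ((Complex.continuous_re.comp c1).sub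
      (continuous_const.mul (Complex.continuous_re.comp c2))).add continuous_const
  have h2 : Filter.Tendsto (fun b => ‖Φ b - Φ a‖ ^ 2) (nhds a) (nhds 0) := by
    have h3 := hc.tendsto a
    have h4 : (Z (star a + a) * Z (star a - a)).re - 2 * (Z (star a + a) * Z (star a - a)).re
        + (Z (star a + a) * Z (star a - a)).re = 0 := by ring
    rw [h4] at h3
    simpa only [h1] using h3
  have h5 : Filter.Tendsto (fun b => ‖Φ b - Φ a‖) (nhds a) (nhds 0) := by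
    have h6 := (Real.continuous_sqrt.tendsto 0).comp h2
    rw [Real.sqrt_zero] at h6
    refine h6.congr fun b => ?_
    show √(‖Φ b - Φ a‖ ^ 2) = ‖Φ b - Φ a‖
    rw [Real.sqrt_sq (norm_nonneg _)]
  exact tendsto_iff_norm_sub_tendsto_zero.2 h5

variable [CompleteSpace H]

theorem inner_fS_right (hF : Feat Z Φ) (hZ : Zp Z) (y : H) (q : ℤ) (c : V → ℂ) :
    inner ℂ y (fS Φ q c) = ∫ v in (0 : ℝ)..1, ph q v * inner ℂ y (Φ (sh c v)) := by
  unfold fS
  have hc : Continuous fun v : ℝ => ph q v • Φ (sh c v) :=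
    (continuous_ph q).smul ((hF.continuous hZ).comp (continuous_sh c))
  rw [intervalIntegral.integral_of_le zero_le_one, intervalIntegral.integral_of_le zero_le_one,
    ← integral_inner (𝕜 := ℂ) ((hc.intervalIntegrable 0 1).1) y]
  refine integral_congr_ae (Filter.Eventually.of_forall fun v => ?_)
  show inner ℂ y (ph q v • Φ (sh c v)) = ph q v * inner ℂ y (Φ (sh c v))
  rw [inner_smul_right]

theorem inner_fS_left (hF : Feat Z Φ) (hZ : Zp Z) (y : H) (p : ℤ) (a : V → ℂ) :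
    inner ℂ (fS Φ p a) y = ∫ u in (0 : ℝ)..1, ph (-p) u * inner ℂ (Φ (sh a u)) y := by
  rw [← inner_conj_symm, inner_fS_right hF hZ]
  rw [intervalIntegral.integral_of_le zero_le_one, intervalIntegral.integral_of_le zero_le_one,
    ← integral_conj]
  refine integral_congr_ae (Filter.Eventually.of_forall fun u => ?_)
  show conj (ph p u * inner ℂ y (Φ (sh a u))) = ph (-p) u * inner ℂ (Φ (sh a u)) y
  rw [map_mul, conj_ph, inner_conj_symm]

/-- **the inner products of the charge sectors of the feature map.** -/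
theorem inner_fS (hF : Feat Z Φ) (hZ : Zp Z) (r s : ℤ) (a c : V → ℂ) :
    inner ℂ (fS Φ (-r - s) a) (fS Φ (r - s) c) = Sec Z r (star a + c) * Sec Z s (star a - c) := by
  rw [inner_fS_right hF hZ]
  have h1 : ∀ v : ℝ, ph (r - s) v * inner ℂ (fS Φ (-r - s) a) (Φ (sh c v)) =
      ∫ u in (0 : ℝ)..1, (fun α => Z (sh (star a + c) α) * ph r α) (u + v) *
        (fun β => Z (sh (star a - c) β) * ph s β) (u - v) := by
    intro v
    rw [inner_fS_left hF hZ, ← intervalIntegral.integral_const_mul]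
    refine intervalIntegral.integral_congr fun u _ => ?_
    show ph (r - s) v * (ph (-(-r - s)) u * inner ℂ (Φ (sh a u)) (Φ (sh c v))) =
      (Z (sh (star a + c) (u + v)) * ph r (u + v)) * (Z (sh (star a - c) (u - v)) * ph s (u - v))
    rw [hF.ker, sh_star, sh_add_sh, sh_sub_sh, ph_add, sub_eq_add_neg u v, ph_add, ph_neg_right,
      show -(-r - s) = r + s by ring, sub_eq_add_neg r s, ph_add_int, ph_add_int]
    ring
  simp only [h1]
  exact int_prod (hZ.cont_int r _) (hZ.cont_int s _) (hZ.per_int r _) (hZ.per_int s _)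

/-- real and imaginary background `x + i ξ` -/
def bg (x ξ : V → ℝ) : V → ℂ := fun z => (x z : ℂ) + (ξ z : ℂ) * I

lemma star_bg (x ξ : V → ℝ) : star (bg x ξ) = bg x (-ξ) := by
  funext z
  simp [bg]

lemma bg_add (x ξ y η : V → ℝ) : bg x ξ + bg y η = bg (x + y) (ξ + η) := by
  funext z
  simp only [bg, Pi.add_apply]
  push_cast
  ring

lemma bg_sub (x ξ y η : V → ℝ) : bg x ξ - bg y η = bg (x - y) (ξ - η) := by
  funext z
  simp only [bg, Pi.sub_apply]
  push_cast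
  ring

lemma bg_neg (x ξ : V → ℝ) : -bg x ξ = bg (-x) (-ξ) := by
  funext z
  simp only [bg, Pi.neg_apply]
  push_cast
  ring

lemma bg_zero (x : V → ℝ) : bg x 0 = cr x := by
  funext z
  simp [bg, cr]

/-- `Z⁽ʳ⁾(x + iξ) Z⁽ˢ⁾(y + iη)` as an inner product -/
theorem sec_mul_eq (hF : Feat Z Φ) (hZ : Zp Z) (r s : ℤ) (x ξ y η : V → ℝ) :
    Sec Z r (bg x ξ) * Sec Z s (bg y η) =
      inner ℂ (fS Φ (-r - s) (bg ((1 / 2 : ℝ) • (x + y)) (-((1 / 2 : ℝ) • (ξ + η)))))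
        (fS Φ (r - s) (bg ((1 / 2 : ℝ) • (x - y)) ((1 / 2 : ℝ) • (ξ - η)))) := by
  rw [inner_fS hF hZ, star_bg, bg_add, bg_sub]
  congr 2
  · congr 1 <;> (funext z; simp only [Pi.add_apply, Pi.sub_apply, Pi.smul_apply, Pi.neg_apply, smul_eq_mul]; ring)
  · congr 1 <;> (funext z; simp only [Pi.add_apply, Pi.sub_apply, Pi.smul_apply, Pi.neg_apply, smul_eq_mul]; ring)

theorem norm_fS_sq (hF : Feat Z Φ) (hZ : Zp Z) (q : ℤ) (x ξ : V → ℝ) :
    ((‖fS Φ q (bg x ξ)‖ ^ 2 : ℝ) : ℂ) = Sec Z 0 (cr ((2 : ℝ) • x)) * Sec Z q (bg 0 ((2 : ℝ) • ξ)) := by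
  have h1 : inner ℂ (fS Φ q (bg x ξ)) (fS Φ q (bg x ξ)) =
      Sec Z 0 (star (bg x ξ) + bg x ξ) * Sec Z (-q) (star (bg x ξ) - bg x ξ) := by
    have := inner_fS hF hZ 0 (-q) (bg x ξ) (bg x ξ)
    simpa using this
  rw [inner_self_eq_norm_sq_to_K] at h1
  have h2 : ((‖fS Φ q (bg x ξ)‖ ^ 2 : ℝ) : ℂ) = (‖fS Φ q (bg x ξ)‖ : ℂ) ^ 2 := by push_cast; rfl
  rw [h2]
  refine h1.trans ?_
  have e1 : star (bg x ξ) + bg x ξ = cr ((2 : ℝ) • x) := by
    rw [star_bg, bg_add, neg_add_cancel, bg_zero, two_smul]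
  have e2 : star (bg x ξ) - bg x ξ = -bg 0 ((2 : ℝ) • ξ) := by
    rw [star_bg, bg_sub, bg_neg, two_smul]
    congr 1
    · simp
    · abel
  rw [e1, e2, Sec_neg hZ, neg_neg]

/-! ### real forms -/

/-- neutral partition function at a real background -/
def Z0 (Z : (V → ℂ) → ℂ) (f : V → ℝ) : ℝ := (Sec Z 0 (cr f)).re

/-- charge `q` at a purely imaginary background -/
def Aq (Z : (V → ℂ) → ℂ) (q : ℤ) (ξ : V → ℝ) : ℝ := (Sec Z q (bg 0 ξ)).re

omit [CompleteSpace H] in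
theorem Sec_zero_real (hZ : Zp Z) (f : V → ℝ) : Sec Z 0 (cr f) = (Z0 Z f : ℂ) := by
  have h1 : Sec Z 0 (cr f) = star (Sec Z 0 (cr f)) := by
    have := Sec_star hZ 0 (cr f)
    rwa [star_cr, neg_zero] at this
  exact (Complex.conj_eq_iff_re.1 h1.symm).symm

theorem Sec_im_real (hZ : Zp Z) (q : ℤ) (ξ : V → ℝ) : Sec Z q (bg 0 ξ) = (Aq Z q ξ : ℂ) := by
  have h1 : Sec Z q (bg 0 ξ) = star (Sec Z q (bg 0 ξ)) := by
    have h2 := Sec_star hZ (-q) (bg 0 ξ)
    have h3 : star (bg (0 : V → ℝ) ξ) = -bg 0 ξ := by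
      rw [star_bg, bg_neg, neg_zero]
    rw [h3, Sec_neg hZ, neg_neg] at h2
    exact h2
  exact (Complex.conj_eq_iff_re.1 h1.symm).symm

theorem Aq_neg (hZ : Zp Z) (q : ℤ) (ξ : V → ℝ) : Aq Z q (-ξ) = Aq Z (-q) ξ := by
  unfold Aq
  rw [← Sec_neg hZ, bg_neg, neg_zero]

theorem Aq_zero_zero (Z : (V → ℂ) → ℂ) : Aq Z 0 0 = Z0 Z 0 := by
  unfold Aq Z0
  rw [bg_zero]

/-- positivity of the partition function on real backgrounds -/
def Pos (Z : (V → ℂ) → ℂ) : Prop := ∀ f : V → ℝ, 0 < (Z (cr f)).re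

theorem Z0_eq (hZ : Zp Z) (f : V → ℝ) :
    Z0 Z f = ∫ u in (0 : ℝ)..1, (Z (cr fun x => f x + u)).re := by
  have hc : Continuous fun u : ℝ => Z (sh (cr f) u) := hZ.cont_sh _
  have h1 : Sec Z 0 (cr f) = ∫ u in (0 : ℝ)..1, Z (sh (cr f) u) := by
    unfold Sec
    simp only [ph_zero_left, mul_one]
  unfold Z0
  rw [h1]
  have h2 : (∫ u in (0 : ℝ)..1, Z (sh (cr f) u)).re = ∫ u in (0 : ℝ)..1, (Z (sh (cr f) u)).re := by
    have := Complex.reCLM.intervalIntegral_comp_comm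
      (hc.intervalIntegrable (μ := volume) (0 : ℝ) 1)
    exact this.symm
  rw [h2]
  refine intervalIntegral.integral_congr fun u _ => ?_
  show (Z (sh (cr f) u)).re = (Z (cr fun x => f x + u)).re
  congr 2
  funext x
  simp [sh, cr]

theorem Z0_pos (hZ : Zp Z) (hp : Pos Z) (f : V → ℝ) : 0 < Z0 Z f := by
  rw [Z0_eq hZ]
  refine intervalIntegral.intervalIntegral_pos_of_pos (Continuous.intervalIntegrable ?_ 0 1)
    (fun u => hp _) zero_lt_one
  refine Complex.continuous_re.comp (hZ.cont.comp ?_)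
  refine continuous_pi fun x => ?_
  unfold cr
  fun_prop

theorem normSq_fS (hF : Feat Z Φ) (hZ : Zp Z) (q : ℤ) (x ξ : V → ℝ) :
    ‖fS Φ q (bg x ξ)‖ ^ 2 = Z0 Z ((2 : ℝ) • x) * Aq Z q ((2 : ℝ) • ξ) := by
  have h1 := norm_fS_sq hF hZ q x ξ
  rw [Sec_zero_real hZ, Sec_im_real hZ] at h1
  exact_mod_cast h1

/-- **activities are nonnegative** at every imaginary background -/
theorem Aq_nonneg (hF : Feat Z Φ) (hZ : Zp Z) (hp : Pos Z) (q : ℤ) (ξ : V → ℝ) : 0 ≤ Aq Z q ξ := by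
  have h1 := normSq_fS hF hZ q 0 ((1 / 2 : ℝ) • ξ)
  rw [smul_zero, smul_smul, show (2 : ℝ) * (1 / 2) = 1 by norm_num, one_smul] at h1
  have h2 : 0 ≤ Z0 Z 0 * Aq Z q ξ := by
    rw [← h1]
    positivity
  exact nonneg_of_mul_nonneg_right h2 (Z0_pos hZ hp 0)

/-- **MASTER INEQUALITY** -/
theorem master (hF : Feat Z Φ) (hZ : Zp Z) (r s : ℤ) (x ξ y η : V → ℝ) :
    (‖Sec Z r (bg x ξ)‖ * ‖Sec Z s (bg y η)‖) ^ 2 ≤
      (Z0 Z (x + y) * Aq Z (r + s) (ξ + η)) * (Z0 Z (x - y) * Aq Z (r - s) (ξ - η)) := by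
  have h1 := sec_mul_eq hF hZ r s x ξ y η
  have h2 := normSq_fS hF hZ (-r - s) ((1 / 2 : ℝ) • (x + y)) (-((1 / 2 : ℝ) • (ξ + η)))
  have h3 := normSq_fS hF hZ (r - s) ((1 / 2 : ℝ) • (x - y)) ((1 / 2 : ℝ) • (ξ - η))
  have e2 : (2 : ℝ) • ((1 / 2 : ℝ) • (x + y)) = x + y := by
    rw [smul_smul]; norm_num
  have e3 : (2 : ℝ) • ((1 / 2 : ℝ) • (x - y)) = x - y := by
    rw [smul_smul]; norm_num
  have e4 : (2 : ℝ) • (-((1 / 2 : ℝ) • (ξ + η))) = -(ξ + η) := by
    rw [smul_neg, smul_smul]; norm_num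
  have e5 : (2 : ℝ) • ((1 / 2 : ℝ) • (ξ - η)) = ξ - η := by
    rw [smul_smul]; norm_num
  rw [e2, e4, Aq_neg hZ, show -(-r - s) = r + s by ring] at h2
  rw [e3, e5] at h3
  rw [← norm_mul, h1, ← h2, ← h3, ← mul_pow]
  exact pow_le_pow_left₀ (norm_nonneg _) (norm_inner_le_norm _ _) 2

/-- **(C2)**: charged sectors are largest, relative to the neutral one, at background `0`; also with
an imaginary background on top of an arbitrary real one -/
theorem sec_le (hF : Feat Z Φ) (hZ : Zp Z) (hp : Pos Z) (q : ℤ) (g ψ : V → ℝ) :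
    ‖Sec Z q (bg g ψ)‖ * Z0 Z 0 ≤ Z0 Z g * Aq Z q ψ := by
  have h1 := master hF hZ q 0 g ψ 0 0
  rw [add_zero, add_zero, sub_zero, sub_zero, add_zero, sub_zero] at h1
  have h2 : ‖Sec Z 0 (bg (0 : V → ℝ) 0)‖ = Z0 Z 0 := by
    rw [bg_zero, Sec_zero_real hZ, Complex.norm_real, Real.norm_eq_abs,
      abs_of_pos (Z0_pos hZ hp 0)]
  rw [h2, ← sq] at h1
  exact (abs_le_of_sq_le_sq' h1 (mul_nonneg (Z0_pos hZ hp g).le (Aq_nonneg hF hZ hp q ψ))).2

/-- the same at real backgrounds: `|Z⁽q⁾(g)| Z⁰(0) ≤ Z⁰(g) Z⁽q⁾(0)` -/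
theorem sec_le_real (hF : Feat Z Φ) (hZ : Zp Z) (hp : Pos Z) (q : ℤ) (g : V → ℝ) :
    ‖Sec Z q (cr g)‖ * Z0 Z 0 ≤ Z0 Z g * Aq Z q 0 := by
  have := sec_le hF hZ hp q g 0
  rwa [bg_zero] at this

/-- **(C3)**: log-concavity of the activities -/
theorem Aq_mul_le (hF : Feat Z Φ) (hZ : Zp Z) (hp : Pos Z) (r s : ℤ) :
    (Aq Z r 0 * Aq Z s 0) ^ 2 ≤ Z0 Z 0 ^ 2 * (Aq Z (r + s) 0 * Aq Z (r - s) 0) := by
  have h1 := master hF hZ r s 0 0 0 0
  rw [add_zero, sub_zero, Sec_im_real hZ, Sec_im_real hZ, Complex.norm_real, Complex.norm_real,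
    Real.norm_eq_abs, Real.norm_eq_abs, abs_of_nonneg (Aq_nonneg hF hZ hp r 0),
    abs_of_nonneg (Aq_nonneg hF hZ hp s 0)] at h1
  refine h1.trans (le_of_eq ?_)
  ring

/-- the same with imaginary backgrounds -/
theorem Aq_mul_le' (hF : Feat Z Φ) (hZ : Zp Z) (hp : Pos Z) (r s : ℤ) (ξ η : V → ℝ) :
    (Aq Z r ξ * Aq Z s η) ^ 2 ≤ Z0 Z 0 ^ 2 * (Aq Z (r + s) (ξ + η) * Aq Z (r - s) (ξ - η)) := by
  have h1 := master hF hZ r s 0 ξ 0 η
  rw [add_zero, sub_zero, Sec_im_real hZ, Sec_im_real hZ, Complex.norm_real, Complex.norm_real,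
    Real.norm_eq_abs, Real.norm_eq_abs, abs_of_nonneg (Aq_nonneg hF hZ hp r ξ),
    abs_of_nonneg (Aq_nonneg hF hZ hp s η)] at h1
  refine h1.trans (le_of_eq ?_)
  ring

/-- **(C4)**: the parallelogram inequality of the neutral model -/
theorem Z0_par (hF : Feat Z Φ) (hZ : Zp Z) (hp : Pos Z) (x y : V → ℝ) :
    (Z0 Z x * Z0 Z y) ^ 2 ≤ Z0 Z (x + y) * Z0 Z (x - y) * Z0 Z 0 ^ 2 := by
  have h1 := master hF hZ 0 0 x 0 y 0
  rw [add_zero, sub_zero, bg_zero, bg_zero, Sec_zero_real hZ, Sec_zero_real hZ, Complex.norm_real,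
    Complex.norm_real, Real.norm_eq_abs, Real.norm_eq_abs, abs_of_pos (Z0_pos hZ hp x),
    abs_of_pos (Z0_pos hZ hp y), add_zero, sub_zero, Aq_zero_zero] at h1
  refine h1.trans (le_of_eq ?_)
  ring

/-- neutral free energy -/
def U0 (Z : (V → ℂ) → ℂ) (f : V → ℝ) : ℝ := -Real.log (Z0 Z f / Z0 Z 0)

theorem U0_zero (hZ : Zp Z) (hp : Pos Z) : U0 Z 0 = 0 := by
  unfold U0
  rw [div_self (Z0_pos hZ hp 0).ne', Real.log_one, neg_zero]

theorem U0_eq (hZ : Zp Z) (hp : Pos Z) (f : V → ℝ) :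
    U0 Z f = Real.log (Z0 Z 0) - Real.log (Z0 Z f) := by
  unfold U0
  rw [Real.log_div (Z0_pos hZ hp f).ne' (Z0_pos hZ hp 0).ne']
  ring

/-- **(C4) for the free energy**: `U⁰(x+y) + U⁰(x-y) ≤ 2 U⁰(x) + 2 U⁰(y)` -/
theorem U0_par (hF : Feat Z Φ) (hZ : Zp Z) (hp : Pos Z) (x y : V → ℝ) :
    U0 Z (x + y) + U0 Z (x - y) ≤ 2 * U0 Z x + 2 * U0 Z y := by
  have h1 := Z0_par hF hZ hp x y
  have px := Z0_pos hZ hp x
  have py := Z0_pos hZ hp y
  have p1 := Z0_pos hZ hp (x + y)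
  have p2 := Z0_pos hZ hp (x - y)
  have p0 := Z0_pos hZ hp 0
  have h2 := Real.log_le_log (by positivity) h1
  rw [Real.log_pow, Real.log_mul px.ne' py.ne', Real.log_mul (by positivity) (by positivity),
    Real.log_mul p1.ne' p2.ne', Real.log_pow] at h2
  rw [U0_eq hZ hp, U0_eq hZ hp, U0_eq hZ hp, U0_eq hZ hp]
  push_cast at h2
  linarith

/-- the neutral duplication kernel is positive semidefinite -/
theorem psd0 (hF : Feat Z Φ) (hZ : Zp Z) {n : ℕ} (a : Fin n → V → ℝ) (c : Fin n → ℝ) :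
    0 ≤ ∑ i, ∑ j, c i * c j * (Z0 Z (a i + a j) * Z0 Z (a i - a j)) := by
  have h1 : ∀ i j, ((Z0 Z (a i + a j) * Z0 Z (a i - a j) : ℝ) : ℂ) =
      inner ℂ (fS Φ 0 (cr (a i))) (fS Φ 0 (cr (a j))) := by
    intro i j
    have h2 := inner_fS hF hZ 0 0 (cr (a i)) (cr (a j))
    rw [star_cr] at h2
    have e1 : cr (a i) + cr (a j) = cr (a i + a j) := by funext z; simp [cr]
    have e2 : cr (a i) - cr (a j) = cr (a i - a j) := by funext z; simp [cr]
    rw [e1, e2, Sec_zero_real hZ, Sec_zero_real hZ] at h2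
    simp only [neg_zero, sub_zero] at h2
    rw [h2]
    push_cast
    rfl
  have h3 : ((∑ i, ∑ j, c i * c j * (Z0 Z (a i + a j) * Z0 Z (a i - a j)) : ℝ) : ℂ) =
      inner ℂ (∑ i, (c i : ℂ) • fS Φ 0 (cr (a i))) (∑ j, (c j : ℂ) • fS Φ 0 (cr (a j))) := by
    rw [sum_inner]
    push_cast
    refine Finset.sum_congr rfl fun i _ => ?_
    rw [inner_sum]
    refine Finset.sum_congr rfl fun j _ => ?_
    rw [inner_smul_left, inner_smul_right, ← h1]
    simp only [Complex.conj_ofReal]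
    push_cast
    ring
  have h4 : (inner ℂ (∑ i, (c i : ℂ) • fS Φ 0 (cr (a i)))
      (∑ j, (c j : ℂ) • fS Φ 0 (cr (a j))) : ℂ).re =
      ‖∑ i, (c i : ℂ) • fS Φ 0 (cr (a i))‖ ^ 2 := by
    rw [@norm_sq_eq_re_inner ℂ]
    rfl
  have h5 := congrArg Complex.re h3
  rw [Complex.ofReal_re, h4] at h5
  rw [h5]
  positivity

/-! ### without averaging -/

omit [CompleteSpace H] in
theorem normSq_bg (hF : Feat Z Φ) (hZ : Zp Z) (x ξ : V → ℝ) :
    ‖Φ (bg x ξ)‖ ^ 2 = (Z (cr ((2 : ℝ) • x)) * Z (bg 0 ((2 : ℝ) • ξ))).re := by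
  rw [hF.normSq]
  have e1 : star (bg x ξ) + bg x ξ = cr ((2 : ℝ) • x) := by
    rw [star_bg, bg_add, neg_add_cancel, bg_zero, two_smul]
  have e2 : star (bg x ξ) - bg x ξ = -bg 0 ((2 : ℝ) • ξ) := by
    rw [star_bg, bg_sub, bg_neg, two_smul]
    congr 1
    · simp
    · abel
  rw [e1, e2, hZ.even]

theorem Z_real (hZ : Zp Z) (f : V → ℝ) : Z (cr f) = ((Z (cr f)).re : ℂ) := by
  have h1 : Z (cr f) = star (Z (cr f)) := by
    rw [← hZ.str, star_cr]
  exact (Complex.conj_eq_iff_re.1 h1.symm).symm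

theorem Z_im_real (hZ : Zp Z) (ξ : V → ℝ) : Z (bg 0 ξ) = ((Z (bg 0 ξ)).re : ℂ) := by
  have h1 : Z (bg 0 ξ) = star (Z (bg 0 ξ)) := by
    rw [← hZ.str, star_bg]
    have : bg (0 : V → ℝ) (-ξ) = -bg 0 ξ := by rw [bg_neg, neg_zero]
    rw [this, hZ.even]
  exact (Complex.conj_eq_iff_re.1 h1.symm).symm

omit [CompleteSpace H] in
/-- **complex Ginibre inequality** `|Z(g + iψ)| Z(0) ≤ Z(g) Z(iψ)` -/
theorem ginibre_complex (hF : Feat Z Φ) (hZ : Zp Z) (hp : Pos Z) (g ψ : V → ℝ) :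
    ‖Z (bg g ψ)‖ * (Z 0).re ≤ (Z (cr g)).re * (Z (bg 0 ψ)).re := by
  have h0 : (0 : V → ℂ) = cr 0 := by funext z; simp [cr]
  have h1 : Z (bg g ψ) * Z 0 = inner ℂ (Φ (bg ((1 / 2 : ℝ) • g) (-((1 / 2 : ℝ) • ψ))))
      (Φ (bg ((1 / 2 : ℝ) • g) ((1 / 2 : ℝ) • ψ))) := by
    rw [hF.ker, star_bg, neg_neg, bg_add, bg_sub, ← add_smul, ← add_smul, sub_self, sub_self]
    norm_num
    left
    congr 1
    funext z
    simp [bg]
  have h2 := normSq_bg hF hZ ((1 / 2 : ℝ) • g) (-((1 / 2 : ℝ) • ψ))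
  have h3 := normSq_bg hF hZ ((1 / 2 : ℝ) • g) ((1 / 2 : ℝ) • ψ)
  have e2 : (2 : ℝ) • ((1 / 2 : ℝ) • g) = g := by rw [smul_smul]; norm_num
  have e3 : (2 : ℝ) • ((1 / 2 : ℝ) • ψ) = ψ := by rw [smul_smul]; norm_num
  have e4 : (2 : ℝ) • (-((1 / 2 : ℝ) • ψ)) = -ψ := by rw [smul_neg, smul_smul]; norm_num
  have e5 : Z (bg 0 (-ψ)) = Z (bg 0 ψ) := by
    rw [← hZ.even (bg 0 ψ), bg_neg, neg_zero]
  rw [e2, e4, e5] at h2
  rw [e2, e3] at h3
  have h4 : (Z (cr g) * Z (bg 0 ψ)).re = (Z (cr g)).re * (Z (bg 0 ψ)).re := by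
    rw [Z_real hZ, Z_im_real hZ]
    simp
  rw [h4] at h2 h3
  have h5 : ‖Z (bg g ψ)‖ * (Z 0).re = ‖Z (bg g ψ) * Z 0‖ := by
    rw [norm_mul]
    congr 1
    rw [h0, Z_real hZ, Complex.norm_real, Real.norm_eq_abs, abs_of_pos (by simpa using hp 0)]
    simp
  rw [h5, h1]
  refine (norm_inner_le_norm _ _).trans ?_
  have h6 : ‖Φ (bg ((1 / 2 : ℝ) • g) (-((1 / 2 : ℝ) • ψ)))‖ =
      ‖Φ (bg ((1 / 2 : ℝ) • g) ((1 / 2 : ℝ) • ψ))‖ := by
    have h7 := h2.trans h3.symm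
    exact (sq_eq_sq₀ (norm_nonneg _) (norm_nonneg _)).1 h7
  rw [h6, ← sq, h3]

end

end

end Vale.Agent.P159.H896
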