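import Vale.Agent.P159.H663.HtB

/-!
P159 (helper896): tails of the cell field of the neutral model at source zero, **uniform in the
prior mass** (the prior mass may tend to zero).

* `qf_neu_le`, `poin_neu` : comparison of translation invariant forms on neutral vectors;
* `edge_neu` : `|κ grad (M + κ(-Δ))⁻¹ u|² ≤ Γ₀ |u|²` for `u` neutral, `0 ≤ M ≤ T`,
  `Γ₀ = 2 (2 + log N) (3 + (T N² / κ)²)`: no lower bound of `M` enters;
* `Rk_neu` : on neutral vectors the cell resolvent of any mass is at most twice the one of mass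
  `κ / N²`;
* `tail0` : quadratic Chernoff bound for `A cobV h`, rows of `A` neutral, source zero.
-/

set_option linter.unusedSectionVars false

namespace Vale.Agent.P159.H896

open Finset Matrix MeasureTheory ProbabilityTheory
open Vale.Agent.P159.TM.H104 (EM Ex Cv K3 Lg li nh Gr)
open Vale.Agent.P159.TM.H764 (EE grd nrm)
open Vale.Agent.P159.TM.Spec (V)
open Vale.Agent.P159.TM.SpecC (Tor wT)
open Vale.Agent.P159.H37
open Vale.Agent.P159.H864 hiding qf_smul_mat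
open Vale.Agent.P159.H859 (Rk ge sq sym_Rk sq_diff_le gd gd_le gd_nonneg EE_low nrm_eq_zero
  op_mul_Rk)
open Vale.Agent.P159.H816 (Hb htB_base cB Hb_psd Hb_cell res_symm mulT sum_sq_cobV_tr tr_cell_le
  dom_neu nrm_e1 nrm_e2 sq_eq dot_le coer_add)
open Vale.Agent.P159.H963 (Neu nM nMC MF Pn Pn_of_neu ti_Pn sym_Pn)

noncomputable section

section comp

variable {n : ℕ} [NeZero n]

/-- comparison of translation invariant forms on neutral vectors -/
lemma qf_neu_le {S R : Matrix (V n) (V n) ℝ} (hS : TI S) (hR : TI R) {c : ℝ}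
    (h : ∀ k, k ≠ 0 → sym S k ≤ c * sym R k) {u : V n → ℝ} (hu : Neu u) :
    qf S u ≤ c * qf R u := by
  have e : ∀ W : Matrix (V n) (V n) ℝ, qf (W * Pn) u = qf W u := fun W => by
    rw [qf_eq, ← Matrix.mulVec_mulVec, Pn_of_neu hu, ← qf_eq]
  have h1 := (qf_le_iff (hS.mul ti_Pn) ((hR.smul c).mul ti_Pn)).2 (fun k => by
    rw [sym_mul hS ti_Pn, sym_mul (hR.smul c) ti_Pn, sym_smul, sym_Pn]
    split_ifs with hk
    · simp
    · rw [mul_one, mul_one]
      exact h k hk) u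
  rw [e, e, H864.qf_smul_mat] at h1
  exact h1

lemma EE_gap' {k : V n} (hk : k ≠ 0) : 16 / (n : ℝ) ^ 2 ≤ EE k := by
  refine le_trans ?_ (EE_low k)
  have h1 : (1 : ℝ) ≤ nrm k := by
    have : nrm k ≠ 0 := fun h => hk (nrm_eq_zero.1 h)
    exact_mod_cast Nat.pos_of_ne_zero this
  have hn : (0 : ℝ) < n := by exact_mod_cast NeZero.pos n
  refine div_le_div_of_nonneg_right ?_ (by positivity)
  nlinarith

/-- Poincare inequality on neutral vectors -/
lemma poin_neu {u : V n → ℝ} (hu : Neu u) :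
    ∑ x, u x ^ 2 ≤ (n : ℝ) ^ 2 / 16 * grd u := by
  have hn : (0 : ℝ) < n := by exact_mod_cast NeZero.pos n
  have h := qf_neu_le (S := 1) (R := lapM) TI.one ti_lapM (c := (n : ℝ) ^ 2 / 16) (fun k hk => by
    rw [sym_one, sym_lapM]
    have := EE_gap' hk
    rw [div_le_iff₀ (by positivity)] at this
    linarith) hu
  rw [qf_lapM] at h
  have e : qf (1 : Matrix (V n) (V n) ℝ) u = ∑ x, u x ^ 2 := by
    rw [qf_eq, one_mulVec]
    unfold dotProduct
    exact Finset.sum_congr rfl fun x _ => by ring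
  rwa [e] at h

/-- on neutral vectors the mass of the resolvent does not matter -/
lemma Rk_neu {τ κ : ℝ} (hτ : 0 < τ) (hκ : 0 < κ) {u : V n → ℝ} (hu : Neu u) :
    qf (Rk τ κ) u ≤ 2 * qf (Rk (κ / (n : ℝ) ^ 2) κ) u := by
  have hn : (0 : ℝ) < n := by exact_mod_cast NeZero.pos n
  have hr : 0 < κ / (n : ℝ) ^ 2 := by positivity
  refine qf_neu_le (H859.ti_Rk _ _) (H859.ti_Rk _ _) (fun k hk => ?_) hu
  rw [sym_Rk hτ hκ.le, sym_Rk hr hκ.le]
  have h1 := EE_gap' hk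
  have h2 : 0 < EE k := lt_of_lt_of_le (by positivity) h1
  have h3 : κ / (n : ℝ) ^ 2 ≤ κ * EE k := by
    have := mul_le_mul_of_nonneg_left h1 hκ.le
    refine le_trans ?_ this
    rw [← mul_div_assoc]
    refine div_le_div_of_nonneg_right ?_ (by positivity)
    linarith
  rw [← div_eq_mul_inv, inv_eq_one_div, div_le_div_iff₀ (by positivity) (by positivity)]
  have := mul_pos hκ h2
  linarith

end comp

section edge

variable {N : ℕ} [NeZero N] {M : Matrix (V N) (V N) ℝ} {m T κ : ℝ}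

/-- the constant of the gradients of neutral sources -/
def Gam0 (N : ℕ) (T κ : ℝ) : ℝ := 2 * (2 + Real.log N) * (3 + (T * (N : ℝ) ^ 2 / κ) ^ 2)

lemma Gam0_nonneg : 0 ≤ Gam0 N T κ := by
  unfold Gam0
  have h1 : 0 ≤ Real.log N := Real.log_natCast_nonneg N
  positivity

lemma mf_lap (hM : MF M m) (hκ : 0 ≤ κ) : MF (M + κ • lapM) m := by
  obtain ⟨m0, hm0, hco⟩ := hM.coer
  have hrl : ∀ x : V N, ∑ y, lapM x y = 0 := by
    intro x
    have h1 := H340.lapM_mulVec (fun _ : V N => (1 : ℝ)) x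
    simp only [Matrix.mulVec, dotProduct, mul_one] at h1
    rw [h1]
    ring
  refine ⟨?_, fun x => ?_, m0, hm0, coer_add hκ hco⟩
  · rw [Matrix.transpose_add, Matrix.transpose_smul, hM.symm, ti_lapM.transpose]
  · simp only [Matrix.add_apply, Matrix.smul_apply, smul_eq_mul, Finset.sum_add_distrib,
      hM.row, ← Finset.mul_sum, hrl, mul_zero, add_zero]

/-- **gradient of the bare potential of a neutral source**, no lower bound of the mass form -/
theorem edge_neu (hM : MF M m) (hκ : 0 < κ) (hT : 0 ≤ T)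
    (h2 : ∀ u : V N → ℝ, qf M u ≤ T * ∑ x, u x ^ 2) {u : V N → ℝ} (hu : Neu u)
    (x : V N) (s : Bool) :
    ge κ ((M + κ • lapM)⁻¹ *ᵥ u) x s ^ 2 ≤ Gam0 N T κ * ∑ y, u y ^ 2 := by
  have hN : (0 : ℝ) < N := by exact_mod_cast NeZero.pos N
  have hlog : 0 ≤ Real.log N := Real.log_natCast_nonneg N
  obtain ⟨m0, hm0, hco⟩ := hM.coer
  have h0 : ∀ v : V N → ℝ, 0 ≤ qf M v := fun v =>
    (mul_nonneg hm0.le (Finset.sum_nonneg fun _ _ => sq_nonneg _)).trans (hco v)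
  have hAM := mf_lap hM hκ.le
  set A : Matrix (V N) (V N) ℝ := M + κ • lapM with hA
  have hAu : IsUnit A := (Matrix.isUnit_iff_isUnit_det A).2 hAM.det
  set w : V N → ℝ := A⁻¹ *ᵥ u with hw
  have hwn : Neu w := hAM.neu_inv hu
  have hAw : A *ᵥ w = u := hAM.mulVec_inv u
  set U : ℝ := ∑ y, u y ^ 2 with hU
  set S : ℝ := ∑ y, w y ^ 2 with hS
  have hU0 : 0 ≤ U := Finset.sum_nonneg fun _ _ => sq_nonneg _
  have hS0 : 0 ≤ S := Finset.sum_nonneg fun _ _ => sq_nonneg _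
  -- energy
  have h3 : κ * grd w ≤ w ⬝ᵥ u := by
    have e : qf A w = w ⬝ᵥ u := by rw [qf_eq, hAw]
    rw [hA, qf_add_mat, H864.qf_smul_mat, qf_lapM] at e
    linarith [h0 w]
  have h4 : S ≤ (N : ℝ) ^ 2 / 16 * grd w := poin_neu hwn
  set g : ℝ := T * (N : ℝ) ^ 2 / κ with hg
  have hg0 : 0 ≤ g := by positivity
  have h5 : S ≤ ((N : ℝ) ^ 2 / (16 * κ)) ^ 2 * U := by
    have h6 : S ≤ (N : ℝ) ^ 2 / (16 * κ) * (w ⬝ᵥ u) := by
      refine h4.trans ?_
      have e : (N : ℝ) ^ 2 / 16 * grd w = (N : ℝ) ^ 2 / (16 * κ) * (κ * grd w) := by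
        field_simp
      rw [e]
      exact mul_le_mul_of_nonneg_left h3 (by positivity)
    have h7 := dot_le w u
    have h8 : S ^ 2 ≤ ((N : ℝ) ^ 2 / (16 * κ)) ^ 2 * (S * U) := by
      refine (pow_le_pow_left₀ hS0 h6 2).trans ?_
      rw [mul_pow]
      exact mul_le_mul_of_nonneg_left h7 (by positivity)
    rcases hS0.eq_or_lt with h9 | h9
    · rw [← h9]
      positivity
    · have h10 : S * S ≤ (((N : ℝ) ^ 2 / (16 * κ)) ^ 2 * U) * S := by nlinarith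
      exact le_of_mul_le_mul_right h10 h9
  -- the source for the scalar resolvent
  set r : ℝ := κ / (N : ℝ) ^ 2 with hr
  have hr0 : 0 < r := by positivity
  set v : V N → ℝ := u + (r • w - M *ᵥ w) with hv
  have h6 : (r • (1 : Matrix (V N) (V N) ℝ) + κ • lapM) *ᵥ w = v := by
    rw [hv, ← hAw, hA, Matrix.add_mulVec, Matrix.add_mulVec, Matrix.smul_mulVec,
      Matrix.one_mulVec]
    abel
  have h7 : w = Rk r κ *ᵥ v := by
    have h8 : Rk r κ * (r • (1 : Matrix (V N) (V N) ℝ) + κ • lapM) = 1 :=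
      mul_eq_one_comm.1 (op_mul_Rk hr0 hκ.le)
    rw [← h6, Matrix.mulVec_mulVec, h8, Matrix.one_mulVec]
  have h8 : ∑ y, (M *ᵥ w) y ^ 2 ≤ T ^ 2 * S := H816.norm_psd_le hM.symm h0 h2 w
  have h9 : ∑ y, v y ^ 2 ≤ (3 + g ^ 2) * U := by
    have h10 : ∑ y, v y ^ 2 ≤ 2 * U + (4 * r ^ 2 * S + 4 * ∑ y, (M *ᵥ w) y ^ 2) := by
      rw [hU, hS, Finset.mul_sum, Finset.mul_sum, Finset.mul_sum, ← Finset.sum_add_distrib,
        ← Finset.sum_add_distrib]
      refine Finset.sum_le_sum fun y _ => ?_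
      rw [hv, Pi.add_apply, Pi.sub_apply, Pi.smul_apply, smul_eq_mul]
      nlinarith [sq_nonneg (u y - (r * w y - (M *ᵥ w) y)), sq_nonneg (r * w y + (M *ᵥ w) y)]
    have h11 : 4 * r ^ 2 * S ≤ U / 64 := by
      refine (mul_le_mul_of_nonneg_left h5 (by positivity)).trans (le_of_eq ?_)
      rw [hr]
      field_simp
      ring
    have h12 : 4 * (T ^ 2 * S) ≤ g ^ 2 / 64 * U := by
      have := mul_le_mul_of_nonneg_left h5 (show 0 ≤ 4 * T ^ 2 by positivity)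
      refine le_trans (le_of_eq (by ring)) (this.trans (le_of_eq ?_))
      rw [hg]
      field_simp
      ring
    nlinarith [mul_nonneg (sq_nonneg g) hU0]
  have key : ∀ d : V N, (nrm d : ℝ) ≤ 1 → (κ * (w (x + d) - w x)) ^ 2 ≤ Gam0 N T κ * U := by
    intro d hd
    set z : V N → ℝ := Pi.single (x + d) 1 - Pi.single x 1 with hz
    have e1 : w (x + d) - w x = (Rk r κ *ᵥ z) ⬝ᵥ v := by
      have hRs : (Rk r κ : Matrix (V N) (V N) ℝ)ᵀ = Rk r κ := (H859.ti_Rk r κ).transpose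
      have : (Rk r κ *ᵥ z) ⬝ᵥ v = z ⬝ᵥ (Rk r κ *ᵥ v) := by
        rw [dotProduct_mulVec, ← mulVec_transpose, hRs]
      rw [this, ← h7, hz, sub_dotProduct, single_one_dotProduct, single_one_dotProduct]
    have h10 := sq_diff_le (n := N) hr0 hκ (x + d) x
    rw [sq_eq, ← hz] at h10
    have h11 : (nrm (x - (x + d)) : ℝ) ≤ 1 := by
      have e : x - (x + d) = -d := by abel
      rw [e]
      have e2 : nrm (-d) = nrm d := by
        unfold nrm
        rw [Prod.fst_neg, Prod.snd_neg, ZMod.natAbs_valMinAbs_neg, ZMod.natAbs_valMinAbs_neg]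
      rw [e2]
      exact hd
    have h12 : (nrm (x - (x + d)) : ℝ) ^ 2 ≤ 1 := by
      have := Nat.cast_nonneg (α := ℝ) (nrm (x - (x + d)))
      nlinarith
    have h13 : 0 ≤ gd N r κ / κ := div_nonneg (gd_nonneg hr0 hκ.le) hκ.le
    have h14 := gd_le (n := N) hr0 hκ
    have h15 : κ ^ 2 * ∑ y, (Rk r κ *ᵥ z) y ^ 2 ≤ 2 * (2 + Real.log N) := by
      have h16 : ∑ y, (Rk r κ *ᵥ z) y ^ 2 ≤ 2 * (gd N r κ / κ) := by
        refine h10.trans ?_
        have := mul_le_mul_of_nonneg_right h12 h13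
        linarith
      refine (mul_le_mul_of_nonneg_left h16 (by positivity)).trans ?_
      have h17 : κ * gd N r κ ≤ 1 + (1 + Real.log N) := by
        refine (mul_le_mul_of_nonneg_left h14 hκ.le).trans (le_of_eq ?_)
        rw [hr]
        field_simp
      have e : κ ^ 2 * (2 * (gd N r κ / κ)) = 2 * (κ * gd N r κ) := by
        field_simp
      rw [e]
      linarith
    have h16 := dot_le (Rk r κ *ᵥ z) v
    have hv0 : 0 ≤ ∑ y, v y ^ 2 := Finset.sum_nonneg fun _ _ => sq_nonneg _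
    rw [mul_pow, e1]
    calc κ ^ 2 * ((Rk r κ *ᵥ z) ⬝ᵥ v) ^ 2 ≤
          κ ^ 2 * ((∑ y, (Rk r κ *ᵥ z) y ^ 2) * ∑ y, v y ^ 2) :=
          mul_le_mul_of_nonneg_left h16 (by positivity)
      _ = (κ ^ 2 * ∑ y, (Rk r κ *ᵥ z) y ^ 2) * ∑ y, v y ^ 2 := by ring
      _ ≤ (2 * (2 + Real.log N)) * ((3 + g ^ 2) * U) :=
          mul_le_mul h15 h9 hv0 (by positivity)
      _ = _ := by
          unfold Gam0
          rw [hg]
          ring
  cases s
  · have := key (0, 1) nrm_e2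
    unfold ge
    simpa using this
  · have := key (1, 0) nrm_e1
    unfold ge
    simpa using this

end edge

section tail

variable {N l : ℕ} [NeZero N] [NeZero (N / l)] {b t τ κ cs : ℝ} {K : Type*} [Fintype K]

lemma neu_tr {A : Matrix K (V (N / l)) ℝ} (hA : ∀ k, Neu (A k)) (φ : K → ℝ) :
    Neu (Aᵀ *ᵥ φ) := by
  unfold H963.Neu
  have e1 : ∀ c, (Aᵀ *ᵥ φ) c = ∑ k, A k c * φ k := fun c => rfl
  simp only [e1]
  rw [Finset.sum_comm]
  refine Finset.sum_eq_zero fun k _ => ?_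
  rw [← Finset.sum_mul]
  have h3 : ∑ c, A k c = 0 := hA k
  rw [h3, zero_mul]

/-- the bare resolvent of the cells, mass `κ / N²` -/
abbrev R0 (N l : ℕ) [NeZero (N / l)] (κ : ℝ) : Matrix (V (N / l)) (V (N / l)) ℝ :=
  Rk (κ / (N : ℝ) ^ 2) (κ / (l : ℝ) ^ 2)

lemma Hb_neu (hl : l ∣ N) (hτ : 0 < τ) (h : τ ≤ t) (hκ : 0 < κ) {u : V (N / l) → ℝ}
    (hu : Neu u) : qf (Hb N l t τ κ) ((cobV N l)ᵀ *ᵥ u) ≤ 2 * qf (R0 N l κ) u := by
  have hl0 : (0 : ℝ) < l := by exact_mod_cast l_pos hl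
  have hN : (0 : ℝ) < N := by exact_mod_cast NeZero.pos N
  refine (Hb_cell hl hτ h hκ u).trans ?_
  have h1 := Rk_neu (n := N / l) (κ := κ / (l : ℝ) ^ 2) hτ (by positivity) hu
  have e : κ / (l : ℝ) ^ 2 / ((N / l : ℕ) : ℝ) ^ 2 = κ / (N : ℝ) ^ 2 := by
    rw [Nat.cast_div hl hl0.ne']
    field_simp
  rwa [e] at h1

/-- **tail of the cell field, source zero, neutral rows, any prior mass** -/
theorem tail0_gen (hb : 0 ≤ b) (hl : l ∣ N) (hτ : 0 < τ) (h : τ ≤ t) (hκ : 0 < κ)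
    (hcs0 : 0 ≤ cs) (hcs : κ * (b + 12 * max b 1 ^ 2 * cs ^ 2) ≤ 1) (hcs1 : cs ≤ 1) (x₀ : V N)
    {A : Matrix K (V (N / l)) ℝ} (hAn : ∀ k, Neu (A k)) {θ a a0 : ℝ} (hθ : 0 ≤ θ) (ha : 0 ≤ a)
    (ha0 : 0 ≤ a0) (hA : ∀ φ : K → ℝ, ∑ c, (Aᵀ *ᵥ φ) c ^ 2 ≤ a0 * ∑ k, φ k ^ 2)
    (h1 : ∀ φ : K → ℝ, 2 * θ * qf (R0 N l κ) (Aᵀ *ᵥ φ) ≤ (∑ k, φ k ^ 2) / 2)
    (hρ : Gam0 N t κ * (a0 * (2 * θ * (θ * a + 2 * Fintype.card K))) ≤ cs ^ 2) :
    Ex (nMC N l b t τ x₀) 0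
      ({h : V N → ℤ | a ≤ ∑ k, ((A * cobV N l) *ᵥ re h) k ^ 2}.indicator fun _ => (1 : ℝ)) ≤
      2 * Real.exp (2 * θ * ∑ k, qf (R0 N l κ) (A k) - θ * a / 2) := by
  have hE := H963.em_nMC (N := N) hb hl hτ h x₀
  have hG := Gam0_nonneg (N := N) (T := t) (κ := κ)
  have hM := H963.mf_MC (N := N) hl hτ h
  have hmain := htB_base hE (J := 0) (H789.Rs_nonneg hE (H963.ev_nMC hb t τ x₀)
    (H963.pk_nMC hb hl hτ h x₀) _) (H := Hb N l t τ κ) (c := 0)
    (res_symm (MC_tr N l t τ)) (A * cobV N l) (fun φ => Hb_psd hl hτ h hκ _) hθ ha le_rfl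
    (fun φ hφ => ?_) (fun φ => ?_)
  · have e1 : ∀ h : V N → ℤ, re h - Hb N l t τ κ *ᵥ 0 = re h := fun h => by
      rw [Matrix.mulVec_zero, sub_zero]
    simp only [e1] at hmain
    refine hmain.trans (mul_le_mul_of_nonneg_left (Real.exp_le_exp.2 ?_) zero_le_two)
    have e2 : cB (nMC N l b t τ x₀) (Hb N l t τ κ) 0 (0 : V N → ℝ) = 0 := by
      unfold cB
      simp [qf_zero_vec]
    rw [e2, zero_add]
    have h6 : (A * cobV N l * Hb N l t τ κ * (A * cobV N l)ᵀ).trace ≤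
        ∑ k, 2 * qf (R0 N l κ) (A k) := by
      rw [Matrix.trace]
      refine Finset.sum_le_sum fun k _ => ?_
      have e3 : (A * cobV N l * Hb N l t τ κ * (A * cobV N l)ᵀ) k k =
          qf (Hb N l t τ κ) ((cobV N l)ᵀ *ᵥ (A k)) := by
        classical
        have e2 := H816.qf_congr_mul (A * cobV N l) (Hb N l t τ κ) (Pi.single k 1)
        rw [mulT] at e2
        have e3 : Aᵀ *ᵥ Pi.single k (1 : ℝ) = A k := by
          rw [mulVec_single_one]
          rfl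
        rw [e3] at e2
        rw [← e2, qf_eq, mulVec_single_one, single_one_dotProduct]
        rfl
      rw [diag_apply, e3]
      exact Hb_neu hl hτ h hκ (hAn k)
    rw [← Finset.mul_sum] at h6
    have h7 := mul_le_mul_of_nonneg_left h6 hθ
    linarith
  · rw [zero_add, zero_add]
    have h2 := H963.neu_cobV_tr hl (neu_tr hAn φ)
    refine dom_neu hb hM x₀ hκ hcs hcs1 _ (by rw [mulT]; exact h2) fun x s => ?_
    rw [mulT]
    refine abs_le_of_sq_le_sq ((edge_neu hM hκ (hτ.le.trans h)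
      (fun u => qf_MC_le hl h u) h2 x s).trans ?_) hcs0
    rw [sum_sq_cobV_tr hl]
    refine le_trans ?_ hρ
    exact mul_le_mul_of_nonneg_left ((hA φ).trans (mul_le_mul_of_nonneg_left hφ ha0)) hG
  · rw [mulT]
    refine le_trans ?_ (h1 φ)
    have := mul_le_mul_of_nonneg_left (Hb_neu (t := t) hl hτ h hκ (neu_tr hAn φ)) hθ
    linarith

/-- **tail of the cell field**, `k₂` = norm, `r₂` = trace of `A R0 Aᵀ` -/
theorem tail0 (hb : 0 ≤ b) (hl : l ∣ N) (hτ : 0 < τ) (h : τ ≤ t) (hκ : 0 < κ)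
    (hcs0 : 0 ≤ cs) (hcs : κ * (b + 12 * max b 1 ^ 2 * cs ^ 2) ≤ 1) (hcs1 : cs ≤ 1) (x₀ : V N)
    {A : Matrix K (V (N / l)) ℝ} (hAn : ∀ k, Neu (A k)) {ρ a0 k₂ r₂ : ℝ} (hρ0 : 0 ≤ ρ)
    (ha0 : 0 ≤ a0) (hA : ∀ φ : K → ℝ, ∑ c, (Aᵀ *ᵥ φ) c ^ 2 ≤ a0 * ∑ k, φ k ^ 2)
    (hk : 0 < k₂) (h1 : ∀ φ : K → ℝ, qf (R0 N l κ) (Aᵀ *ᵥ φ) ≤ k₂ * ∑ k, φ k ^ 2)
    (hr : ∑ k, qf (R0 N l κ) (A k) ≤ r₂)
    (hρ : Gam0 N t κ * (a0 / (2 * k₂) * (ρ / (4 * k₂) + 2 * Fintype.card K)) ≤ cs ^ 2) :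
    Ex (nMC N l b t τ x₀) 0
      ({h : V N → ℤ | ρ ≤ ∑ k, ((A * cobV N l) *ᵥ re h) k ^ 2}.indicator fun _ => (1 : ℝ)) ≤
      2 * Real.exp (r₂ / (2 * k₂) - ρ / (8 * k₂)) := by
  refine (tail0_gen hb hl hτ h hκ hcs0 hcs hcs1 x₀ hAn (θ := 1 / (4 * k₂)) (by positivity) hρ0 ha0
    hA (fun φ => ?_) ?_).trans ?_
  · have h2 := mul_le_mul_of_nonneg_left (h1 φ) (show 0 ≤ 2 * (1 / (4 * k₂)) by positivity)
    refine h2.trans (le_of_eq ?_)
    field_simp
    norm_num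
  · refine le_trans (le_of_eq ?_) hρ
    field_simp
    ring
  · refine mul_le_mul_of_nonneg_left (Real.exp_le_exp.2 ?_) zero_le_two
    have h2 := mul_le_mul_of_nonneg_left hr (show 0 ≤ 2 * (1 / (4 * k₂)) by positivity)
    refine (sub_le_sub_right h2 _).trans (le_of_eq ?_)
    field_simp
    ring

end tail

end

end Vale.Agent.P159.H896
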