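import Vale.Agent.P159.H789.Closure
import Vale.Agent.P159.H789.Ray

/-!
P159 (helper896): **amplitudes**. If `Rs μ (2 ^ (j + k) J) ≤ 1` then
`Rs μ (2 ^ j J) ≤ 576 16 ^ j (Rs μ J) ^ (1 - 2 ^ (-k))`: a bound of `Rs` at amplitude one gives the
bound at amplitude `2 ^ j` at a polynomial price.
-/

set_option linter.unusedSectionVars false

namespace Vale.Agent.P159.H896

open Finset Matrix
open Vale.Agent.P159.TM.H104 (EM Ex Cv Lg li nh Gr)
open Vale.Agent.P159.H37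

noncomputable section

/-- second differences -/
lemma sum_diff {f : ℕ → ℝ} {E : ℝ} (hE : 0 ≤ E) (h0 : f 0 = 0) {m : ℕ}
    (h : ∀ i, i + 2 ≤ m → f (i + 2) - 2 * f (i + 1) + f i ≤ E) {i : ℕ} (hi : i ≤ m) :
    f i ≤ i * f 1 + (i : ℝ) ^ 2 / 2 * E := by
  have hd : ∀ i, i + 1 ≤ m → f (i + 1) - f i ≤ f 1 + i * E := by
    intro i
    induction i with
    | zero =>
      intro _
      rw [h0]
      simp
    | succ i ih =>
      intro hi
      have h1 := ih (by omega)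
      have h2 := h i (by omega)
      push_cast
      linarith
  induction i with
  | zero =>
    rw [h0]
    simp
  | succ i ih =>
    have h1 := ih (by omega)
    have h2 := hd i hi
    push_cast
    nlinarith

variable {V : Type*} [Fintype V] {μ : (V → ℤ) → ℝ}

/-- one doubling: `R(n J) ≤ 6 n² √(R(2 n J) R(J))` -/
theorem amp_one (hμ : EM μ) (he : Ev μ) (hK : PK μ) (J : V → ℝ) {n : ℕ} (hn : 1 ≤ n)
    (h : Rs μ ((2 * n : ℝ) • J) ≤ 1) :
    Rs μ ((n : ℝ) • J) ≤ 6 * (n : ℝ) ^ 2 * √(Rs μ ((2 * n : ℝ) • J) * Rs μ J) := by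
  set f : ℕ → ℝ := fun i => Rs μ ((i / 2 : ℝ) • J) with hf
  set R2 := Rs μ ((2 * n : ℝ) • J) with hR2
  set R1 := Rs μ J with hR1
  have hn1 : (1 : ℝ) ≤ n := by exact_mod_cast hn
  have h10 : 0 ≤ R1 := H789.Rs_nonneg hμ he hK J
  have h20 : 0 ≤ R2 := H789.Rs_nonneg hμ he hK _
  have h12 : R1 ≤ R2 := by
    have := H789.Rs_ray_mono hμ he hK J zero_le_one (by linarith : (1 : ℝ) ≤ 2 * n)
    rwa [one_smul] at this
  set S := √(R2 * R1) with hS
  have hS0 : 0 ≤ S := Real.sqrt_nonneg _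
  have h1S : R1 ≤ S := by
    rw [hS]
    refine Real.le_sqrt_of_sq_le ?_
    nlinarith
  have hhalf : Rs μ ((1 / 2 : ℝ) • J) ≤ R1 / 4 := by
    have h1 := H789.Tq_nonneg hμ he hK ((1 / 2 : ℝ) • J)
    rw [H789.Tq_eq, smul_smul] at h1
    norm_num at h1
    norm_num
    linarith
  have hf1 : f 1 = Rs μ ((1 / 2 : ℝ) • J) := by
    simp only [hf, Nat.cast_one]
  have hE : ∀ i, i + 2 ≤ 2 * n → f (i + 2) - 2 * f (i + 1) + f i ≤ 2 * f 1 + 2 * S := by
    intro i hi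
    have hm := H789.met2 hμ he hK ((((i + 1 : ℕ) : ℝ) / 2) • J) ((1 / 2 : ℝ) • J)
    have e1 : (((i + 1 : ℕ) : ℝ) / 2) • J + (1 / 2 : ℝ) • J = (((i + 2 : ℕ) : ℝ) / 2) • J := by
      rw [← add_smul]
      congr 1
      push_cast
      ring
    have e2 : (((i + 1 : ℕ) : ℝ) / 2) • J - (1 / 2 : ℝ) • J = ((i : ℝ) / 2) • J := by
      rw [← sub_smul]
      congr 1
      push_cast
      ring
    rw [e1, e2] at hm
    set D := Rs μ ((((i + 2 : ℕ) : ℝ) / 2) • J) + Rs μ (((i : ℝ) / 2) • J) -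
      2 * Rs μ ((((i + 1 : ℕ) : ℝ) / 2) • J) - 2 * Rs μ ((1 / 2 : ℝ) • J) with hD
    have t1 : Tq μ ((((i + 1 : ℕ) : ℝ) / 2) • J) ≤ R2 := by
      rw [H789.Tq_eq, smul_smul]
      have h3 := H789.Rs_nonneg hμ he hK ((((i + 1 : ℕ) : ℝ) / 2) • J)
      have h4 : Rs μ ((2 * (((i + 1 : ℕ) : ℝ) / 2)) • J) ≤ R2 := by
        refine H789.Rs_ray_mono hμ he hK J (by positivity) ?_
        have : ((i + 1 : ℕ) : ℝ) ≤ ((2 * n : ℕ) : ℝ) := by
          exact_mod_cast (by omega : i + 1 ≤ 2 * n)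
        push_cast at this ⊢
        linarith
      linarith
    have t2 : Tq μ ((1 / 2 : ℝ) • J) ≤ R1 := by
      rw [H789.Tq_eq, smul_smul]
      have h3 := H789.Rs_nonneg hμ he hK ((1 / 2 : ℝ) • J)
      norm_num at h3 ⊢
      linarith
    have p1 := H789.Tq_nonneg hμ he hK ((((i + 1 : ℕ) : ℝ) / 2) • J)
    have p2 := H789.Tq_nonneg hμ he hK ((1 / 2 : ℝ) • J)
    have b1 : Real.exp (Tq μ ((((i + 1 : ℕ) : ℝ) / 2) • J)) - 1 ≤ 2 * R2 := by
      have := H789.exp_sub_one_le_two p1 (t1.trans h)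
      linarith
    have b2 : Real.exp (Tq μ ((1 / 2 : ℝ) • J)) - 1 ≤ 2 * R1 := by
      have := H789.exp_sub_one_le_two p2 (t2.trans (h12.trans h))
      linarith
    have c2 : 0 ≤ Real.exp (Tq μ ((1 / 2 : ℝ) • J)) - 1 := by
      have := Real.one_le_exp p2
      linarith
    have h5 : (Real.exp D - 1) ^ 2 ≤ (2 * S) ^ 2 := by
      refine hm.trans ((mul_le_mul b1 b2 c2 (by positivity)).trans (le_of_eq ?_))
      rw [mul_pow, hS, Real.sq_sqrt (by positivity)]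
      ring
    have h6 : Real.exp D - 1 ≤ 2 * S := (le_abs_self _).trans (abs_le_of_sq_le_sq h5 (by positivity))
    have h7 := Real.add_one_le_exp D
    have e3 : f (i + 2) - 2 * f (i + 1) + f i = D + 2 * f 1 := by
      rw [hf1, hD]
      simp only [hf]
      ring
    rw [e3]
    linarith
  have hf10 : 0 ≤ f 1 := by
    rw [hf1]
    exact H789.Rs_nonneg hμ he hK _
  have h8 := sum_diff (f := f) (E := 2 * f 1 + 2 * S) (by positivity) (by
    simp only [hf, Nat.cast_zero, zero_div, zero_smul]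
    exact H789.Rs_zero μ) hE (i := 2 * n) le_rfl
  have e4 : f (2 * n) = Rs μ ((n : ℝ) • J) := by
    simp only [hf]
    congr 2
    push_cast
    ring
  rw [e4] at h8
  refine h8.trans ?_
  have h9 : f 1 ≤ S / 4 := by
    rw [hf1]
    linarith
  push_cast
  have h11 : (2 * (n : ℝ)) * f 1 ≤ (2 * (n : ℝ)) * (S / 4) :=
    mul_le_mul_of_nonneg_left h9 (by positivity)
  have h12' : (2 * (n : ℝ)) ^ 2 / 2 * (2 * f 1 + 2 * S) ≤ (2 * (n : ℝ)) ^ 2 / 2 * (5 / 2 * S) :=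
    mul_le_mul_of_nonneg_left (by linarith) (by positivity)
  have h13 : (n : ℝ) * S ≤ (n : ℝ) ^ 2 * S := by
    refine mul_le_mul_of_nonneg_right ?_ hS0
    nlinarith
  nlinarith

/-- **amplitudes** -/
theorem amp (hμ : EM μ) (he : Ev μ) (hK : PK μ) (J : V → ℝ) (k : ℕ) :
    ∀ j : ℕ, Rs μ ((2 : ℝ) ^ (j + k) • J) ≤ 1 →
      Rs μ ((2 : ℝ) ^ j • J) ≤ 576 * 16 ^ j * (Rs μ J) ^ (1 - (1 / 2 : ℝ) ^ k) := by
  have hx := H789.Rs_nonneg hμ he hK J
  induction k with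
  | zero =>
    intro j h
    rw [add_zero] at h
    rw [pow_zero, sub_self, Real.rpow_zero, mul_one]
    refine h.trans ?_
    have : (1 : ℝ) ≤ 16 ^ j := one_le_pow₀ (by norm_num)
    linarith
  | succ k ih =>
    intro j h
    have e : j + (k + 1) = (j + 1) + k := by omega
    rw [e] at h
    have h1 := ih (j + 1) h
    have h2 : Rs μ ((2 * ((2 ^ j : ℕ) : ℝ)) • J) ≤ 1 := by
      refine (H789.Rs_ray_mono hμ he hK J (by positivity) ?_).trans h
      push_cast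
      calc (2 : ℝ) * 2 ^ j = 2 ^ (j + 1) := by ring
        _ ≤ 2 ^ (j + 1 + k) := pow_le_pow_right₀ (by norm_num) (by omega)
    have h3 := amp_one hμ he hK J (n := 2 ^ j) Nat.one_le_two_pow h2
    have e2 : (2 : ℝ) * ((2 ^ j : ℕ) : ℝ) = 2 ^ (j + 1) := by
      push_cast
      ring
    rw [e2] at h3
    push_cast at h3
    refine h3.trans ?_
    set x := Rs μ J with hxd
    set α : ℝ := 1 - (1 / 2 : ℝ) ^ k with hα
    have hk1 : (1 / 2 : ℝ) ^ k ≤ 1 := pow_le_one₀ (by norm_num) (by norm_num)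
    have hα0 : 0 ≤ α := by
      rw [hα]
      linarith
    have hβ : (1 - (1 / 2 : ℝ) ^ (k + 1)) = (1 + α) / 2 := by
      rw [hα, pow_succ]
      ring
    have hsq : √(Rs μ ((2 : ℝ) ^ (j + 1) • J) * x) ≤ 24 * 4 ^ (j + 1) * x ^ ((1 + α) / 2) := by
      refine Real.sqrt_le_iff.2 ⟨by positivity, ?_⟩
      have h4 := mul_le_mul_of_nonneg_right h1 hx
      refine h4.trans (le_of_eq ?_)
      have e3 : (x ^ ((1 + α) / 2)) ^ 2 = x ^ α * x := by
        rw [← Real.rpow_natCast, ← Real.rpow_mul hx]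
        have e4 : (1 + α) / 2 * ((2 : ℕ) : ℝ) = α + 1 := by
          push_cast
          ring
        rw [e4, Real.rpow_add_one' hx (by linarith)]
      rw [mul_pow, mul_pow, e3]
      have e5 : ((4 : ℝ) ^ (j + 1)) ^ 2 = 16 ^ (j + 1) := by
        rw [← pow_mul, mul_comm, pow_mul]
        norm_num
      rw [e5]
      ring
    rw [hβ]
    refine (mul_le_mul_of_nonneg_left hsq (by positivity)).trans (le_of_eq ?_)
    have e6 : ((2 : ℝ) ^ j) ^ 2 = 4 ^ j := by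
      rw [← pow_mul, mul_comm, pow_mul]
      norm_num
    have e7 : (16 : ℝ) ^ j = 4 ^ j * 4 ^ j := by
      rw [← mul_pow]
      norm_num
    rw [e6, e7, pow_succ]
    ring

/-- amplitudes, with a bound at amplitude one -/
theorem amp_le (hμ : EM μ) (he : Ev μ) (hK : PK μ) {J : V → ℝ} {k j : ℕ} {η : ℝ}
    (h : Rs μ ((2 : ℝ) ^ (j + k) • J) ≤ 1) (h1 : Rs μ J ≤ η) :
    Rs μ ((2 : ℝ) ^ j • J) ≤ 576 * 16 ^ j * η ^ (1 - (1 / 2 : ℝ) ^ k) := by
  refine (amp hμ he hK J k j h).trans ?_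
  have hk1 : (1 / 2 : ℝ) ^ k ≤ 1 := pow_le_one₀ (by norm_num) (by norm_num)
  exact mul_le_mul_of_nonneg_left (Real.rpow_le_rpow (H789.Rs_nonneg hμ he hK J) h1
    (by linarith)) (by positivity)

end

end Vale.Agent.P159.H896
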