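import Vale.Agent.P159.H896.Comb
import Vale.Agent.P159.H363.NL
import Vale.Agent.P159.H363.Gain
import Vale.Agent.P159.H363.Win

/-!
P159, module CHG (helper896): the combined step (one Gaussian step with change of cells) for a
charge functional, compared with the Gaussian channel `Pg (ah m) (fromCols (ah B) gm)`.
-/

open MeasureTheory Finset Matrix
open Vale.Agent.P159.TM.H104 (EM nh li)
open Vale.Agent.P159.H37 (wM ZM qf bf Zn Zq Un Ev gau gau_sum gau_shift)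
open Vale.Agent.P159.H363 (Pg n2 nl1 memLp_bdd measurable_mulVec)

set_option linter.unusedSectionVars false

namespace Vale.Agent.P159.H896

noncomputable section

variable {V L L' I J K : Type} [Fintype V] [Fintype L] [Fintype L'] [Fintype I] [Fintype J]
  [Fintype K] [DecidableEq L] [DecidableEq L']

variable {M : Matrix V V ℝ} {E0 : Matrix V L ℝ} {ν : ℝ} {A : Matrix L L ℝ} {s : ℝ}
    {ah : Matrix L L ℝ} {gm : Matrix L I ℝ} {E : Matrix L L' ℝ} {Q : Matrix L' L ℝ} {r2 : ℝ}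
    {m : Matrix L L' ℝ} {B : Matrix L J ℝ} {w : (V → ℤ) → ℝ}

/-- the noise of the combined channel -/
def Nz (ah : Matrix L L ℝ) (gm : Matrix L I ℝ) (B : Matrix L J ℝ) : Matrix L (J ⊕ I) ℝ :=
  fromCols (ah * B) gm

lemma Fc_eq (f' : L' → ℝ) (g : J ⊕ I → ℝ) :
    Fc ah gm m B f' (fun j => g (Sum.inl j), fun i => g (Sum.inr i))
      = (ah * m) *ᵥ f' + Nz ah gm B *ᵥ g := by
  have e : g = Sum.elim (fun j => g (Sum.inl j)) (fun i => g (Sum.inr i)) := by
    funext k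
    cases k <;> rfl
  unfold Fc Nz
  conv_rhs => rw [e, fromCols_mulVec_sumElim]
  rw [mulVec_add, mulVec_mulVec, mulVec_mulVec, add_assoc]

lemma int_prod_sum {X : Type*} [NormedAddCommGroup X] [NormedSpace ℝ X]
    (f : (J → ℝ) × (I → ℝ) → X) :
    ∫ p, f p ∂((gau J).prod (gau I))
      = ∫ g, f (fun j => g (Sum.inl j), fun i => g (Sum.inr i)) ∂(gau (J ⊕ I)) :=
  (gau_sum.integral_comp (MeasurableEquiv.measurableEmbedding _) f).symm

lemma itg_prod_sum {X : Type*} [NormedAddCommGroup X]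
    (f : (J → ℝ) × (I → ℝ) → X) :
    Integrable f ((gau J).prod (gau I))
      ↔ Integrable (fun g : J ⊕ I → ℝ => f (fun j => g (Sum.inl j), fun i => g (Sum.inr i)))
          (gau (J ⊕ I)) :=
  (gau_sum.integrable_comp_emb (MeasurableEquiv.measurableEmbedding _) (g := f)).symm

/-- the fine field of the combined step -/
def Ff (ah : Matrix L L ℝ) (gm : Matrix L I ℝ) (m : Matrix L L' ℝ) (B : Matrix L J ℝ)
    (f' : L' → ℝ) (g : J ⊕ I → ℝ) : L → ℝ := (ah * m) *ᵥ f' + Nz ah gm B *ᵥ g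

lemma Ff_meas (f' : L' → ℝ) : Measurable (Ff ah gm m B f') :=
  measurable_const.add (measurable_mulVec _)

theorem CS.Wt_int' (h : CS M E0 ν A s ah gm E Q r2 m B) (hw : WM w M)
    (hw' : WM w (Mlow M E0 ν s Q r2)) (f' : L' → ℝ) :
    Integrable (fun g => Wt w M E0 A (Ff ah gm m B f' g)) (gau (J ⊕ I)) := by
  have h1 := (itg_prod_sum _).1 (h.Wt_int hw hw' f')
  refine h1.congr (Filter.Eventually.of_forall fun g => ?_)
  simp only [Fc_eq]
  rfl

/-- **the combined step in one Gaussian variable** -/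
theorem CS.Ph' (h : CS M E0 ν A s ah gm E Q r2 m B) (hw : WM w M)
    (hw' : WM w (Mlow M E0 ν s Q r2)) (q : ℤ) (f' : L' → ℝ) :
    H896.Ph w (Mlow M E0 ν s Q r2) q (E0 *ᵥ (E *ᵥ f')) =
      (∫ g, ((Wt w M E0 A (Ff ah gm m B f' g) : ℝ) : ℂ) * H896.Ph w M q (E0 *ᵥ Ff ah gm m B f' g)
        ∂(gau (J ⊕ I))) /
      ((∫ g, Wt w M E0 A (Ff ah gm m B f' g) ∂(gau (J ⊕ I)) : ℝ) : ℂ) := by
  rw [h.Ph hw hw' q f', int_prod_sum, int_prod_sum]
  simp only [Fc_eq]
  rfl

/-- tilted probability of a bad set of fine fields -/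
def bt (w : (V → ℤ) → ℝ) (M : Matrix V V ℝ) (E0 : Matrix V L ℝ) (A : Matrix L L ℝ)
    (ah : Matrix L L ℝ) (gm : Matrix L I ℝ) (m : Matrix L L' ℝ) (B : Matrix L J ℝ)
    (Bd : Set (L → ℝ)) (f' : L' → ℝ) : ℝ :=
  (∫ g in (Ff ah gm m B f') ⁻¹' Bd, Wt w M E0 A (Ff ah gm m B f' g) ∂(gau (J ⊕ I))) /
    ∫ g, Wt w M E0 A (Ff ah gm m B f' g) ∂(gau (J ⊕ I))

/-- **comparison of the combined step with the Gaussian channel** -/
theorem CS.near (h : CS M E0 ν A s ah gm E Q r2 m B) (hw : WM w M)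
    (hw' : WM w (Mlow M E0 ν s Q r2)) (hW1 : ∀ F, 1 ≤ Wt w M E0 A F) {Bd : Set (L → ℝ)}
    (hB : MeasurableSet Bd) {η om : ℝ} (hη0 : 0 ≤ η) (hη : ∀ F, F ∉ Bd → Wt w M E0 A F ≤ 1 + η)
    {q : ℤ} (hm : Measurable fun F : L → ℝ => H896.Ph w M q (E0 *ᵥ F))
    (hom : ∀ F : L → ℝ, ‖H896.Ph w M q (E0 *ᵥ F)‖ ≤ om) (f' : L' → ℝ) :
    ‖H896.Ph w (Mlow M E0 ν s Q r2) q (E0 *ᵥ (E *ᵥ f'))
        - Pg (ah * m) (Nz ah gm B) (fun F => H896.Ph w M q (E0 *ᵥ F)) f'‖
      ≤ 2 * η * om + 2 * om * bt w M E0 A ah gm m B Bd f' := by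
  rw [h.Ph' hw hw' q f']
  have h1 := nl1 (μ := gau (J ⊕ I)) (W := fun g => Wt w M E0 A (Ff ah gm m B f' g))
    (B := (Ff ah gm m B f') ⁻¹' Bd) (η := η) (fun g => hW1 _) (h.Wt_int' hw hw' f')
    ((Ff_meas f') hB) hη0 (fun g hg => hη _ hg)
    (ψ := fun g => H896.Ph w M q (E0 *ᵥ Ff ah gm m B f' g))
    ((hm.comp (Ff_meas f')).aestronglyMeasurable) (M := om) (fun g => hom _)
  have h2 : ∫ g, ‖H896.Ph w M q (E0 *ᵥ Ff ah gm m B f' g)‖ ∂(gau (J ⊕ I)) ≤ om := by
    have h3 := integral_mono_of_nonneg (μ := gau (J ⊕ I))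
      (f := fun g => ‖H896.Ph w M q (E0 *ᵥ Ff ah gm m B f' g)‖) (g := fun _ => om)
      (Filter.Eventually.of_forall fun g => norm_nonneg _) (integrable_const _)
      (Filter.Eventually.of_forall fun g => hom _)
    simpa using h3
  refine h1.trans (add_le_add ?_ le_rfl)
  exact mul_le_mul_of_nonneg_left h2 (by positivity)

/-! ### the bad mass -/

lemma bt_nonneg (hW1 : ∀ F, 1 ≤ Wt w M E0 A F) (Bd : Set (L → ℝ)) (f' : L' → ℝ) :
    0 ≤ bt w M E0 A ah gm m B Bd f' := by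
  unfold bt
  refine div_nonneg (integral_nonneg fun g => ?_) (integral_nonneg fun g => ?_)
  · exact zero_le_one.trans (hW1 _)
  · exact zero_le_one.trans (hW1 _)

lemma CS.bt_le_one (h : CS M E0 ν A s ah gm E Q r2 m B) (hw : WM w M)
    (hw' : WM w (Mlow M E0 ν s Q r2)) (hW1 : ∀ F, 1 ≤ Wt w M E0 A F) (Bd : Set (L → ℝ))
    (f' : L' → ℝ) : bt w M E0 A ah gm m B Bd f' ≤ 1 := by
  unfold bt
  have h1 := h.Wt_int' hw hw' f'
  have h2 : 1 ≤ ∫ g, Wt w M E0 A (Ff ah gm m B f' g) ∂(gau (J ⊕ I)) :=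
    H363.one_le_intW (fun g => hW1 _) h1
  rw [div_le_one (by linarith)]
  exact setIntegral_le_integral h1 (Filter.Eventually.of_forall fun g =>
    (zero_le_one.trans (hW1 _) : (0 : ℝ) ≤ _))

/-- the tilted probability is at most the mass -/
lemma CS.bt_le (h : CS M E0 ν A s ah gm E Q r2 m B) (hw : WM w M)
    (hw' : WM w (Mlow M E0 ν s Q r2)) (hW1 : ∀ F, 1 ≤ Wt w M E0 A F) (Bd : Set (L → ℝ))
    (f' : L' → ℝ) : bt w M E0 A ah gm m B Bd f' ≤
      ∫ g in (Ff ah gm m B f') ⁻¹' Bd, Wt w M E0 A (Ff ah gm m B f' g) ∂(gau (J ⊕ I)) := by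
  unfold bt
  have h1 := h.Wt_int' hw hw' f'
  have h2 : 1 ≤ ∫ g, Wt w M E0 A (Ff ah gm m B f' g) ∂(gau (J ⊕ I)) :=
    H363.one_le_intW (fun g => hW1 _) h1
  exact div_le_self (integral_nonneg fun g => zero_le_one.trans (hW1 _)) h2

lemma Ff_meas2 : Measurable fun q : (L' → ℝ) × (J ⊕ I → ℝ) => Ff ah gm m B q.1 q.2 := by
  unfold Ff
  exact ((measurable_mulVec _).comp measurable_fst).add ((measurable_mulVec _).comp measurable_snd)

lemma bt_meas (hWm : Measurable (Wt w M E0 A)) {Bd : Set (L → ℝ)} (hB : MeasurableSet Bd) :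
    Measurable fun f' : L' → ℝ => bt w M E0 A ah gm m B Bd f' := by
  have h1 : Measurable fun f' : L' → ℝ =>
      ∫ g, Wt w M E0 A (Ff ah gm m B f' g) ∂(gau (J ⊕ I)) := by
    apply StronglyMeasurable.measurable
    apply StronglyMeasurable.integral_prod_right'
      (f := fun q : (L' → ℝ) × (J ⊕ I → ℝ) => Wt w M E0 A (Ff ah gm m B q.1 q.2))
    exact (hWm.comp Ff_meas2).stronglyMeasurable
  have h2 : Measurable fun f' : L' → ℝ =>
      ∫ g in (Ff ah gm m B f') ⁻¹' Bd, Wt w M E0 A (Ff ah gm m B f' g) ∂(gau (J ⊕ I)) := by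
    have e : ∀ f' : L' → ℝ,
        ∫ g in (Ff ah gm m B f') ⁻¹' Bd, Wt w M E0 A (Ff ah gm m B f' g) ∂(gau (J ⊕ I))
          = ∫ g, Bd.indicator (Wt w M E0 A) (Ff ah gm m B f' g) ∂(gau (J ⊕ I)) := by
      intro f'
      rw [← integral_indicator ((Ff_meas f') hB)]
      rfl
    simp only [e]
    apply StronglyMeasurable.measurable
    apply StronglyMeasurable.integral_prod_right'
      (f := fun q : (L' → ℝ) × (J ⊕ I → ℝ) => Bd.indicator (Wt w M E0 A) (Ff ah gm m B q.1 q.2))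
    exact ((hWm.indicator hB).comp Ff_meas2).stronglyMeasurable
  unfold bt
  exact h2.div h1

/-- **the mean bad mass in a law of the coarse field is at most the bad mass of the fine field** -/
theorem CS.bt_mean (h : CS M E0 ν A s ah gm E Q r2 m B) (hw : WM w M)
    (hw' : WM w (Mlow M E0 ν s Q r2)) (hW1 : ∀ F, 1 ≤ Wt w M E0 A F)
    (hWm : Measurable (Wt w M E0 A)) {Bd : Set (L → ℝ)} (hB : MeasurableSet Bd)
    (C' : Matrix L' K ℝ) {K' : Type} [Fintype K'] (C : Matrix L K' ℝ)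
    (hC : fromCols ((ah * m) * C') (Nz ah gm B) * (fromCols ((ah * m) * C') (Nz ah gm B))ᵀ
      = C * Cᵀ) (hi : Integrable (fun g => Wt w M E0 A (C *ᵥ g)) (gau K')) :
    ∫ b, bt w M E0 A ah gm m B Bd (C' *ᵥ b) ∂(gau K)
      ≤ ∫ g in (fun g => C *ᵥ g) ⁻¹' Bd, Wt w M E0 A (C *ᵥ g) ∂(gau K') := by
  set X : Matrix L (K ⊕ (J ⊕ I)) ℝ := fromCols ((ah * m) * C') (Nz ah gm B) with hX
  have hWs : StronglyMeasurable (Bd.indicator (Wt w M E0 A)) :=
    (hWm.indicator hB).stronglyMeasurable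
  have hlaw := H363.law_eq X C hC
  have i1 : Integrable (Wt w M E0 A) ((gau K').map fun g => C *ᵥ g) :=
    (integrable_map_measure hWm.aestronglyMeasurable (measurable_mulVec C).aemeasurable).2 hi
  have i2 : Integrable (Bd.indicator (Wt w M E0 A)) ((gau K').map fun g => C *ᵥ g) :=
    i1.indicator hB
  have i3 : Integrable (fun g => Bd.indicator (Wt w M E0 A) (X *ᵥ g)) (gau (K ⊕ (J ⊕ I))) := by
    rw [← hlaw] at i2
    exact (integrable_map_measure hWs.aestronglyMeasurable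
      (measurable_mulVec X).aemeasurable).1 i2
  have e0 : ∫ g in (fun g => C *ᵥ g) ⁻¹' Bd, Wt w M E0 A (C *ᵥ g) ∂(gau K')
      = ∫ g, Bd.indicator (Wt w M E0 A) (C *ᵥ g) ∂(gau K') := by
    rw [← integral_indicator ((measurable_mulVec C) hB)]
    rfl
  have e1 : ∀ (b : K → ℝ) (g : J ⊕ I → ℝ), X *ᵥ Sum.elim b g = Ff ah gm m B (C' *ᵥ b) g := by
    intro b g
    rw [hX, fromCols_mulVec_sumElim]
    unfold Ff
    rw [mulVec_mulVec]
  have i4 : Integrable (fun b => ∫ g, Bd.indicator (Wt w M E0 A) (Ff ah gm m B (C' *ᵥ b) g)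
      ∂(gau (J ⊕ I))) (gau K) := by
    have h5 := (itg_prod_sum (I := J ⊕ I) (J := K) (X := ℝ)
      (fun p : (K → ℝ) × (J ⊕ I → ℝ) =>
        Bd.indicator (Wt w M E0 A) (X *ᵥ Sum.elim p.1 p.2))).2 (by
        refine i3.congr (Filter.Eventually.of_forall fun g => ?_)
        simp only
        congr 2
        funext k
        cases k <;> rfl)
    simpa only [e1] using h5.integral_prod_left
  rw [e0, ← H363.law_integral_eq X C hC _ hWs, H363.integral_gau_sum _ i3]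
  simp only [e1]
  refine integral_mono_of_nonneg (Filter.Eventually.of_forall fun b => bt_nonneg hW1 Bd _) i4
    (Filter.Eventually.of_forall fun b => ?_)
  refine (h.bt_le hw hw' hW1 Bd _).trans (le_of_eq ?_)
  rw [← integral_indicator ((Ff_meas _) hB)]
  rfl

/-- **comparison in `L²`** -/
theorem CS.near2 (h : CS M E0 ν A s ah gm E Q r2 m B) (hw : WM w M)
    (hw' : WM w (Mlow M E0 ν s Q r2)) (hW1 : ∀ F, 1 ≤ Wt w M E0 A F)
    (hWm : Measurable (Wt w M E0 A)) {Bd : Set (L → ℝ)}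
    (hB : MeasurableSet Bd) {η om β : ℝ} (hη0 : 0 ≤ η) (hη : ∀ F, F ∉ Bd → Wt w M E0 A F ≤ 1 + η)
    {q : ℤ} (hm : Measurable fun F : L → ℝ => H896.Ph w M q (E0 *ᵥ F))
    (hm' : Measurable fun f' : L' → ℝ => H896.Ph w (Mlow M E0 ν s Q r2) q (E0 *ᵥ (E *ᵥ f')))
    (hom : ∀ F : L → ℝ, ‖H896.Ph w M q (E0 *ᵥ F)‖ ≤ om) (C' : Matrix L' K ℝ)
    (hβ : ∫ b, bt w M E0 A ah gm m B Bd (C' *ᵥ b) ∂(gau K) ≤ β) :
    n2 (gau K) (fun b => H896.Ph w (Mlow M E0 ν s Q r2) q (E0 *ᵥ (E *ᵥ (C' *ᵥ b)))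
        - Pg (ah * m) (Nz ah gm B) (fun F => H896.Ph w M q (E0 *ᵥ F)) (C' *ᵥ b))
      ≤ 2 * om * (η + √β) := by
  have hom0 : 0 ≤ om := (norm_nonneg _).trans (hom 0)
  have hbm := (bt_meas (ah := ah) (gm := gm) (m := m) (B := B) hWm hB).comp (measurable_mulVec C')
  have hb0 := fun b => bt_nonneg (ah := ah) (gm := gm) (m := m) (B := B) hW1 Bd (C' *ᵥ b)
  have hb1 := fun b => h.bt_le_one hw hw' hW1 Bd (C' *ᵥ b)
  have hbi : Integrable (fun b => bt w M E0 A ah gm m B Bd (C' *ᵥ b)) (gau K) :=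
    Integrable.of_bound (C := 1) hbm.aestronglyMeasurable
      (Filter.Eventually.of_forall fun b => by
        rw [Real.norm_eq_abs, abs_of_nonneg (hb0 b)]
        exact hb1 b)
  have hβ0 : 0 ≤ β := (integral_nonneg hb0).trans hβ
  set u : (K → ℝ) → ℂ := fun b => H896.Ph w (Mlow M E0 ν s Q r2) q (E0 *ᵥ (E *ᵥ (C' *ᵥ b)))
        - Pg (ah * m) (Nz ah gm B) (fun F => H896.Ph w M q (E0 *ᵥ F)) (C' *ᵥ b) with hu
  have hnear : ∀ b, ‖u b‖ ≤ 2 * η * om + 2 * om * bt w M E0 A ah gm m B Bd (C' *ᵥ b) := fun b =>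
    h.near hw hw' hW1 hB hη0 hη hm hom (C' *ᵥ b)
  have humeas : Measurable u :=
    (hm'.comp (measurable_mulVec C')).sub ((H363.measurable_Pg hm).comp (measurable_mulVec C'))
  have hmem : MemLp u 2 (gau K) := memLp_bdd humeas.aestronglyMeasurable
    (C := 2 * η * om + 2 * om * 1) fun b => (hnear b).trans (add_le_add le_rfl
      (mul_le_mul_of_nonneg_left (hb1 b) (by positivity)))
  rw [H363.n2_le hmem (by positivity)]
  have hs := Real.sqrt_nonneg β
  have hc2 : Integrable (fun b => (2 * (2 * η * om) * (2 * om) + (2 * om) ^ 2)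
      * bt w M E0 A ah gm m B Bd (C' *ᵥ b)) (gau K) := hbi.const_mul _
  calc ∫ b, ‖u b‖ ^ 2 ∂(gau K)
      ≤ ∫ b, ((2 * η * om) ^ 2 + (2 * (2 * η * om) * (2 * om) + (2 * om) ^ 2)
          * bt w M E0 A ah gm m B Bd (C' *ᵥ b)) ∂(gau K) := by
        refine integral_mono_of_nonneg (Filter.Eventually.of_forall fun b => by positivity)
          ((integrable_const _).add hc2) (Filter.Eventually.of_forall fun b => ?_)
        simp only
        have h1 := pow_le_pow_left₀ (norm_nonneg _) (hnear b) 2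
        have h2 : bt w M E0 A ah gm m B Bd (C' *ᵥ b) ^ 2 ≤ bt w M E0 A ah gm m B Bd (C' *ᵥ b) := by
          have := mul_le_mul_of_nonneg_left (hb1 b) (hb0 b)
          nlinarith
        have h3 := mul_le_mul_of_nonneg_left h2 (sq_nonneg (2 * om))
        nlinarith
    _ = (2 * η * om) ^ 2 + (2 * (2 * η * om) * (2 * om) + (2 * om) ^ 2) *
          ∫ b, bt w M E0 A ah gm m B Bd (C' *ᵥ b) ∂(gau K) := by
        rw [integral_add (integrable_const _) hc2, integral_const_mul]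
        simp
    _ ≤ (2 * om * (η + √β)) ^ 2 := by
        have h1 : ∫ b, bt w M E0 A ah gm m B Bd (C' *ᵥ b) ∂(gau K) ≤ √β ^ 2 := by
          rw [Real.sq_sqrt hβ0]; exact hβ
        have h2 : ∫ b, bt w M E0 A ah gm m B Bd (C' *ᵥ b) ∂(gau K) ≤ √β := by
          rcases le_total β 1 with hb | hb
          · refine h1.trans ?_
            have : √β ≤ 1 := Real.sqrt_le_one.2 hb
            nlinarith
          · have h5 : ∫ b, bt w M E0 A ah gm m B Bd (C' *ᵥ b) ∂(gau K) ≤ 1 := by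
              have := integral_mono (μ := gau K) hbi (integrable_const (1 : ℝ)) hb1
              simpa using this
            exact h5.trans (Real.one_le_sqrt.2 hb)
        have h3 := mul_le_mul_of_nonneg_left h2
          (by positivity : (0 : ℝ) ≤ 2 * (2 * η * om) * (2 * om))
        have h4 := mul_le_mul_of_nonneg_left h1 (sq_nonneg (2 * om))
        nlinarith

end

end Vale.Agent.P159.H896
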