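import Vale.Agent.P159.H896.Comb2
import Vale.Agent.P159.H363.Brd
import Vale.Agent.P159.H708.Coarse
import Vale.Agent.P159.H889.Vwin

/-!
P159, module CHG (helper896): the combined step on the cell torus: from `MC N l t τ` (cells of side
`l`) to the mass form `t (1 - P_l) + τ' P_{lρ}`, zero on `P_l - P_{lρ}`.
-/

open MeasureTheory Finset Matrix
open Vale.Agent.P159.TM.H104 (EM nh li)
open Vale.Agent.P159.H37 (wM ZM qf bf Zn Zq Un Ev gau cellP)
open Vale.Agent.P159.H363 (Pg n2 pin Nf acl sn lf gm Wcl Rcl)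
open Vale.Agent.P159.H462 (ahat ti_ahat sym_ahat)
open Vale.Agent.P159.H708 (lfM avM m2 Bm Sg Kc pI)
open Vale.Agent.P159.H864 (TI sym MC cobV cl up)
open Vale.Agent.P159.TM.Spec (V)
open Vale.Agent.P159.TM.SpecC (wT)

set_option linter.unusedSectionVars false

namespace Vale.Agent.P159.H896

noncomputable section

variable {N l ρ : ℕ} [NeZero N] [NeZero (N / l)] [NeZero (N / l / ρ)] {b t τ τ' : ℝ}

/-- the form on the coarse cells before the change: `A' = A ahat` -/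
def Ah (N l : ℕ) [NeZero N] [NeZero (N / l)] (b t τ τ' : ℝ) : Matrix (V (N / l)) (V (N / l)) ℝ :=
  acl N l b t τ * ahat (sn l τ τ') (acl N l b t τ)

theorem nf_mul_ahat {n : ℕ} [NeZero n] {A : Matrix (V n) (V n) ℝ} (h : Nf A) {s : ℝ} (hs : 0 ≤ s) :
    Nf (A * ahat s A) where
  ti := h.ti.mul (ti_ahat s A)
  pos := fun k hk => by
    rw [H864.sym_mul h.ti (ti_ahat s A), sym_ahat]
    have h1 := h.pos k hk
    positivity
  zero := by
    rw [H864.sym_mul h.ti (ti_ahat s A), h.zero, zero_mul]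

theorem nf_Ah (hl : l ∣ N) (hτ' : 0 < τ') (h1 : τ' < τ) (hA : Nf (acl N l b t τ)) :
    Nf (Ah N l b t τ τ') :=
  nf_mul_ahat hA (H363.sn_pos hl hτ' h1).le

/-- the mass form after the combined step -/
def Mb (N l ρ : ℕ) [NeZero N] [NeZero (N / l)] [NeZero (N / l / ρ)] (t τ' : ℝ) :
    Matrix (V N) (V N) ℝ :=
  t • (1 - cellP N l) + τ' • ((cobV (N / l) ρ * cobV N l)ᵀ * (cobV (N / l) ρ * cobV N l))

lemma lfM_mulVec (hl : l ∣ N) (F : V (N / l) → ℝ) : lfM N l *ᵥ F = lf N l F := by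
  funext x
  exact H708.lf_mulVec hl F x

theorem cs_tor (hb : 0 ≤ b) (hl : l ∣ N) (hρ : ρ ∣ N / l) (hτ' : 0 < τ') (h1 : τ' < τ)
    (h : τ ≤ t) (hA : Nf (acl N l b t τ)) :
    CS (MC N l t τ) (lfM N l) (τ * (l : ℝ) ^ 2) (acl N l b t τ) (sn l τ τ')
      (ahat (sn l τ τ') (acl N l b t τ)) (gm (sn l τ τ') (acl N l b t τ)) (lfM (N / l) ρ)
      (avM (N / l) ρ) ((ρ : ℝ) ^ 2) (m2 ρ (Ah N l b t τ τ')) (Bm ρ (Ah N l b t τ τ')) := by
  have hτ : 0 < τ := hτ'.trans h1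
  have hlp : (0 : ℝ) < l := by exact_mod_cast H864.l_pos hl
  have hρp : (0 : ℝ) < ρ := by exact_mod_cast H864.l_pos hρ
  have htA : TI (acl N l b t τ) := H363.ti_acl hb hl hτ h
  have hs0 := H363.sn_pos hl hτ' h1
  have hnf := nf_Ah (t := t) hl hτ' h1 hA
  refine ⟨H864.MC_tr N l t τ, fun u => ?_, by positivity, ?_, htA.transpose,
    H363.qf_acl_nonneg hb hl hτ h, fun u => ?_, hs0,
    H363.gm_mul0 htA (H363.sym_acl_nonneg hb hl hτ h) hs0.le,
    H363.ahat_mul0 htA (H363.sym_acl_nonneg hb hl hτ h) hs0.le, ?_, H708.av_lf hρ, ?_,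
    H708.av_m2 hρ hnf, ?_, ?_, fun y hy => ?_⟩
  · exact le_trans (mul_nonneg hτ.le (Finset.sum_nonneg fun _ _ => sq_nonneg _))
      (H864.qf_MC_ge hl h u)
  · unfold lfM
    rw [transpose_smul, transpose_transpose, Matrix.smul_mul, H864.cobV_mul_MC hl, Matrix.smul_mul,
      Matrix.smul_mul, Matrix.mul_smul, H864.cobV_mul_tr hl, smul_smul, smul_smul]
    congr 1
    ring
  · have h3 := (H864.qf_le_iff htA (TI.one.smul (τ * (l : ℝ) ^ 2))).2 (fun k => by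
      rw [H864.sym_smul, H864.sym_one, mul_one]
      exact H363.sym_acl_le hb hl hτ h k) u
    refine h3.trans (le_of_eq ?_)
    rw [H37.qf_eq, smul_mulVec, one_mulVec, dotProduct_smul, smul_eq_mul]
  · rw [H708.lf_av hρ]
    exact H864.cellP_tr _ _
  · have e1 : (lfM (N / l) ρ)ᵀ = ((ρ : ℝ) ^ 2) • avM (N / l) ρ := by
      have h2 := congrArg Matrix.transpose (H708.avT_eq (N := N / l) hρ)
      rw [transpose_transpose, transpose_smul] at h2
      rw [h2, smul_smul, mul_inv_cancel₀ (by positivity), one_smul]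
    rw [e1, Matrix.smul_mul, H708.av_lf hρ]
  · unfold Bm
    rw [← Matrix.mul_assoc, H708.av_Sg hρ hnf, Matrix.zero_mul]
  · have e1 : (Bm ρ (Ah N l b t τ τ'))ᵀ = (H708.rt (Ah N l b t τ τ'))ᵀ * Sg ρ (Ah N l b t τ τ') := by
      unfold Bm
      rw [transpose_mul, H708.Sg_tr hρ hnf]
    have e2 : acl N l b t τ * ahat (sn l τ τ') (acl N l b t τ) = Ah N l b t τ τ' := rfl
    rw [e1, e2, Matrix.mul_assoc, Matrix.mul_assoc, H708.A_m2 hρ hnf,
      ← Matrix.mul_assoc (Sg ρ (Ah N l b t τ τ')), H708.Sg_avT hρ hnf, Matrix.zero_mul,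
      Matrix.mul_zero]
  · have e2 : acl N l b t τ * ahat (sn l τ τ') (acl N l b t τ) = Ah N l b t τ τ' := rfl
    have e3 : Sg ρ (Ah N l b t τ τ') * Ah N l b t τ τ'
        = 1 - m2 ρ (Ah N l b t τ τ') * avM (N / l) ρ := by
      have h4 := congrArg Matrix.transpose (H708.A_Sg hρ hnf)
      rw [transpose_mul, H708.Sg_tr hρ hnf, hnf.ti.transpose, transpose_sub, transpose_one,
        transpose_mul, transpose_transpose, transpose_transpose] at h4
      exact h4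
    rw [mulVec_mulVec, H708.Bm_mul hρ hnf, e2, mulVec_mulVec, e3, sub_mulVec, one_mulVec,
      ← mulVec_mulVec, hy, mulVec_zero, sub_zero]

/-- the mass form -/
theorem Mlow_tor (hl : l ∣ N) (hρ : ρ ∣ N / l) (hτ' : 0 < τ') (h1 : τ' < τ) :
    Mlow (MC N l t τ) (lfM N l) (τ * (l : ℝ) ^ 2) (sn l τ τ') (avM (N / l) ρ) ((ρ : ℝ) ^ 2)
      = Mb N l ρ t τ' := by
  have hτ : 0 < τ := hτ'.trans h1
  have hlp : (0 : ℝ) < l := by exact_mod_cast H864.l_pos hl
  have hρp : (0 : ℝ) < ρ := by exact_mod_cast H864.l_pos hρ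
  have e1 : MC N l t τ * lfM N l = ((l : ℝ) * τ) • (cobV N l)ᵀ := by
    unfold lfM
    rw [Matrix.mul_smul, H864.MC_mul_tr hl, smul_smul]
  have e2 : (lfM N l)ᵀ * MC N l t τ = ((l : ℝ) * τ) • cobV N l := by
    have h2 := congrArg Matrix.transpose e1
    rw [transpose_mul, H864.MC_tr, transpose_smul, transpose_transpose] at h2
    exact h2
  have e3 : sn l τ τ' * (τ * (l : ℝ) ^ 2) = (τ'⁻¹ - τ⁻¹) * τ := by
    unfold sn
    field_simp
  have e4 : 1 + sn l τ τ' * (τ * (l : ℝ) ^ 2) = τ / τ' := by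
    rw [e3]
    field_simp
    ring
  unfold Mlow Mb
  rw [e1, e2, e4]
  unfold avM
  rw [transpose_smul, transpose_mul]
  simp only [Matrix.smul_mul, Matrix.mul_smul, smul_smul, ← Matrix.mul_assoc]
  have e5 : (cobV N l)ᵀ * (cobV (N / l) ρ)ᵀ * cobV (N / l) ρ * cobV N l
      = (cobV N l)ᵀ * (cobV (N / l) ρ)ᵀ * cobV (N / l) ρ * cobV N l := rfl
  rw [← H864.cellP_eq hl]
  congr 1
  · have e6 : MC N l t τ = t • (1 - cellP N l) + τ • cellP N l := rfl
    rw [e6]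
    have e7 : (τ * (l : ℝ) ^ 2)⁻¹ * ((l : ℝ) * τ * ((l : ℝ) * τ)) = τ := by
      field_simp
    rw [e7, add_sub_cancel_right]
  · congr 1
    field_simp

/-! ### the weight -/

theorem Wt_eq (hb : 0 ≤ b) (hl : l ∣ N) (hτ : 0 < τ) (h : τ ≤ t) (F : V (N / l) → ℝ) :
    Wt (wT b N) (MC N l t τ) (lfM N l) (acl N l b t τ) F = Wcl N l b t τ F := by
  have hwm := H363.wm_MC (b := b) (N := N) hb hl hτ h
  have h0 := (Zn_pos hwm 0).ne'
  unfold Wt Wcl
  rw [lfM_mulVec hl, H363.Zn_lf hb hl hτ h]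
  have h2 : Real.exp (-(qf (acl N l b t τ) F / 2)) * Real.exp (qf (acl N l b t τ) F / 2) = 1 := by
    rw [← Real.exp_add]; simp
  field_simp
  linear_combination h2

theorem Wt_eq' (hb : 0 ≤ b) (hl : l ∣ N) (hτ : 0 < τ) (h : τ ≤ t) :
    Wt (wT b N) (MC N l t τ) (lfM N l) (acl N l b t τ) = Wcl N l b t τ :=
  funext (Wt_eq hb hl hτ h)

lemma Rcl_const (F : V (N / l) → ℝ) (hl : l ∣ N) (hτ : 0 < τ) (h : τ ≤ t) (c : ℝ) :
    Rcl N l b t τ (fun x => F x + c) = Rcl N l b t τ F := by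
  unfold Rcl
  congr 1
  rw [H363.lf_cs]
  have h1 : (fun v => lf N l F v + c) = lf N l F + c • fun _ => (1 : ℝ) := by
    funext v
    simp
  rw [h1, mulVec_add, mulVec_smul]
  have h2 : H963.ntr (MC N l t τ) τ *ᵥ (fun _ => (1 : ℝ)) = 0 := by
    funext v
    have := H963.ntr_row ((H963.mf_MC hl hτ h).row) v
    simpa [mulVec, dotProduct] using this
  rw [h2, smul_zero, add_zero]

lemma Wcl_const (F : V (N / l) → ℝ) (hl : l ∣ N) (hτ : 0 < τ) (h : τ ≤ t) (c : ℝ) :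
    Wcl N l b t τ (fun x => F x + c) = Wcl N l b t τ F := by
  unfold Wcl
  rw [Rcl_const F hl hτ h c]

/-! ### the law of the fine field over a typical coarse field -/

section law

variable {n : ℕ} [NeZero n] [NeZero (n / ρ)] {A : Matrix (V n) (V n) ℝ} {s : ℝ}

/-- typical law and constant mode -/
def Cst (s : ℝ) (A : Matrix (V n) (V n) ℝ) : Matrix (V n) (V n ⊕ V n) ℝ :=
  fromCols (pin A) (√s • H462.avgM n)

theorem law_comb (hρ : ρ ∣ n) (hA : Nf A) (hs : 0 ≤ s) :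
    fromCols ((ahat s A * m2 ρ (A * ahat s A)) * pin (H708.Ac ρ (A * ahat s A)))
        (Nz (ahat s A) (gm s A) (Bm ρ (A * ahat s A)))
      * (fromCols ((ahat s A * m2 ρ (A * ahat s A)) * pin (H708.Ac ρ (A * ahat s A)))
        (Nz (ahat s A) (gm s A) (Bm ρ (A * ahat s A))))ᵀ
      = Cst s A * (Cst s A)ᵀ := by
  have hnf := nf_mul_ahat hA hs
  set A' := A * ahat s A with hA'
  have ta := ti_ahat s A
  have tg := H363.ti_gm s A
  have e1 : ahat s A * m2 ρ A' * pin (H708.Ac ρ A') * (ahat s A * m2 ρ A' * pin (H708.Ac ρ A'))ᵀ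
      = ahat s A * (m2 ρ A' * Kc ρ A' * (m2 ρ A')ᵀ) * ahat s A := by
    rw [← H708.pI_Ac hρ hnf, ← H708.pI_eq_pin (H708.nf_Ac hρ hnf), transpose_mul, transpose_mul,
      ta.transpose]
    simp only [Matrix.mul_assoc]
  have e2 : ahat s A * Bm ρ A' * (ahat s A * Bm ρ A')ᵀ = ahat s A * Sg ρ A' * ahat s A := by
    rw [← H708.Bm_mul hρ hnf, transpose_mul, ta.transpose]
    simp only [Matrix.mul_assoc]
  have e3 : ahat s A * (m2 ρ A' * Kc ρ A' * (m2 ρ A')ᵀ) * ahat s A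
      + ahat s A * Sg ρ A' * ahat s A = ahat s A * pI A' * ahat s A := by
    rw [← Matrix.add_mul, ← Matrix.mul_add, H708.total_cov]
  unfold Nz Cst
  rw [transpose_fromCols, fromCols_mul_fromRows, transpose_fromCols, fromCols_mul_fromRows,
    transpose_fromCols, fromCols_mul_fromRows, e1, e2, ← add_assoc, e3, H708.pI_eq_pin hA,
    transpose_smul, Matrix.smul_mul, Matrix.mul_smul, smul_smul, Real.mul_self_sqrt hs,
    H462.ti_avgM.transpose, tg.transpose]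
  have tP := H708.ti_pI A'
  have tv : TI (H462.avgM n * H462.avgM n) := H462.ti_avgM.mul H462.ti_avgM
  refine H864.sym_inj (((ta.mul tP).mul ta).add (tg.mul tg)) ((H708.ti_pI A).add (tv.smul s))
    fun k => ?_
  rw [H864.sym_add, H864.sym_mul (ta.mul tP) ta, H864.sym_mul ta tP, H864.sym_mul tg tg,
    H864.sym_add, H864.sym_smul, H864.sym_mul H462.ti_avgM H462.ti_avgM, H708.sym_pI, H708.sym_pI,
    H462.sym_avgM, hA', H864.sym_mul hA.ti ta, sym_ahat]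
  unfold gm
  rw [H864.sym_fc]
  have h0 := hA.nn k
  have hpos : 0 < 1 + s * sym A k := by positivity
  rw [Real.mul_self_sqrt (by positivity)]
  by_cases hk : k = 0
  · rw [if_pos hk, hk, hA.zero]
    simp
  · rw [if_neg hk]
    have h2 := hA.pos k hk
    field_simp
    ring

/-- a function of the field modulo constants in the law `Cst` -/
lemma Cst_fun {X : Type*} {G : (V n → ℝ) → X} (hG : ∀ F c, G (fun x => F x + c) = G F)
    (g : V n ⊕ V n → ℝ) : G (Cst s A *ᵥ g) = G (pin A *ᵥ fun j => g (Sum.inl j)) := by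
  have e : g = Sum.elim (fun j => g (Sum.inl j)) (fun i => g (Sum.inr i)) := by
    funext k
    cases k <;> rfl
  unfold Cst
  conv_lhs => rw [e, fromCols_mulVec_sumElim]
  have h4 : (√s • H462.avgM n) *ᵥ (fun i => g (Sum.inr i))
      = fun _ => √s * ∑ y, ((n : ℝ) ^ 2)⁻¹ * g (Sum.inr y) := by
    rw [smul_mulVec]
    funext x
    rfl
  rw [h4]
  exact hG _ _

lemma Cst_int {G : (V n → ℝ) → ℝ} (hG : ∀ F c, G (fun x => F x + c) = G F) :
    ∫ g, G (Cst s A *ᵥ g) ∂(gau (V n ⊕ V n)) = ∫ g, G (pin A *ᵥ g) ∂(gau (V n)) := by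
  simp only [Cst_fun hG]
  have h1 := int_prod_sum (J := V n) (I := V n) (fun p => G (pin A *ᵥ p.1))
  rw [← h1, integral_fun_fst (μ := gau (V n)) (ν := gau (V n)) fun x => G (pin A *ᵥ x)]
  simp

lemma Cst_itg {G : (V n → ℝ) → ℝ} (hG : ∀ F c, G (fun x => F x + c) = G F)
    (hi : Integrable (fun g => G (pin A *ᵥ g)) (gau (V n))) :
    Integrable (fun g => G (Cst s A *ᵥ g)) (gau (V n ⊕ V n)) := by
  simp only [Cst_fun hG]
  exact (itg_prod_sum (J := V n) (I := V n) (fun p => G (pin A *ᵥ p.1))).1 (hi.comp_fst _)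

end law

/-! ### comparison -/

/-- the form of the coarse cells after the step -/
def Acx (N l ρ : ℕ) [NeZero N] [NeZero (N / l)] [NeZero (N / l / ρ)] (b t τ τ' : ℝ) :
    Matrix (V (N / l / ρ)) (V (N / l / ρ)) ℝ := H708.Ac ρ (Ah N l b t τ τ')

/-- the transported functional: window and change of cells -/
def Pc (N l ρ : ℕ) [NeZero N] [NeZero (N / l)] [NeZero (N / l / ρ)] (b t τ τ' : ℝ)
    (W : (V (N / l) → ℝ) → ℂ) : (V (N / l / ρ) → ℝ) → ℂ :=
  Pg (m2 ρ (Ah N l b t τ τ')) (Bm ρ (Ah N l b t τ τ'))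
    (Pg (ahat (sn l τ τ') (acl N l b t τ)) (gm (sn l τ τ') (acl N l b t τ)) W)

lemma Pc_eq {W : (V (N / l) → ℝ) → ℂ} (hW : Measurable W) {C : ℝ} (hC : ∀ F, ‖W F‖ ≤ C)
    (f' : V (N / l / ρ) → ℝ) :
    Pc N l ρ b t τ τ' W f' = Pg (ahat (sn l τ τ') (acl N l b t τ) * m2 ρ (Ah N l b t τ τ'))
      (Nz (ahat (sn l τ τ') (acl N l b t τ)) (gm (sn l τ τ') (acl N l b t τ))
        (Bm ρ (Ah N l b t τ τ'))) W f' :=
  H889.Pg_comp _ _ _ _ hW hC f'

/-- lift of a field on the coarse cells -/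
def lf2 (N l ρ : ℕ) [NeZero N] [NeZero (N / l)] [NeZero (N / l / ρ)] (f' : V (N / l / ρ) → ℝ) :
    V N → ℝ := lf N l (lfM (N / l) ρ *ᵥ f')

lemma lf2_apply (hρ : ρ ∣ N / l) (f' : V (N / l / ρ) → ℝ) (v : V N) :
    lf2 N l ρ f' v = f' (cl (cl v : V (N / l))) := H708.lf_mulVec hρ f' _

lemma continuous_lf2 : Continuous (lf2 N l ρ) :=
  H363.continuous_lf.comp (Continuous.matrix_mulVec continuous_const continuous_id)

/-- `L²` norm of a function which is small on a good set -/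
lemma n2_good {α : Type*} [MeasurableSpace α] {μ : Measure α} [IsProbabilityMeasure μ] {u : α → ℂ}
    (hu : Measurable u) {B d π0 : ℝ} (hB : ∀ a, ‖u a‖ ≤ B) (hB0 : 0 ≤ B) (hd : 0 ≤ d)
    {X : Set α} (hX : MeasurableSet X) (hg : ∀ a, a ∉ X → ‖u a‖ ≤ d) (hπ : μ.real X ≤ π0) :
    n2 μ u ≤ d + B * √π0 := by
  have hπ0 : 0 ≤ π0 := measureReal_nonneg.trans hπ
  have hmem : MemLp u 2 μ := H363.memLp_bdd hu.aestronglyMeasurable hB
  rw [H363.n2_le hmem (by positivity)]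
  have hpt : ∀ a, ‖u a‖ ^ 2 ≤ d ^ 2 + X.indicator (fun _ => B ^ 2) a := by
    intro a
    by_cases ha : a ∈ X
    · rw [Set.indicator_of_mem ha]
      have := pow_le_pow_left₀ (norm_nonneg _) (hB a) 2
      nlinarith [sq_nonneg d]
    · rw [Set.indicator_of_notMem ha, add_zero]
      exact pow_le_pow_left₀ (norm_nonneg _) (hg a ha) 2
  have hint : Integrable (X.indicator fun _ => B ^ 2) μ := (integrable_const _).indicator hX
  calc ∫ a, ‖u a‖ ^ 2 ∂μ ≤ ∫ a, (d ^ 2 + X.indicator (fun _ => B ^ 2) a) ∂μ :=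
        integral_mono_of_nonneg (Filter.Eventually.of_forall fun a => by positivity)
          ((integrable_const _).add hint) (Filter.Eventually.of_forall hpt)
    _ = d ^ 2 + μ.real X * B ^ 2 := by
        rw [integral_add (integrable_const _) hint, integral_indicator hX, setIntegral_const]
        simp
    _ ≤ d ^ 2 + π0 * B ^ 2 := by
        have := mul_le_mul_of_nonneg_right hπ (sq_nonneg B)
        linarith
    _ ≤ (d + B * √π0) ^ 2 := by
        have h7 : √π0 ^ 2 = π0 := Real.sq_sqrt hπ0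
        have h8 : 0 ≤ d * (B * √π0) := by positivity
        nlinarith

lemma mPc {X : (V (N / l) → ℝ) → ℂ} (hX : Measurable X) : Measurable (Pc N l ρ b t τ τ' X) :=
  H363.measurable_Pg (H363.measurable_Pg hX)

lemma bPc {X : (V (N / l) → ℝ) → ℂ} {C : ℝ} (hX : ∀ F, ‖X F‖ ≤ C) (f' : V (N / l / ρ) → ℝ) :
    ‖Pc N l ρ b t τ τ' X f'‖ ≤ C := H363.norm_Pg_le (fun F => H363.norm_Pg_le hX F) f'

lemma Pc_sub {X Y : (V (N / l) → ℝ) → ℂ} (mX : Measurable X) (mY : Measurable Y) {C C' e : ℝ}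
    (hX : ∀ F, ‖X F‖ ≤ C) (hY : ∀ F, ‖Y F‖ ≤ C') (he : ∀ F, ‖X F - Y F‖ ≤ e)
    (f' : V (N / l / ρ) → ℝ) :
    ‖Pc N l ρ b t τ τ' X f' - Pc N l ρ b t τ τ' Y f'‖ ≤ e := by
  rw [Pc_eq mX hX, Pc_eq mY hY]
  generalize ahat (sn l τ τ') (acl N l b t τ) * m2 ρ (Ah N l b t τ τ') = P
  generalize Nz (ahat (sn l τ τ') (acl N l b t τ)) (gm (sn l τ τ') (acl N l b t τ))
    (Bm ρ (Ah N l b t τ τ')) = R
  have h2 : Pg P R X f' - Pg P R Y f' = ∫ g, (X (P *ᵥ f' + R *ᵥ g) - Y (P *ᵥ f' + R *ᵥ g))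
      ∂(gau (V (N / l) ⊕ V (N / l))) :=
    (integral_sub (H363.integrable_Pg mX hX f') (H363.integrable_Pg mY hY f')).symm
  rw [h2]
  have := norm_integral_le_of_norm_le_const (μ := gau (V (N / l) ⊕ V (N / l)))
    (f := fun g => X (P *ᵥ f' + R *ᵥ g) - Y (P *ᵥ f' + R *ᵥ g)) (C := e)
    (Filter.Eventually.of_forall fun g => he _)
  simpa using this

section near

variable (hb : 0 ≤ b) (hl : l ∣ N) (hρ : ρ ∣ N / l) (hτ' : 0 < τ') (h1 : τ' < τ) (h : τ ≤ t)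
  (hA : Nf (acl N l b t τ)) (hM : WM (wT b N) (Mb N l ρ t τ'))

include hb hl hρ hτ' h1 h hA hM

/-- the tilted mean of the combined step -/
theorem Ph_Mb (q : ℤ) (f' : V (N / l / ρ) → ℝ) :
    Ph (wT b N) (Mb N l ρ t τ') q (lf2 N l ρ f')
      = (∫ g, ((Wcl N l b t τ (Ff (ahat (sn l τ τ') (acl N l b t τ))
            (gm (sn l τ τ') (acl N l b t τ)) (m2 ρ (Ah N l b t τ τ')) (Bm ρ (Ah N l b t τ τ'))
            f' g) : ℝ) : ℂ) * Ph (wT b N) (MC N l t τ) q (lf N l (Ff (ahat (sn l τ τ')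
            (acl N l b t τ)) (gm (sn l τ τ') (acl N l b t τ)) (m2 ρ (Ah N l b t τ τ'))
            (Bm ρ (Ah N l b t τ τ')) f' g)) ∂(gau (V (N / l) ⊕ V (N / l)))) /
        ((∫ g, Wcl N l b t τ (Ff (ahat (sn l τ τ') (acl N l b t τ))
            (gm (sn l τ τ') (acl N l b t τ)) (m2 ρ (Ah N l b t τ τ')) (Bm ρ (Ah N l b t τ τ'))
            f' g) ∂(gau (V (N / l) ⊕ V (N / l))) : ℝ) : ℂ) := by
  have hτ : 0 < τ := hτ'.trans h1
  have hcs := cs_tor hb hl hρ hτ' h1 h hA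
  have hwm := H363.wm_MC (b := b) (N := N) hb hl hτ h
  have h2 := hcs.Ph' hwm (by rw [Mlow_tor hl hρ hτ' h1]; exact hM) q f'
  rw [Mlow_tor hl hρ hτ' h1, Wt_eq' hb hl hτ h] at h2
  simp only [lfM_mulVec hl] at h2
  exact h2

/-- the charge numbers decrease -/
theorem om_Mb_le (q : ℤ) :
    om (wT b N) (Mb N l ρ t τ') q ≤ om (wT b N) (MC N l t τ) q := by
  have hτ : 0 < τ := hτ'.trans h1
  have hwm := H363.wm_MC (b := b) (N := N) hb hl hτ h
  have hcs := cs_tor hb hl hρ hτ' h1 h hA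
  have hW1 := H363.one_le_Wcl (b := b) (t := t) (τ := τ) hb hl hτ h
  have h3 := Ph_Mb hb hl hρ hτ' h1 h hA hM q 0
  have h4 : lf2 N l ρ (0 : V (N / l / ρ) → ℝ) = 0 := by
    funext v
    rw [lf2_apply hρ]
    rfl
  rw [h4, Ph_zero hM q] at h3
  have hi := hcs.Wt_int' hwm (by rw [Mlow_tor hl hρ hτ' h1]; exact hM) 0
  rw [Wt_eq' hb hl hτ h] at hi
  set Fg := Ff (ahat (sn l τ τ') (acl N l b t τ)) (gm (sn l τ τ') (acl N l b t τ))
    (m2 ρ (Ah N l b t τ τ')) (Bm ρ (Ah N l b t τ τ')) (0 : V (N / l / ρ) → ℝ) with hFg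
  have h5 : 1 ≤ ∫ g, Wcl N l b t τ (Fg g) ∂(gau (V (N / l) ⊕ V (N / l))) :=
    H363.one_le_intW (fun g => hW1 _) hi
  have h6 := congrArg norm h3
  rw [Complex.norm_real, Real.norm_eq_abs, abs_of_nonneg (om_nonneg hM q), norm_div,
    Complex.norm_real, Real.norm_eq_abs, abs_of_pos (lt_of_lt_of_le one_pos h5)] at h6
  rw [h6, div_le_iff₀ (lt_of_lt_of_le one_pos h5), ← integral_const_mul]
  refine norm_integral_le_of_norm_le (hi.const_mul _) (Filter.Eventually.of_forall fun g => ?_)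
  rw [norm_mul, Complex.norm_real, Real.norm_eq_abs,
    abs_of_nonneg (zero_le_one.trans (hW1 _)), mul_comm]
  exact mul_le_mul_of_nonneg_right (norm_Ph_le hwm q _) (zero_le_one.trans (hW1 _))

/-- **pointwise comparison** with the bad mass `bt` -/
theorem eval_pt {Bd : Set (V (N / l) → ℝ)} (hB : MeasurableSet Bd) {η : ℝ} (hη0 : 0 ≤ η)
    (hη : ∀ F, F ∉ Bd → Wcl N l b t τ F ≤ 1 + η) (q : ℤ) (f' : V (N / l / ρ) → ℝ) :
    ‖Ph (wT b N) (Mb N l ρ t τ') q (lf2 N l ρ f')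
        - Pc N l ρ b t τ τ' (fun F => Ph (wT b N) (MC N l t τ) q (lf N l F)) f'‖
      ≤ 2 * η * om (wT b N) (MC N l t τ) q + 2 * om (wT b N) (MC N l t τ) q
        * bt (wT b N) (MC N l t τ) (lfM N l) (acl N l b t τ) (ahat (sn l τ τ') (acl N l b t τ))
          (gm (sn l τ τ') (acl N l b t τ)) (m2 ρ (Ah N l b t τ τ')) (Bm ρ (Ah N l b t τ τ'))
          Bd f' := by
  have hτ : 0 < τ := hτ'.trans h1
  have hwm := H363.wm_MC (b := b) (N := N) hb hl hτ h
  have hcs := cs_tor hb hl hρ hτ' h1 h hA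
  have hPh : Measurable fun F : V (N / l) → ℝ => Ph (wT b N) (MC N l t τ) q (lf N l F) :=
    ((H363.continuous_Ph hwm q).comp H363.continuous_lf).measurable
  rw [Pc_eq hPh (fun F => norm_Ph_le hwm q _)]
  have h2 := hcs.near hwm (by rw [Mlow_tor hl hρ hτ' h1]; exact hM)
    (fun F => by rw [Wt_eq hb hl hτ h]; exact H363.one_le_Wcl hb hl hτ h F) hB hη0
    (fun F hF => by rw [Wt_eq hb hl hτ h]; exact hη F hF) (q := q)
    (by simpa only [lfM_mulVec hl] using hPh)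
    (fun F => norm_Ph_le hwm q _) f'
  rw [Mlow_tor hl hρ hτ' h1] at h2
  simp only [lfM_mulVec hl] at h2
  exact h2

/-- **comparison in the typical law** -/
theorem eval_l2 {Bd : Set (V (N / l) → ℝ)} (hB : MeasurableSet Bd)
    (hBc : ∀ F c, ((fun x => F x + c) ∈ Bd) ↔ F ∈ Bd) {η β : ℝ} (hη0 : 0 ≤ η)
    (hη : ∀ F, F ∉ Bd → Wcl N l b t τ F ≤ 1 + η)
    (hi : Integrable (fun g => Wcl N l b t τ (pin (acl N l b t τ) *ᵥ g)) (gau (V (N / l))))
    (hβ : ∫ g in (fun g => pin (acl N l b t τ) *ᵥ g) ⁻¹' Bd,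
      Wcl N l b t τ (pin (acl N l b t τ) *ᵥ g) ∂(gau (V (N / l))) ≤ β) (q : ℤ) :
    H889.tn2 (Acx N l ρ b t τ τ') (fun f' => Ph (wT b N) (Mb N l ρ t τ') q (lf2 N l ρ f')
        - Pc N l ρ b t τ τ' (fun F => Ph (wT b N) (MC N l t τ) q (lf N l F)) f')
      ≤ 2 * om (wT b N) (MC N l t τ) q * (η + √β) := by
  have hτ : 0 < τ := hτ'.trans h1
  have hs := H363.sn_pos hl hτ' h1
  have hwm := H363.wm_MC (b := b) (N := N) hb hl hτ h
  have hcs := cs_tor hb hl hρ hτ' h1 h hA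
  have hlow : WM (wT b N) (Mlow (MC N l t τ) (lfM N l) (τ * (l : ℝ) ^ 2) (sn l τ τ')
      (avM (N / l) ρ) ((ρ : ℝ) ^ 2)) := by rw [Mlow_tor hl hρ hτ' h1]; exact hM
  have hW1 : ∀ F, 1 ≤ Wt (wT b N) (MC N l t τ) (lfM N l) (acl N l b t τ) F := fun F => by
    rw [Wt_eq hb hl hτ h]; exact H363.one_le_Wcl hb hl hτ h F
  have hWm : Measurable (Wt (wT b N) (MC N l t τ) (lfM N l) (acl N l b t τ)) := by
    rw [Wt_eq' hb hl hτ h]
    exact (H363.continuous_Wcl (b := b) (t := t) hb hl hτ h).measurable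
  have hPh : Measurable fun F : V (N / l) → ℝ => Ph (wT b N) (MC N l t τ) q (lf N l F) :=
    ((H363.continuous_Ph hwm q).comp H363.continuous_lf).measurable
  -- the bad mass
  have hinv : ∀ F c, Wcl N l b t τ (fun x => F x + c) = Wcl N l b t τ F := fun F c =>
    Wcl_const F hl hτ h c
  have hinvB : ∀ F c, Bd.indicator (Wcl N l b t τ) (fun x => F x + c)
      = Bd.indicator (Wcl N l b t τ) F := by
    intro F c
    by_cases hF : F ∈ Bd
    · rw [Set.indicator_of_mem ((hBc F c).2 hF), Set.indicator_of_mem hF, hinv]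
    · rw [Set.indicator_of_notMem (fun hc => hF ((hBc F c).1 hc)), Set.indicator_of_notMem hF]
  have hmean := hcs.bt_mean hwm hlow hW1 hWm hB (pin (H708.Ac ρ (Ah N l b t τ τ')))
    (Cst (sn l τ τ') (acl N l b t τ)) (law_comb hρ hA hs.le)
    (by rw [Wt_eq' hb hl hτ h]; exact Cst_itg hinv hi)
  rw [Wt_eq' hb hl hτ h] at hmean
  have e1 : ∫ g in (fun g => Cst (sn l τ τ') (acl N l b t τ) *ᵥ g) ⁻¹' Bd,
      Wcl N l b t τ (Cst (sn l τ τ') (acl N l b t τ) *ᵥ g) ∂(gau (V (N / l) ⊕ V (N / l)))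
      = ∫ g in (fun g => pin (acl N l b t τ) *ᵥ g) ⁻¹' Bd,
        Wcl N l b t τ (pin (acl N l b t τ) *ᵥ g) ∂(gau (V (N / l))) := by
    rw [← integral_indicator ((H363.measurable_mulVec _) hB),
      ← integral_indicator ((H363.measurable_mulVec _) hB)]
    exact Cst_int hinvB
  rw [e1] at hmean
  have h2 := hcs.near2 hwm hlow hW1 hWm hB hη0
    (fun F hF => by rw [Wt_eq hb hl hτ h]; exact hη F hF) (q := q)
    (by simpa only [lfM_mulVec hl] using hPh)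
    (by
      rw [Mlow_tor hl hρ hτ' h1]
      simp only [lfM_mulVec hl]
      exact ((H363.continuous_Ph hM q).comp continuous_lf2).measurable)
    (fun F => norm_Ph_le hwm q _) (pin (H708.Ac ρ (Ah N l b t τ τ')))
    (hmean.trans hβ)
  rw [Mlow_tor hl hρ hτ' h1] at h2
  simp only [lfM_mulVec hl] at h2
  refine le_trans (le_of_eq ?_) h2
  unfold H889.tn2
  refine H363.n2_congr fun g => ?_
  exact congrArg₂ (· - ·) rfl (Pc_eq hPh (fun F => norm_Ph_le hwm q _) _)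

/-- **(E)**: comparison of the charge functional after the step with the transported functional -/
theorem eval_all {Bd : Set (V (N / l) → ℝ)} (hB : MeasurableSet Bd)
    (hBc : ∀ F c, ((fun x => F x + c) ∈ Bd) ↔ F ∈ Bd) {η β : ℝ} (hη0 : 0 ≤ η)
    (hη : ∀ F, F ∉ Bd → Wcl N l b t τ F ≤ 1 + η)
    (hi : Integrable (fun g => Wcl N l b t τ (pin (acl N l b t τ) *ᵥ g)) (gau (V (N / l))))
    (hβ : ∫ g in (fun g => pin (acl N l b t τ) *ᵥ g) ⁻¹' Bd,
      Wcl N l b t τ (pin (acl N l b t τ) *ᵥ g) ∂(gau (V (N / l))) ≤ β) (q : ℤ)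
    {W : (V (N / l) → ℝ) → ℂ} (mW : Measurable W) {e1 : ℝ}
    (he1 : ∀ F, ‖Ph (wT b N) (MC N l t τ) q (lf N l F) - W F‖ ≤ e1)
    {M1 : Matrix (V N) (V N) ℝ} (hM1 : WM (wT b N) M1) {Gd : Set (V (N / l / ρ) → ℝ)}
    (hG : MeasurableSet Gd) {dfin π0 : ℝ} (hd : 0 ≤ dfin)
    (hfin : ∀ f' ∈ Gd, ‖Ph (wT b N) M1 q (lf2 N l ρ f')
      - Ph (wT b N) (Mb N l ρ t τ') q (lf2 N l ρ f')‖ ≤ dfin)
    (hπ : (gau (V (N / l / ρ))).real ((fun g => pin (Acx N l ρ b t τ τ') *ᵥ g) ⁻¹' Gdᶜ) ≤ π0) :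
    H889.tn2 (Acx N l ρ b t τ τ') (fun f' => Ph (wT b N) M1 q (lf2 N l ρ f')
        - Pc N l ρ b t τ τ' W f')
      ≤ dfin + (om (wT b N) M1 q + om (wT b N) (MC N l t τ) q) * √π0
        + 2 * om (wT b N) (MC N l t τ) q * (η + √β) + e1 := by
  have hτ : 0 < τ := hτ'.trans h1
  have hwm := H363.wm_MC (b := b) (N := N) hb hl hτ h
  have hPh : Measurable fun F : V (N / l) → ℝ => Ph (wT b N) (MC N l t τ) q (lf N l F) :=
    ((H363.continuous_Ph hwm q).comp H363.continuous_lf).measurable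
  have mP1 : Measurable fun f' : V (N / l / ρ) → ℝ => Ph (wT b N) M1 q (lf2 N l ρ f') :=
    ((H363.continuous_Ph hM1 q).comp continuous_lf2).measurable
  have mPb : Measurable fun f' : V (N / l / ρ) → ℝ =>
      Ph (wT b N) (Mb N l ρ t τ') q (lf2 N l ρ f') :=
    ((H363.continuous_Ph hM q).comp continuous_lf2).measurable
  have hom0 := om_nonneg hwm q
  have hom1 := om_nonneg hM1 q
  have homb := om_Mb_le hb hl hρ hτ' h1 h hA hM q
  have he10 : 0 ≤ e1 := (norm_nonneg _).trans (he1 0)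
  have bW : ∀ F, ‖W F‖ ≤ om (wT b N) (MC N l t τ) q + e1 := by
    intro F
    have h2 : W F = Ph (wT b N) (MC N l t τ) q (lf N l F)
        - (Ph (wT b N) (MC N l t τ) q (lf N l F) - W F) := by ring
    rw [h2]
    exact (norm_sub_le _ _).trans (add_le_add (norm_Ph_le hwm q _) (he1 F))
  have m1 : Measurable fun f' : V (N / l / ρ) → ℝ => Ph (wT b N) M1 q (lf2 N l ρ f')
      - Ph (wT b N) (Mb N l ρ t τ') q (lf2 N l ρ f') := mP1.sub mPb
  have m2' : Measurable fun f' : V (N / l / ρ) → ℝ =>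
      Ph (wT b N) (Mb N l ρ t τ') q (lf2 N l ρ f')
        - Pc N l ρ b t τ τ' (fun F => Ph (wT b N) (MC N l t τ) q (lf N l F)) f' :=
    mPb.sub (mPc (b := b) (t := t) (τ := τ) (τ' := τ') (ρ := ρ) hPh)
  have m3 : Measurable fun f' : V (N / l / ρ) → ℝ =>
      Pc N l ρ b t τ τ' (fun F => Ph (wT b N) (MC N l t τ) q (lf N l F)) f'
        - Pc N l ρ b t τ τ' W f' :=
    (mPc (b := b) (t := t) (τ := τ) (τ' := τ') (ρ := ρ) hPh).sub
      (mPc (b := b) (t := t) (τ := τ) (τ' := τ') (ρ := ρ) mW)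
  have b1 : ∀ f' : V (N / l / ρ) → ℝ, ‖Ph (wT b N) M1 q (lf2 N l ρ f')
      - Ph (wT b N) (Mb N l ρ t τ') q (lf2 N l ρ f')‖
      ≤ om (wT b N) M1 q + om (wT b N) (MC N l t τ) q := fun f' =>
    (norm_sub_le _ _).trans (add_le_add (norm_Ph_le hM1 q _) ((norm_Ph_le hM q _).trans homb))
  have b2 : ∀ f', ‖Ph (wT b N) (Mb N l ρ t τ') q (lf2 N l ρ f')
        - Pc N l ρ b t τ τ' (fun F => Ph (wT b N) (MC N l t τ) q (lf N l F)) f'‖
      ≤ om (wT b N) (MC N l t τ) q + om (wT b N) (MC N l t τ) q := fun f' =>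
    (norm_sub_le _ _).trans (add_le_add ((norm_Ph_le hM q _).trans homb)
      (bPc (fun F => norm_Ph_le hwm q _) f'))
  have b3 : ∀ f', ‖Pc N l ρ b t τ τ' (fun F => Ph (wT b N) (MC N l t τ) q (lf N l F)) f'
      - Pc N l ρ b t τ τ' W f'‖ ≤ e1 := fun f' =>
    Pc_sub hPh mW (fun F => norm_Ph_le hwm q _) bW he1 f'
  have n1 := n2_good (μ := gau (V (N / l / ρ))) (m1.comp (H363.measurable_mulVec
    (pin (Acx N l ρ b t τ τ')))) (B := om (wT b N) M1 q + om (wT b N) (MC N l t τ) q)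
    (d := dfin) (π0 := π0) (fun g => b1 _) (by positivity) hd
    ((H363.measurable_mulVec _) hG.compl) (fun g hg => hfin _ (by
      by_contra hc
      exact hg hc)) hπ
  have n2' := eval_l2 hb hl hρ hτ' h1 h hA hM hB hBc hη0 hη hi hβ q
  have n3 : H889.tn2 (Acx N l ρ b t τ τ') (fun f' =>
      Pc N l ρ b t τ τ' (fun F => Ph (wT b N) (MC N l t τ) q (lf N l F)) f'
      - Pc N l ρ b t τ τ' W f') ≤ e1 :=
    H363.n2_le_const (m3.comp (H363.measurable_mulVec _)).aestronglyMeasurable he10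
      fun g => b3 _
  have e0 : ∀ f', Ph (wT b N) M1 q (lf2 N l ρ f') - Pc N l ρ b t τ τ' W f'
      = (Ph (wT b N) M1 q (lf2 N l ρ f') - Ph (wT b N) (Mb N l ρ t τ') q (lf2 N l ρ f'))
        + ((Ph (wT b N) (Mb N l ρ t τ') q (lf2 N l ρ f')
          - Pc N l ρ b t τ τ' (fun F => Ph (wT b N) (MC N l t τ) q (lf N l F)) f')
        + (Pc N l ρ b t τ τ' (fun F => Ph (wT b N) (MC N l t τ) q (lf N l F)) f'
          - Pc N l ρ b t τ τ' W f')) := fun f' => by ring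
  rw [H889.tn2_congr e0]
  have n4 := H889.tn2_add_le m2' m3 b2 b3 (Acx N l ρ b t τ τ')
  have m4 : Measurable fun f' : V (N / l / ρ) → ℝ =>
      (Ph (wT b N) (Mb N l ρ t τ') q (lf2 N l ρ f')
          - Pc N l ρ b t τ τ' (fun F => Ph (wT b N) (MC N l t τ) q (lf N l F)) f')
        + (Pc N l ρ b t τ τ' (fun F => Ph (wT b N) (MC N l t τ) q (lf N l F)) f'
          - Pc N l ρ b t τ τ' W f') := m2'.add m3
  refine (H889.tn2_add_le m1 m4 b1 (fun f' => (norm_add_le _ _).trans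
    (add_le_add (b2 f') (b3 f'))) _).trans ?_
  have n1' : H889.tn2 (Acx N l ρ b t τ τ') (fun f' => Ph (wT b N) M1 q (lf2 N l ρ f')
      - Ph (wT b N) (Mb N l ρ t τ') q (lf2 N l ρ f'))
      ≤ dfin + (om (wT b N) M1 q + om (wT b N) (MC N l t τ) q) * √π0 := n1
  linarith

end near

end

end Vale.Agent.P159.H896
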