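import Vale.Agent.P159.H896.TypI

/-!
P159, module CHG (helper896): item (E) with the bad set given by sources of the neutral channel.
-/

open MeasureTheory Finset Matrix Filter Topology
open Vale.Agent.P159.H37
open Vale.Agent.P159.H363 (Pg n2 Nf acl sn lf gm Wcl Rcl)
open Vale.Agent.P159.H864 (TI sym MC cobV cl up fc Gc)
open Vale.Agent.P159.H963 (Pn Gnc nMC obsN ntr Neu)
open Vale.Agent.P159.TM.Spec (V)
open Vale.Agent.P159.TM.SpecC (wT)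

set_option linter.unusedSectionVars false

namespace Vale.Agent.P159.H896

noncomputable section

variable {N l ρ : ℕ} [NeZero N] [NeZero (N / l)] [NeZero (N / l / ρ)] {b t τ τ' : ℝ}

lemma neu_srcF (hl : l ∣ N) (hτ : 0 < τ) (h : τ ≤ t) (F : V (N / l) → ℝ) :
    Neu (srcF N l t τ F) := by
  rw [srcF_eq hl hτ h]
  unfold srcM
  rw [smul_mulVec, ← mulVec_mulVec]
  exact (H963.neu_cobV_tr hl (H963.neu_Pn F)).smul _

/-- **(E), final form**: `Gd` = good sources at the masses `MC N l t τ` -/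
theorem eval_src (hb : 0 ≤ b) (hl : l ∣ N) (hρ : ρ ∣ N / l) (hτ' : 0 < τ') (h1 : τ' < τ)
    (h : τ ≤ t) (hA : Nf (acl N l b t τ)) (hM : WM (wT b N) (Mb N l ρ t τ'))
    (hi : Integrable (fun g => Wcl N l b t τ (H363.pin (acl N l b t τ) *ᵥ g)) (gau (V (N / l))))
    {Gs : Set (V N → ℝ)} (hGs : MeasurableSet Gs) {ρ0 δ : ℝ} (hρ0 : 0 ≤ ρ0)
    (hR : ∀ J ∈ Gs, Neu J → Rs (nMC N l b t τ 0) J ≤ ρ0) (hδ0 : 0 ≤ δ) (hδ1 : δ ≤ 1 / 2)
    (hδ : ∀ᶠ a in 𝓝[>] (0 : ℝ), 1 - δ ≤ Ech (nMC N l b t a 0) 0 (obsN N l (τ - a))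
      (Gs.indicator fun _ => (1 : ℝ))) (q : ℤ)
    {W : (V (N / l) → ℝ) → ℂ} (mW : Measurable W) {e1 : ℝ}
    (he1 : ∀ F, ‖Ph (wT b N) (MC N l t τ) q (lf N l F) - W F‖ ≤ e1)
    {M1 : Matrix (V N) (V N) ℝ} (hM1 : WM (wT b N) M1) {Gd : Set (V (N / l / ρ) → ℝ)}
    (hG : MeasurableSet Gd) {dfin π0 : ℝ} (hd : 0 ≤ dfin)
    (hfin : ∀ f' ∈ Gd, ‖Ph (wT b N) M1 q (lf2 N l ρ f')
      - Ph (wT b N) (Mb N l ρ t τ') q (lf2 N l ρ f')‖ ≤ dfin)
    (hπ : (gau (V (N / l / ρ))).real ((fun g => H363.pin (Acx N l ρ b t τ τ') *ᵥ g) ⁻¹' Gdᶜ) ≤ π0) :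
    H889.tn2 (Acx N l ρ b t τ τ') (fun f' => Ph (wT b N) M1 q (lf2 N l ρ f')
        - Pc N l ρ b t τ τ' W f')
      ≤ dfin + (om (wT b N) M1 q + om (wT b N) (MC N l t τ) q) * √π0
        + 2 * om (wT b N) (MC N l t τ) q * ((Real.exp ρ0 - 1) + √(2 * Real.exp ρ0 * δ)) + e1 := by
  have hτ : 0 < τ := hτ'.trans h1
  set Bd : Set (V (N / l) → ℝ) := (srcF N l t τ) ⁻¹' Gsᶜ with hBd
  have hB : MeasurableSet Bd := (measurable_srcF N l t τ) hGs.compl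
  have hBc : ∀ F c, ((fun x => F x + c) ∈ Bd) ↔ F ∈ Bd := by
    intro F c
    rw [hBd, Set.mem_preimage, Set.mem_preimage, srcF_const F hl hτ h c]
  have hη : ∀ F, F ∉ Bd → Wcl N l b t τ F ≤ 1 + (Real.exp ρ0 - 1) := by
    intro F hF
    have h2 : srcF N l t τ F ∈ Gs := by
      by_contra hc
      exact hF hc
    have h3 := hR _ h2 (neu_srcF hl hτ h F)
    rw [add_sub_cancel]
    exact Real.exp_le_exp.2 h3
  have hη0 : 0 ≤ Real.exp ρ0 - 1 := by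
    have := Real.one_le_exp hρ0
    linarith
  have hbad := typ_bad hb hl hτ h hA hi hGs hδ
  have hmp : Measurable fun g : V (N / l) → ℝ => H363.pin (acl N l b t τ) *ᵥ g :=
    H363.measurable_mulVec _
  have hm := typ_mass (hmp hB) hi (η := Real.exp ρ0 - 1) (δ := δ)
    (fun g hg => hη _ hg) hη0 (by linarith) hbad
  have h5 := hm.2 hδ0
  have h6 : δ * ((1 + (Real.exp ρ0 - 1)) / (1 - δ)) ≤ 2 * Real.exp ρ0 * δ := by
    rw [add_sub_cancel]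
    have h7 : Real.exp ρ0 / (1 - δ) ≤ 2 * Real.exp ρ0 := by
      rw [div_le_iff₀ (by linarith)]
      have := Real.exp_pos ρ0
      nlinarith
    have h8 := mul_le_mul_of_nonneg_left h7 hδ0
    linarith
  exact eval_all hb hl hρ hτ' h1 h hA hM hB hBc hη0 hη hi (h5.trans h6) q mW he1 hM1 hG hd hfin hπ

end

end Vale.Agent.P159.H896
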