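import Vale.Agent.P159.H896.Gram
import Vale.Agent.P159.H37.Spec0L
import Mathlib.Analysis.InnerProductSpace.Reproducing

/-!
P159, module CHG (helper896): feature maps of complex backgrounds from Gram duplication kernels.
-/

open MeasureTheory Complex Finset
open scoped ComplexConjugate InnerProductSpace
open Vale.Agent.P159.TM.H104 (EM nh li)

namespace Vale.Agent.P159.H896

set_option linter.unusedSectionVars false

noncomputable section

/-- **Moore**: a Hermitian positive semidefinite kernel has a feature map -/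
theorem exists_feat {X : Type} (K0 : X → X → ℂ) (herm : ∀ x y, K0 y x = conj (K0 x y))
    (psd : ∀ (S : Finset X) (z : X → ℂ), 0 ≤ (∑ x ∈ S, ∑ y ∈ S, conj (z x) * z y * K0 x y).re) :
    ∃ (H : Type) (_ : NormedAddCommGroup H) (_ : InnerProductSpace ℂ H) (_ : CompleteSpace H)
      (Φ : X → H), ∀ x y, ⟪Φ x, Φ y⟫_ℂ = K0 x y := by
  let K : Matrix X X (ℂ →L[ℂ] ℂ) := Matrix.of fun x y => K0 x y • ContinuousLinearMap.id ℂ ℂ
  have hK : K.PosSemidef := by
    have h1 := (RKHS.posSemidef_tfae (K := K)).out 0 2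
    refine h1.2 ⟨?_, fun vv => ?_⟩
    · refine Matrix.IsHermitian.ext fun x y => ?_
      ext
      show (star (K0 y x • ContinuousLinearMap.id ℂ ℂ)) 1 = (K0 x y • ContinuousLinearMap.id ℂ ℂ) 1
      have hid : star (ContinuousLinearMap.id ℂ ℂ) = ContinuousLinearMap.id ℂ ℂ := star_one _
      rw [herm x y, star_smul, hid]
      simp
    · have h := psd vv.support vv
      have e : (∑ x ∈ vv.support, ∑ y ∈ vv.support, conj (vv x) * vv y * K0 x y) =
          vv.sum fun x w ↦ vv.sum fun x' w' ↦ ⟪K x' x w, w'⟫_ℂ := by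
        unfold Finsupp.sum
        refine Finset.sum_congr rfl fun x _ => Finset.sum_congr rfl fun y _ => ?_
        show _ = ⟪(K0 y x • ContinuousLinearMap.id ℂ ℂ) (vv x), vv y⟫_ℂ
        simp only [FunLike.coe_smul, Pi.smul_apply, ContinuousLinearMap.coe_id',
          id_eq, smul_eq_mul, RCLike.inner_apply, map_mul]
        rw [herm x y]
        simp
        ring
      rw [e] at h
      exact h
  have : Fact K.PosSemidef := ⟨hK⟩
  refine ⟨RKHS.OfKernel K, inferInstance, inferInstance, inferInstance,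
    fun x => RKHS.kerFun (RKHS.OfKernel K) x 1, fun x y => ?_⟩
  rw [← RKHS.kernel_inner, RKHS.OfKernel.kernel_ofKernel]
  show ⟪(K0 y x • ContinuousLinearMap.id ℂ ℂ) 1, (1 : ℂ)⟫_ℂ = K0 x y
  rw [herm x y]
  simp

/-! ### the complexified partition function with a source -/

section src

variable {V : Type} [Fintype V] {μ : (V → ℤ) → ℝ}

/-- the pairing -/
def pr (J : V → ℂ) (h : V → ℤ) : ℂ := ∑ x, J x * (h x : ℂ)

lemma pr_add (J K : V → ℂ) (h : V → ℤ) : pr (J + K) h = pr J h + pr K h := by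
  simp only [pr, Pi.add_apply, add_mul, Finset.sum_add_distrib]

lemma pr_sub (J K : V → ℂ) (h : V → ℤ) : pr (J - K) h = pr J h - pr K h := by
  simp only [pr, Pi.sub_apply, sub_mul, Finset.sum_sub_distrib]

lemma pr_add_h (J : V → ℂ) (h h' : V → ℤ) : pr J (h + h') = pr J h + pr J h' := by
  simp only [pr, Pi.add_apply]
  push_cast
  simp only [mul_add, Finset.sum_add_distrib]

lemma pr_sub_h (J : V → ℂ) (h h' : V → ℤ) : pr J (h - h') = pr J h - pr J h' := by
  simp only [pr, Pi.sub_apply]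
  push_cast
  simp only [mul_sub, Finset.sum_sub_distrib]

lemma pr_neg_h (J : V → ℂ) (h : V → ℤ) : pr J (-h) = -pr J h := by
  simp only [pr, Pi.neg_apply]
  push_cast
  simp only [mul_neg, Finset.sum_neg_distrib]

lemma pr_star (J : V → ℂ) (h : V → ℤ) : pr (star J) h = conj (pr J h) := by
  simp only [pr, map_sum, map_mul, map_intCast]
  rfl

lemma pr_cr (J : V → ℝ) (h : V → ℤ) : pr (cr J) h = (li J h : ℂ) := by
  simp only [pr, cr, li]
  push_cast
  rfl

lemma abs_re_pr (J : V → ℂ) (h : V → ℤ) : |(pr J h).re| ≤ ‖J‖ * nh h := by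
  unfold pr nh
  rw [Complex.re_sum, Finset.mul_sum]
  refine (Finset.abs_sum_le_sum_abs _ _).trans (Finset.sum_le_sum fun x _ => ?_)
  have h1 : (J x * (h x : ℂ)).re = (J x).re * (h x : ℝ) := by simp
  rw [h1, abs_mul]
  exact mul_le_mul_of_nonneg_right ((Complex.abs_re_le_norm _).trans (norm_le_pi_norm J x))
    (abs_nonneg _)

/-- partition function with a complex source -/
def Zc (μ : (V → ℤ) → ℝ) (J : V → ℂ) : ℂ := ∑' h : V → ℤ, (μ h : ℂ) * cexp (pr J h)

lemma norm_term (hμ : EM μ) (J : V → ℂ) (h : V → ℤ) {R : ℝ} (hR : ‖J‖ ≤ R) :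
    ‖(μ h : ℂ) * cexp (pr J h)‖ ≤ μ h * Real.exp (R * nh h) := by
  rw [norm_mul, Complex.norm_real, Real.norm_eq_abs, abs_of_nonneg (hμ.nn h), Complex.norm_exp]
  refine mul_le_mul_of_nonneg_left (Real.exp_le_exp.2 ?_) (hμ.nn h)
  exact (le_abs_self _).trans ((abs_re_pr J h).trans
    (mul_le_mul_of_nonneg_right hR (TM.H104.nh_nonneg h)))

lemma summ_norm (hμ : EM μ) (J : V → ℂ) : Summable fun h => ‖(μ h : ℂ) * cexp (pr J h)‖ :=
  Summable.of_nonneg_of_le (fun _ => norm_nonneg _) (fun h => norm_term hμ J h le_rfl)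
    (hμ.sum ‖J‖)

lemma summ_Zc (hμ : EM μ) (J : V → ℂ) : Summable fun h => (μ h : ℂ) * cexp (pr J h) :=
  (summ_norm hμ J).of_norm

theorem continuous_Zc (hμ : EM μ) : Continuous (Zc μ) := by
  refine continuous_iff_continuousAt.2 fun J => ?_
  have h1 : ContinuousOn (Zc μ) (Metric.ball 0 (‖J‖ + 1)) := by
    unfold Zc
    refine continuousOn_tsum (u := fun h => μ h * Real.exp ((‖J‖ + 1) * nh h)) ?_
      (hμ.sum _) ?_
    · intro h
      have : Continuous fun J : V → ℂ => pr J h := by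
        unfold pr
        fun_prop
      exact (continuous_const.mul (Complex.continuous_exp.comp this)).continuousOn
    · intro h z hz
      rw [Metric.mem_ball, dist_zero_right] at hz
      exact norm_term hμ z h hz.le
  refine h1.continuousAt (Metric.isOpen_ball.mem_nhds ?_)
  rw [Metric.mem_ball, dist_zero_right]
  linarith

lemma Zc_real (J : V → ℝ) : Zc μ (cr J) = (H37.Zs μ J : ℂ) := by
  unfold Zc H37.Zs TM.H104.T
  rw [Complex.ofReal_tsum]
  refine tsum_congr fun h => ?_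
  rw [pr_cr]
  push_cast
  ring

lemma Zc_star (J : V → ℂ) : Zc μ (star J) = conj (Zc μ J) := by
  unfold Zc
  rw [Complex.conj_tsum]
  refine tsum_congr fun h => ?_
  rw [map_mul, Complex.conj_ofReal, ← Complex.exp_conj, pr_star]

lemma Zc_neg (hE : ∀ h, μ (-h) = μ h) (J : V → ℂ) : Zc μ (-J) = Zc μ J := by
  unfold Zc
  rw [← (Equiv.neg (V → ℤ)).tsum_eq]
  refine tsum_congr fun h => ?_
  simp only [Equiv.neg_apply]
  rw [hE, pr_neg_h]
  congr 2
  simp only [pr, Pi.neg_apply, neg_mul, Finset.sum_neg_distrib, neg_neg]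

/-- the term of the kernel -/
def kt (μ : (V → ℤ) → ℝ) (a c : V → ℂ) (p : (V → ℤ) × (V → ℤ)) : ℂ :=
  (ND μ p.1 p.2 : ℂ) * (conj (cexp (pr a p.1)) * cexp (pr c p.2))

lemma kt_dup (μ : (V → ℤ) → ℝ) (a c : V → ℂ) (p : (V → ℤ) × (V → ℤ)) :
    kt μ a c (p.1 + p.2, p.1 - p.2) = ((μ p.1 : ℂ) * cexp (pr (star a + c) p.1)) *
      ((μ p.2 : ℂ) * cexp (pr (star a - c) p.2)) := by
  unfold kt
  simp only
  rw [ND_self, pr_add, pr_sub, pr_star, pr_star, ← Complex.exp_conj, pr_add_h, pr_sub_h, map_add,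
    Complex.exp_add, Complex.exp_sub, Complex.exp_add, Complex.exp_sub]
  push_cast
  ring

lemma dup_inj : Function.Injective fun p : (V → ℤ) × (V → ℤ) => (p.1 + p.2, p.1 - p.2) := by
  rintro ⟨h, k⟩ ⟨h', k'⟩ he
  simp only [Prod.mk.injEq] at he
  obtain ⟨h1, h2⟩ := he
  have a1 : ∀ x, h x = h' x ∧ k x = k' x := by
    intro x
    have e1 := congrFun h1 x
    have e2 := congrFun h2 x
    simp only [Pi.add_apply, Pi.sub_apply] at e1 e2
    omega
  exact Prod.ext (funext fun x => (a1 x).1) (funext fun x => (a1 x).2)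

lemma kt_zero (μ : (V → ℤ) → ℝ) (a c : V → ℂ) (p : (V → ℤ) × (V → ℤ))
    (hp : p ∉ Set.range fun p : (V → ℤ) × (V → ℤ) => (p.1 + p.2, p.1 - p.2)) :
    kt μ a c p = 0 := by
  unfold kt ND
  rw [if_neg]
  · simp
  · intro h
    apply hp
    refine ⟨(fun x => (p.1 x + p.2 x) / 2, fun x => (p.1 x - p.2 x) / 2), ?_⟩
    refine Prod.ext ?_ ?_
    · funext x
      obtain ⟨m, hm⟩ := h x
      simp only [Pi.add_apply]
      omega
    · funext x
      obtain ⟨m, hm⟩ := h x
      simp only [Pi.sub_apply]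
      omega

lemma summ_kt (hμ : EM μ) (a c : V → ℂ) : Summable (kt μ a c) := by
  refine (dup_inj.summable_iff (kt_zero μ a c)).1 ?_
  have h1 := summable_mul_of_summable_norm (summ_norm hμ (star a + c)) (summ_norm hμ (star a - c))
  refine h1.congr fun p => ?_
  exact (kt_dup μ a c p).symm

lemma tsum_kt (hμ : EM μ) (a c : V → ℂ) :
    ∑' p, kt μ a c p = Zc μ (star a + c) * Zc μ (star a - c) := by
  unfold Zc
  rw [tsum_mul_tsum_of_summable_norm (summ_norm hμ _) (summ_norm hμ _)]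
  rw [← dup_inj.tsum_eq (f := kt μ a c)]
  · exact tsum_congr fun p => kt_dup μ a c p
  · intro p hp
    by_contra h
    exact hp (kt_zero μ a c p h)

/-- **the duplication kernel of complex sources is positive semidefinite** -/
theorem psd_src (hμ : EM μ) (hG : DG μ) (S : Finset (V → ℂ)) (z : (V → ℂ) → ℂ) :
    0 ≤ (∑ a ∈ S, ∑ c ∈ S, conj (z a) * z c * (Zc μ (star a + c) * Zc μ (star a - c))).re := by
  set ζ : (V → ℤ) → ℂ := fun u => ∑ a ∈ S, z a * cexp (pr a u) with hζ
  have h1 : HasSum (fun p : (V → ℤ) × (V → ℤ) => conj (ζ p.1) * ζ p.2 * (ND μ p.1 p.2 : ℂ))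
      (∑ a ∈ S, ∑ c ∈ S, conj (z a) * z c * (Zc μ (star a + c) * Zc μ (star a - c))) := by
    have h2 : HasSum (fun p => ∑ a ∈ S, ∑ c ∈ S, conj (z a) * z c * kt μ a c p)
        (∑ a ∈ S, ∑ c ∈ S, conj (z a) * z c * (Zc μ (star a + c) * Zc μ (star a - c))) := by
      refine hasSum_sum fun a _ => hasSum_sum fun c _ => HasSum.mul_left _ ?_
      rw [← tsum_kt hμ]
      exact (summ_kt hμ a c).hasSum
    refine H353.hs_congr h2 fun p => ?_
    rw [hζ]
    simp only [map_sum, map_mul]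
    rw [Finset.sum_mul_sum, Finset.sum_mul]
    refine Finset.sum_congr rfl fun a _ => ?_
    rw [Finset.sum_mul]
    refine Finset.sum_congr rfl fun c _ => ?_
    unfold kt
    ring
  have h3 := Complex.hasSum_re h1
  have h4 : Filter.Tendsto (fun s : Finset (V → ℤ) => ∑ p ∈ s ×ˢ s,
      (conj (ζ p.1) * ζ p.2 * (ND μ p.1 p.2 : ℂ)).re) Filter.atTop
      (nhds (∑ a ∈ S, ∑ c ∈ S, conj (z a) * z c *
        (Zc μ (star a + c) * Zc μ (star a - c))).re) :=
    h3.comp (Filter.tendsto_finsetProd_atTop.comp Filter.tendsto_atTop_diagonal)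
  refine ge_of_tendsto' h4 fun s => ?_
  rw [Finset.sum_product]
  have h5 := GramK.psdC hG s ζ
  simp only [Complex.re_sum] at h5
  exact h5

/-- feature map of complex sources -/
theorem feat_src (hμ : EM μ) (hE : ∀ h, μ (-h) = μ h) (hG : DG μ) :
    ∃ (H : Type) (_ : NormedAddCommGroup H) (_ : InnerProductSpace ℂ H) (_ : CompleteSpace H)
      (Φ : (V → ℂ) → H), Feat (Zc μ) Φ := by
  have herm : ∀ a c : V → ℂ, Zc μ (star c + a) * Zc μ (star c - a) =
      conj (Zc μ (star a + c) * Zc μ (star a - c)) := by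
    intro a c
    rw [map_mul, ← Zc_star, ← Zc_star, star_add, star_sub, star_star]
    have e1 : star c + a = a + star c := add_comm _ _
    have e2 : star c - a = -(a - star c) := by abel
    rw [e1, e2, Zc_neg hE]
  obtain ⟨H, i1, i2, i3, Φ, h⟩ := exists_feat
    (fun a c : V → ℂ => Zc μ (star a + c) * Zc μ (star a - c)) herm (psd_src hμ hG)
  exact ⟨H, i1, i2, i3, Φ, ⟨h⟩⟩

end src

end

end Vale.Agent.P159.H896
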