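import Vale.Agent.P159.H896.Chm

/-!
P159, module CHG (helper896): general averaging of the background. `F : Ω → (V → ℝ)` a random
background, `D ≥ 0` a density: if `∫ exp (-<z - F, M (z - F)>/2) D dμ = C exp (-<z - f, M' (z - f)>/2)`
for every real `z`, then `∫ Z⁽q⁾_M(F) D dμ = C Z⁽q⁾_{M'}(f)` for every charge sector.
-/

open MeasureTheory Finset Matrix
open Vale.Agent.P159.TM.H104 (EM nh li)
open Vale.Agent.P159.H37 (wM ZM qf bf Zn Zq Un Ev gau gau_shift)

set_option linter.unusedSectionVars false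

namespace Vale.Agent.P159.H896

noncomputable section

variable {V : Type} [Fintype V] {M M' : Matrix V V ℝ} {w : (V → ℤ) → ℝ}

/-- an averaging of the mass form `M` at the random background `F` with density `D` -/
structure Avg {Ω : Type*} [MeasurableSpace Ω] (M M' : Matrix V V ℝ) (μ : Measure Ω)
    (F : Ω → V → ℝ) (D : Ω → ℝ) (f : V → ℝ) (C : ℝ) : Prop where
  mF : Measurable F
  mD : Measurable D
  nn : ∀ ω, 0 ≤ D ω
  pos : 0 < C
  int : ∀ z : V → ℝ, Integrable (fun ω => Real.exp (-(qf M (z - F ω) / 2)) * D ω) μ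
  one : ∀ z : V → ℝ, ∫ ω, Real.exp (-(qf M (z - F ω) / 2)) * D ω ∂μ =
    C * Real.exp (-(qf M' (z - f) / 2))

variable {Ω : Type*} [MeasurableSpace Ω] {μ : Measure Ω} {F : Ω → V → ℝ} {D : Ω → ℝ} {f : V → ℝ}
  {C : ℝ}

theorem avg_ZM_aux (h : Avg M M' μ F D f C) (hM' : M'ᵀ = M') (hw : EM (wM w M')) (c : ℝ) :
    HasSum (fun k : V → ℤ => C * (w k * Real.exp (-(qf M' (H37.re k - fun x => f x + c) / 2))))
      (∫ ω, ZM w M (fun x => F ω x + c) * D ω ∂μ) := by
  have hw0 := w_nonneg hw
  have hterm : ∀ (k : V → ℤ) (ω : Ω),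
      w k * Real.exp (-(qf M (H37.re k - fun x => F ω x + c) / 2)) * D ω =
        w k * (Real.exp (-(qf M ((H37.re k - fun _ => c) - F ω) / 2)) * D ω) := by
    intro k ω
    rw [mul_assoc]
    congr 6
    funext x
    simp only [Pi.sub_apply]
    ring
  have hI : ∀ k : V → ℤ,
      ∫ ω, w k * Real.exp (-(qf M (H37.re k - fun x => F ω x + c) / 2)) * D ω ∂μ =
        C * (w k * Real.exp (-(qf M' (H37.re k - fun x => f x + c) / 2))) := by
    intro k
    simp only [hterm]
    rw [integral_const_mul, h.one]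
    have : ((H37.re k - fun _ => c) - f : V → ℝ) = H37.re k - fun x => f x + c := by
      funext x
      simp only [Pi.sub_apply]
      ring
    rw [this]
    ring
  have hsum := (summable_ZM hM' hw (fun x => f x + c)).mul_left C
  have h1 := hasSum_integral_of_summable_integral_norm
    (F := fun (k : V → ℤ) (ω : Ω) => w k * Real.exp (-(qf M (H37.re k - fun x => F ω x + c) / 2)) * D ω)
    (μ := μ) (fun k => ?_) ?_
  · simp only [hI] at h1
    have e : (fun ω => ∑' k : V → ℤ,
        w k * Real.exp (-(qf M (H37.re k - fun x => F ω x + c) / 2)) * D ω) =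
        fun ω => ZM w M (fun x => F ω x + c) * D ω := by
      funext ω
      rw [tsum_mul_right]
      rfl
    rw [e] at h1
    exact h1
  · simp only [hterm]
    exact (h.int _).const_mul _
  · refine hsum.congr fun k => ?_
    rw [← hI k]
    refine integral_congr_ae (Filter.Eventually.of_forall fun ω => ?_)
    simp only
    rw [Real.norm_eq_abs, abs_of_nonneg (mul_nonneg (mul_nonneg (hw0 k) (Real.exp_pos _).le) (h.nn ω))]

theorem avg_ZM (h : Avg M M' μ F D f C) (hM' : M'ᵀ = M') (hw : EM (wM w M')) (c : ℝ) :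
    ∫ ω, ZM w M (fun x => F ω x + c) * D ω ∂μ = C * ZM w M' fun x => f x + c := by
  rw [← (avg_ZM_aux h hM' hw c).tsum_eq, tsum_mul_left]
  rfl

theorem avg_ZM_int (h : Avg M M' μ F D f C) (hM' : M'ᵀ = M') (hw : EM (wM w M')) (c : ℝ) :
    Integrable (fun ω => ZM w M (fun x => F ω x + c) * D ω) μ := by
  by_contra hc
  have h1 := avg_ZM h hM' hw c
  rw [integral_undef hc] at h1
  have h2 := mul_pos h.pos (H37.ZM_pos hM' hw fun x => f x + c)
  linarith

lemma meas_sh (hw : WM w M) (mF : Measurable F) :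
    Measurable fun p : Ω × ℝ => ZM w M fun x => F p.1 x + p.2 := by
  refine (continuous_ZM hw).measurable.comp (measurable_pi_lambda _ fun x => ?_)
  exact ((measurable_pi_apply x).comp (mF.comp measurable_fst)).add measurable_snd

theorem avg_prod_int [SFinite μ] (h : Avg M M' μ F D f C) (hw : WM w M) (hw' : WM w M') :
    Integrable (fun p : Ω × ℝ => (ZM w M fun x => F p.1 x + p.2) * D p.1)
      (μ.prod (volume.restrict (Set.Ioc (0 : ℝ) 1))) := by
  have hm : AEStronglyMeasurable (fun p : Ω × ℝ => (ZM w M fun x => F p.1 x + p.2) * D p.1)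
      (μ.prod (volume.restrict (Set.Ioc (0 : ℝ) 1))) :=
    ((meas_sh hw h.mF).mul (h.mD.comp measurable_fst)).aestronglyMeasurable
  rw [integrable_prod_iff' hm]
  constructor
  · exact Filter.Eventually.of_forall fun c => avg_ZM_int h hw'.sym hw'.em c
  · have h1 : (fun c : ℝ => ∫ ω, ‖(ZM w M fun x => F ω x + c) * D ω‖ ∂μ) =
        fun c : ℝ => C * ZM w M' fun x => f x + c := by
      funext c
      rw [← avg_ZM h hw'.sym hw'.em]
      refine integral_congr_ae (Filter.Eventually.of_forall fun ω => ?_)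
      simp only
      rw [Real.norm_eq_abs, abs_of_nonneg (mul_nonneg (H37.ZM_pos hw.sym hw.em _).le (h.nn ω))]
    have h2 : Continuous fun c : ℝ => C * ZM w M' fun x => f x + c := by
      refine continuous_const.mul ((continuous_ZM hw').comp (continuous_pi fun x => ?_))
      fun_prop
    show Integrable (fun c : ℝ => ∫ ω, ‖(ZM w M fun x => F ω x + c) * D ω‖ ∂μ) _
    rw [h1]
    exact (h2.integrableOn_Icc (a := 0) (b := 1)).mono_set Set.Ioc_subset_Icc_self

/-- **averaging of every charge sector** -/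
theorem avg_phi [SFinite μ] (h : Avg M M' μ F D f C) (hw : WM w M) (hw' : WM w M') {φ : ℝ → ℂ}
    (hφ : Continuous φ) (hb : ∀ c, ‖φ c‖ ≤ 1) :
    Integrable (fun ω => (∫ c in (0 : ℝ)..1, (ZM w M (fun x => F ω x + c) : ℂ) * φ c) * D ω) μ ∧
      ∫ ω, (∫ c in (0 : ℝ)..1, (ZM w M (fun x => F ω x + c) : ℂ) * φ c) * D ω ∂μ =
        (C : ℂ) * ∫ c in (0 : ℝ)..1, (ZM w M' (fun x => f x + c) : ℂ) * φ c := by
  have hint := avg_prod_int h hw hw'
  have hI : Integrable (fun p : Ω × ℝ => (((ZM w M fun x => F p.1 x + p.2) * D p.1 : ℝ) : ℂ) * φ p.2)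
      (μ.prod (volume.restrict (Set.Ioc (0 : ℝ) 1))) := by
    refine hint.ofReal.mul_bdd (c := 1) ?_ (Filter.Eventually.of_forall fun p => hb _)
    exact (hφ.measurable.comp measurable_snd).aestronglyMeasurable
  have e : ∀ ω : Ω, (∫ c in (0 : ℝ)..1, (ZM w M (fun x => F ω x + c) : ℂ) * φ c) * D ω =
      ∫ c in Set.Ioc (0 : ℝ) 1, (((ZM w M fun x => F ω x + c) * D ω : ℝ) : ℂ) * φ c := by
    intro ω
    rw [intervalIntegral.integral_of_le zero_le_one, ← integral_mul_const]
    refine integral_congr_ae (Filter.Eventually.of_forall fun c => ?_)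
    simp only
    push_cast
    ring
  simp only [e]
  refine ⟨hI.integral_prod_left, ?_⟩
  rw [integral_integral_swap hI, intervalIntegral.integral_of_le zero_le_one, ← integral_const_mul]
  refine integral_congr_ae (Filter.Eventually.of_forall fun c => ?_)
  simp only
  rw [integral_mul_const, ← mul_assoc]
  congr 1
  rw [integral_complex_ofReal, avg_ZM h hw'.sym hw'.em]
  push_cast
  rfl

theorem avg_Zq_aux [SFinite μ] (h : Avg M M' μ F D f C) (hw : WM w M) (hw' : WM w M') (q : ℤ) :
    Integrable (fun ω => Zq w M q (F ω) * D ω) μ ∧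
      ∫ ω, Zq w M q (F ω) * D ω ∂μ = (C : ℂ) * Zq w M' q f := by
  refine avg_phi h hw hw' (φ := fun c => Complex.exp (-(2 * Real.pi * q * c) * Complex.I))
    (by fun_prop) fun c => ?_
  have : (-(2 * Real.pi * q * c) * Complex.I : ℂ) = ((-(2 * Real.pi * q * c) : ℝ) : ℂ) * Complex.I := by
    push_cast; ring
  rw [this, Complex.norm_exp_ofReal_mul_I]

theorem avg_Zq_int [SFinite μ] (h : Avg M M' μ F D f C) (hw : WM w M) (hw' : WM w M') (q : ℤ) :
    Integrable (fun ω => Zq w M q (F ω) * D ω) μ := (avg_Zq_aux h hw hw' q).1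

theorem avg_Zq [SFinite μ] (h : Avg M M' μ F D f C) (hw : WM w M) (hw' : WM w M') (q : ℤ) :
    ∫ ω, Zq w M q (F ω) * D ω ∂μ = (C : ℂ) * Zq w M' q f := (avg_Zq_aux h hw hw' q).2

theorem avg_Zn_int [SFinite μ] (h : Avg M M' μ F D f C) (hw : WM w M) (hw' : WM w M') :
    Integrable (fun ω => Zn w M (F ω) * D ω) μ := by
  have h1 := (avg_phi h hw hw' (φ := fun _ => 1) continuous_const fun c => by simp).1
  simp only [← Zn_ofReal] at h1
  have h2 := h1.re
  simpa using h2

theorem avg_Zn [SFinite μ] (h : Avg M M' μ F D f C) (hw : WM w M) (hw' : WM w M') :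
    ∫ ω, Zn w M (F ω) * D ω ∂μ = C * Zn w M' f := by
  have h1 := (avg_phi h hw hw' (φ := fun _ => 1) continuous_const fun c => by simp).2
  simp only [← Zn_ofReal] at h1
  have h2 : ∀ ω, (Zn w M (F ω) : ℂ) * D ω = ((Zn w M (F ω) * D ω : ℝ) : ℂ) := fun ω => by push_cast; rfl
  simp only [h2] at h1
  rw [integral_complex_ofReal] at h1
  exact_mod_cast h1

/-- **`Φ⁽q⁾_{M'}(f)` is the average of `Φ⁽q⁾_M(F)` with density `Zn_M(F) D / (C Zn_{M'}(f))`** -/
theorem avg_Ph [SFinite μ] (h : Avg M M' μ F D f C) (hw : WM w M) (hw' : WM w M') (q : ℤ) :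
    Ph w M' q f = (∫ ω, Ph w M q (F ω) * ((Zn w M (F ω) * D ω : ℝ) : ℂ) ∂μ) /
      ((∫ ω, Zn w M (F ω) * D ω ∂μ : ℝ) : ℂ) := by
  have e : ∀ ω, Ph w M q (F ω) * ((Zn w M (F ω) * D ω : ℝ) : ℂ) = Zq w M q (F ω) * D ω := by
    intro ω
    have h1 : (Zn w M (F ω) : ℂ) ≠ 0 := by exact_mod_cast (Zn_pos hw (F ω)).ne'
    unfold Ph
    push_cast
    field_simp
  simp only [e]
  rw [avg_Zq h hw hw', avg_Zn h hw hw']
  unfold Ph
  have h1 : (Zn w M' f : ℂ) ≠ 0 := by exact_mod_cast (Zn_pos hw' f).ne'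
  have h2 : (C : ℂ) ≠ 0 := by exact_mod_cast h.pos.ne'
  push_cast
  field_simp

/-- change of variables and of densities -/
theorem Avg.of_pos_mul {C' : ℝ} (h : Avg M M' μ F D f C) (hc : 0 < C') :
    Avg M M' μ F (fun ω => C' * D ω) f (C' * C) where
  mF := h.mF
  mD := h.mD.const_mul _
  nn ω := mul_nonneg hc.le (h.nn ω)
  pos := mul_pos hc h.pos
  int z := by
    refine ((h.int z).const_mul C').congr (Filter.Eventually.of_forall fun ω => ?_)
    simp only; ring
  one z := by
    rw [mul_assoc, ← h.one, ← integral_const_mul]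
    refine integral_congr_ae (Filter.Eventually.of_forall fun ω => ?_)
    simp only; ring

/-- the Gaussian channel is an averaging -/
theorem Chn.avg {I : Type} [Fintype I] {B : Matrix V I ℝ} {K : Matrix I V ℝ} (h : Chn M M' B K)
    (f : V → ℝ) : Avg M M' (gau I) (fun g => f + B *ᵥ g) (fun _ => 1) f (cN M B) where
  mF := measurable_chn f
  mD := measurable_const
  nn _ := zero_le_one
  pos := cN_pos h.nn
  int z := by
    have h1 := chn_integrable (B := B) h.nn (f - z)
    refine h1.congr (Filter.Eventually.of_forall fun g => ?_)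
    simp only [mul_one]
    rw [← H37.qf_neg]
    congr 4
    abel
  one z := by
    have h1 := chn_one h (f - z)
    have h2 : ∀ g : I → ℝ, Real.exp (-(qf M (z - (f + B *ᵥ g)) / 2)) * 1 =
        Real.exp (-(qf M (f - z + B *ᵥ g) / 2)) := by
      intro g
      rw [mul_one, ← H37.qf_neg]
      congr 4
      abel
    simp only [h2]
    rw [h1, ← H37.qf_neg]
    congr 5
    abel

end

end Vale.Agent.P159.H896
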