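import Vale.Agent.P159.H896.Chg
import Vale.Agent.P159.H353.Coef

/-!
P159, module CHG (helper896), Gram kernels: the discrete duplication kernel of the weights
`∏ I_{∇h}(b)` is a Gram kernel.
-/

open MeasureTheory Complex Finset
open scoped ComplexConjugate
open Vale.Agent.P159.H353 (wI wI_nonneg wI_neg gS hasSum_gS summable_wI)

namespace Vale.Agent.P159.H896

noncomputable section

/-! ### Gram kernels -/

lemma hsR_congr {ι : Type*} {f g : ι → ℝ} {a : ℝ} (hf : HasSum f a) (h : ∀ n, f n = g n) :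
    HasSum g a := by
  have : f = g := funext h
  rwa [this] at hf

/-- Gram kernels (with real features) -/
def GramK {X : Type*} (N : X → X → ℝ) : Prop :=
  ∃ (K : Type) (α : K → X → ℝ), ∀ u v, HasSum (fun k => α k u * α k v) (N u v)

section gram

variable {X Y : Type*}

lemma GramK.congr {N N' : X → X → ℝ} (h : GramK N) (e : ∀ u v, N u v = N' u v) : GramK N' := by
  obtain ⟨K, α, h⟩ := h
  exact ⟨K, α, fun u v => by rw [← e]; exact h u v⟩

lemma GramK.symm {N : X → X → ℝ} (h : GramK N) (u v : X) : N u v = N v u := by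
  obtain ⟨K, α, h⟩ := h
  refine (h u v).unique ?_
  have := h v u
  simpa only [mul_comm] using this

lemma GramK.mul {N N' : X → X → ℝ} (h : GramK N) (h' : GramK N') :
    GramK fun u v => N u v * N' u v := by
  obtain ⟨K, α, h⟩ := h
  obtain ⟨K', α', h'⟩ := h'
  refine ⟨K × K', fun k u => α k.1 u * α' k.2 u, fun u v => ?_⟩
  have h1 := (h u v).mul (h' u v)
    (summable_mul_of_summable_norm (h u v).summable.norm (h' u v).summable.norm)
  have e : (fun k : K × K' => α k.1 u * α' k.2 u * (α k.1 v * α' k.2 v)) =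
      fun k : K × K' => α k.1 u * α k.1 v * (α' k.2 u * α' k.2 v) := by
    funext k
    ring
  rw [e]
  exact h1

lemma GramK.comap {N : X → X → ℝ} (h : GramK N) (f : Y → X) : GramK fun u v => N (f u) (f v) := by
  obtain ⟨K, α, h⟩ := h
  exact ⟨K, fun k u => α k (f u), fun u v => h (f u) (f v)⟩

lemma GramK.rank1 (g : X → ℝ) : GramK fun u v => g u * g v :=
  ⟨Unit, fun _ u => g u, fun u v => by simp⟩

lemma GramK.one : GramK fun _ _ : X => 1 := by
  refine (GramK.rank1 fun _ : X => 1).congr fun u v => ?_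
  norm_num

lemma GramK.prod {ι : Type*} (s : Finset ι) (N : ι → X → X → ℝ) (h : ∀ i ∈ s, GramK (N i)) :
    GramK fun u v => ∏ i ∈ s, N i u v := by
  classical
  induction s using Finset.induction_on with
  | empty =>
    simp only [Finset.prod_empty]
    exact GramK.one
  | insert i s hi ih =>
    simp only [Finset.prod_insert hi]
    exact (h i (Finset.mem_insert_self _ _)).mul
      (ih fun j hj => h j (Finset.mem_insert_of_mem hj))

/-- equality of a finite valued type function -/
lemma GramK.ind {P : Type} [Fintype P] [DecidableEq P] (p : X → P) :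
    GramK fun u v => if p u = p v then (1 : ℝ) else 0 := by
  refine ⟨P, fun k u => if p u = k then 1 else 0, fun u v => ?_⟩
  have h1 := hasSum_fintype fun k : P => (if p u = k then (1 : ℝ) else 0) * if p v = k then 1 else 0
  have h2 : ∑ k : P, ((if p u = k then (1 : ℝ) else 0) * if p v = k then 1 else 0) =
      if p u = p v then (1 : ℝ) else 0 := by
    simp only [ite_mul, one_mul, zero_mul]
    rw [Finset.sum_ite_eq]
    simp only [Finset.mem_univ, if_true]
    by_cases h : p u = p v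
    · rw [if_pos h, if_pos h.symm]
    · rw [if_neg h, if_neg (Ne.symm h)]
  rw [h2] at h1
  exact h1

/-- Gram kernels are positive semidefinite -/
lemma GramK.psd {N : X → X → ℝ} (h : GramK N) (S : Finset X) (z : X → ℝ) :
    0 ≤ ∑ u ∈ S, ∑ v ∈ S, z u * z v * N u v := by
  obtain ⟨K, α, h⟩ := h
  have h1 : HasSum (fun k => ∑ u ∈ S, ∑ v ∈ S, z u * z v * (α k u * α k v))
      (∑ u ∈ S, ∑ v ∈ S, z u * z v * N u v) :=
    hasSum_sum fun u _ => hasSum_sum fun v _ => (h u v).mul_left _
  refine h1.nonneg fun k => ?_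
  have h2 : ∑ u ∈ S, ∑ v ∈ S, z u * z v * (α k u * α k v) = (∑ u ∈ S, z u * α k u) ^ 2 := by
    rw [sq, Finset.sum_mul_sum]
    refine Finset.sum_congr rfl fun u _ => Finset.sum_congr rfl fun v _ => ?_
    ring
  rw [h2]
  positivity

/-- complex form -/
lemma GramK.psdC {N : X → X → ℝ} (h : GramK N) (S : Finset X) (z : X → ℂ) :
    0 ≤ (∑ u ∈ S, ∑ v ∈ S, conj (z u) * z v * (N u v : ℂ)).re := by
  have h1 : (∑ u ∈ S, ∑ v ∈ S, conj (z u) * z v * (N u v : ℂ)).re =
      (∑ u ∈ S, ∑ v ∈ S, (z u).re * (z v).re * N u v) +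
        ∑ u ∈ S, ∑ v ∈ S, (z u).im * (z v).im * N u v := by
    rw [← Finset.sum_add_distrib]
    simp only [Complex.re_sum]
    refine Finset.sum_congr rfl fun u _ => ?_
    rw [← Finset.sum_add_distrib]
    refine Finset.sum_congr rfl fun v _ => ?_
    simp only [Complex.mul_re, Complex.mul_im, Complex.conj_re, Complex.conj_im,
      Complex.ofReal_re, Complex.ofReal_im]
    ring
  rw [h1]
  exact add_nonneg (h.psd S _) (h.psd S _)

end gram

/-! ### the edge kernel -/

/-- `∫₀¹ cos(2πu)^k e^{-2πisu} du` -/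
def Ac (k : ℕ) (s : ℤ) : ℂ := ∫ u in (0 : ℝ)..1, ((Real.cos (2 * Real.pi * u) ^ k : ℝ) : ℂ) * ph s u

lemma cont_cos2 : Continuous fun u : ℝ => Real.cos (2 * Real.pi * u) := by fun_prop

lemma per_cos2 : Function.Periodic (fun u : ℝ => Real.cos (2 * Real.pi * u)) 1 := by
  intro u
  show Real.cos (2 * Real.pi * (u + 1)) = Real.cos (2 * Real.pi * u)
  rw [mul_add, mul_one, Real.cos_add_two_pi]

lemma cont_Ac (k : ℕ) (s : ℤ) :
    Continuous fun u : ℝ => ((Real.cos (2 * Real.pi * u) ^ k : ℝ) : ℂ) * ph s u :=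
  (Complex.continuous_ofReal.comp (cont_cos2.pow k)).mul (continuous_ph s)

lemma per_Ac (k : ℕ) (s : ℤ) :
    Function.Periodic (fun u : ℝ => ((Real.cos (2 * Real.pi * u) ^ k : ℝ) : ℂ) * ph s u) 1 := by
  intro u
  have h1 : Real.cos (2 * Real.pi * (u + 1)) = Real.cos (2 * Real.pi * u) := per_cos2 u
  show ((Real.cos (2 * Real.pi * (u + 1)) ^ k : ℝ) : ℂ) * ph s (u + 1) = _
  rw [h1, ph_per s u]

lemma Ac_neg (k : ℕ) (s : ℤ) : Ac k (-s) = Ac k s := by
  unfold Ac
  have h1 : ∫ u in (0 : ℝ)..1, ((Real.cos (2 * Real.pi * u) ^ k : ℝ) : ℂ) * ph (-s) u =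
      ∫ u in (0 : ℝ)..1, (fun v => ((Real.cos (2 * Real.pi * v) ^ k : ℝ) : ℂ) * ph s v) (-u) := by
    refine intervalIntegral.integral_congr fun u _ => ?_
    show _ = ((Real.cos (2 * Real.pi * (-u)) ^ k : ℝ) : ℂ) * ph s (-u)
    rw [mul_neg, Real.cos_neg, ph_neg_right]
  rw [h1, intervalIntegral.integral_comp_neg
    (fun v => ((Real.cos (2 * Real.pi * v) ^ k : ℝ) : ℂ) * ph s v)]
  have := (per_Ac k s).intervalIntegral_add_eq (-1) 0
  rw [neg_zero, show (0 : ℝ) = -1 + 1 by ring, this]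
  norm_num

lemma conj_Ac (k : ℕ) (s : ℤ) : conj (Ac k s) = Ac k s := by
  have h1 : conj (Ac k s) = Ac k (-s) := by
    unfold Ac
    rw [intervalIntegral.integral_of_le zero_le_one, intervalIntegral.integral_of_le zero_le_one,
      ← integral_conj]
    refine integral_congr_ae (Filter.Eventually.of_forall fun u => ?_)
    show conj (((Real.cos (2 * Real.pi * u) ^ k : ℝ) : ℂ) * ph s u) = _
    rw [map_mul, conj_ph, Complex.conj_ofReal]
  rw [h1, Ac_neg]

lemma Ac_real (k : ℕ) (s : ℤ) : Ac k s = ((Ac k s).re : ℂ) :=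
  (Complex.conj_eq_iff_re.1 (conj_Ac k s)).symm

lemma ph_half (s : ℤ) : ph s (1 / 2) = (-1) ^ s := by
  unfold ph
  have h1 : (-(2 * (Real.pi : ℂ) * s * ((1 / 2 : ℝ) : ℂ))) * I = (s : ℂ) * (-(Real.pi * I)) := by
    push_cast; ring
  rw [h1, Complex.exp_int_mul]
  congr 1
  rw [Complex.exp_neg, Complex.exp_pi_mul_I]
  norm_num

lemma Ac_shift (k : ℕ) (s : ℤ) : Ac k s = (-1) ^ k * (-1) ^ s * Ac k s := by
  have h0 := (per_Ac k s).intervalIntegral_add_eq (1 / 2) 0
  rw [zero_add] at h0
  have h2 : ∫ u in (0 : ℝ)..1,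
      (fun v => ((Real.cos (2 * Real.pi * v) ^ k : ℝ) : ℂ) * ph s v) (u + 1 / 2) = Ac k s := by
    rw [intervalIntegral.integral_comp_add_right
      (fun v => ((Real.cos (2 * Real.pi * v) ^ k : ℝ) : ℂ) * ph s v) (1 / 2)]
    unfold Ac
    rw [← h0]
    congr 1 <;> ring
  have h3 : ∫ u in (0 : ℝ)..1,
      (fun v => ((Real.cos (2 * Real.pi * v) ^ k : ℝ) : ℂ) * ph s v) (u + 1 / 2) =
      (-1) ^ k * (-1) ^ s * Ac k s := by
    unfold Ac
    rw [← intervalIntegral.integral_const_mul]
    refine intervalIntegral.integral_congr fun u _ => ?_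
    show ((Real.cos (2 * Real.pi * (u + 1 / 2)) ^ k : ℝ) : ℂ) * ph s (u + 1 / 2) = _
    rw [ph_add, ph_half, show 2 * Real.pi * (u + 1 / 2) = 2 * Real.pi * u + Real.pi by ring,
      Real.cos_add_pi, neg_pow]
    push_cast
    ring
  exact h2.symm.trans h3

lemma Ac_zero_of_odd {k : ℕ} {s : ℤ} (h : Odd ((k : ℤ) + s)) : Ac k s = 0 := by
  have h1 := Ac_shift k s
  have h2 : (-1 : ℂ) ^ k * (-1) ^ s = -1 := by
    rw [← zpow_natCast, ← zpow_add₀ (by norm_num : (-1 : ℂ) ≠ 0)]
    exact h.neg_one_zpow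
  rw [h2] at h1
  have h3 : (2 : ℂ) * Ac k s = 0 := by linear_combination h1
  simpa using h3

/-- Fourier coefficients of `exp (b cos)` on `[0,1]` -/
lemma wI_int {b : ℝ} (hb : 0 ≤ b) (n : ℤ) :
    ∫ u in (0 : ℝ)..1, ((Real.exp (b * Real.cos (2 * Real.pi * u)) : ℝ) : ℂ) * ph n u =
      (wI b n : ℂ) := by
  have hpi : (Real.pi : ℂ) ≠ 0 := by exact_mod_cast Real.pi_ne_zero
  have h1 : ∀ u : ℝ, HasSum (fun m : ℤ => (wI b m : ℂ) * ph (n - m) u)
      (((Real.exp (b * Real.cos (2 * Real.pi * u)) : ℝ) : ℂ) * ph n u) := by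
    intro u
    have h2 := (hasSum_gS hb ((2 * Real.pi * u : ℝ) : Vale.Agent.P159.T)).mul_right (ph n u)
    have e1 : gS b ((2 * Real.pi * u : ℝ) : Vale.Agent.P159.T) =
        Real.exp (b * Real.cos (2 * Real.pi * u)) := by
      unfold gS
      congr 2
    rw [e1] at h2
    refine H353.hs_congr h2 fun m => ?_
    have e2 : (fourier m ((2 * Real.pi * u : ℝ) : Vale.Agent.P159.T) : ℂ) = ph (-m) u := by
      rw [fourier_coe_apply]
      unfold ph
      push_cast
      field_simp
    rw [e2, mul_assoc, ← ph_add_int]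
    congr 2
    ring
  have h3 : HasSum (fun m : ℤ => ∫ u in (0 : ℝ)..1, (wI b m : ℂ) * ph (n - m) u)
      (∫ u in (0 : ℝ)..1, ((Real.exp (b * Real.cos (2 * Real.pi * u)) : ℝ) : ℂ) * ph n u) := by
    refine intervalIntegral.hasSum_integral_of_dominated_convergence
      (fun m _ => wI b m) (fun m => ?_) (fun m => ?_) ?_ ?_ ?_
    · exact (continuous_const.mul (continuous_ph _)).aestronglyMeasurable
    · refine Filter.Eventually.of_forall fun u _ => ?_
      rw [norm_mul, norm_ph, mul_one, Complex.norm_real, Real.norm_eq_abs,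
        abs_of_nonneg (wI_nonneg hb m)]
    · exact Filter.Eventually.of_forall fun u _ => summable_wI hb
    · exact intervalIntegrable_const
    · exact Filter.Eventually.of_forall fun u _ => h1 u
  have h4 : ∀ m : ℤ, ∫ u in (0 : ℝ)..1, (wI b m : ℂ) * ph (n - m) u =
      if m = n then (wI b n : ℂ) else 0 := by
    intro m
    rw [intervalIntegral.integral_const_mul]
    split_ifs with h
    · subst h
      simp [ph_zero_left]
    · have h5 : ∫ u in (0 : ℝ)..1, ph (n - m) u = 0 := by
        have hq : n - m ≠ 0 := sub_ne_zero.2 (Ne.symm h)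
        unfold ph
        have e3 : ∀ u : ℝ, (-(2 * (Real.pi : ℂ) * ((n - m : ℤ) : ℂ) * (u : ℂ))) * I =
            (-(2 * (Real.pi : ℂ) * ((n - m : ℤ) : ℂ)) * I) * u := by
          intro u; ring
        simp only [e3]
        have hc : (-(2 * (Real.pi : ℂ) * ((n - m : ℤ) : ℂ)) * I) ≠ 0 := by
          refine mul_ne_zero (neg_ne_zero.2 (mul_ne_zero (mul_ne_zero two_ne_zero hpi) ?_)) I_ne_zero
          exact_mod_cast hq
        rw [integral_exp_mul_complex hc]
        have e4 : cexp (-(2 * (Real.pi : ℂ) * ((n - m : ℤ) : ℂ)) * I * ((1 : ℝ) : ℂ)) = 1 := by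
          have : -(2 * (Real.pi : ℂ) * ((n - m : ℤ) : ℂ)) * I * ((1 : ℝ) : ℂ) =
              ((-(n - m) : ℤ) : ℂ) * (2 * Real.pi * I) := by
            push_cast; ring
          rw [this, Complex.exp_int_mul_two_pi_mul_I]
        rw [e4]
        simp
      rw [h5, mul_zero]
  simp only [h4] at h3
  exact (h3.unique (hasSum_ite_eq n (wI b n : ℂ)))

/-- **product formula** of the Bessel weights -/
lemma hasSum_edge_c {b : ℝ} (hb : 0 ≤ b) (s d : ℤ) :
    HasSum (fun k : ℕ => (((2 * b) ^ k / (k.factorial : ℝ) : ℝ) : ℂ) * (Ac k s * Ac k d))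
      (∫ v in (0 : ℝ)..1, ∫ u in (0 : ℝ)..1, ((Real.exp (2 * b * (Real.cos (2 * Real.pi * u) *
        Real.cos (2 * Real.pi * v))) : ℝ) : ℂ) * (ph s u * ph d v)) := by
  have hS : Summable fun k : ℕ => (2 * b) ^ k / (k.factorial : ℝ) :=
    Real.summable_pow_div_factorial _
  have h2b : 0 ≤ 2 * b := by positivity
  have hk : ∀ k : ℕ, 0 ≤ (2 * b) ^ k / (k.factorial : ℝ) := fun k => by positivity
  have hcos : ∀ u : ℝ, ∀ k : ℕ, ‖((Real.cos (2 * Real.pi * u) ^ k : ℝ) : ℂ)‖ ≤ 1 := by
    intro u k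
    rw [Complex.norm_real, norm_pow]
    exact pow_le_one₀ (norm_nonneg _) (Real.abs_cos_le_one _)
  have hpt : ∀ u v : ℝ, HasSum (fun k : ℕ => (((2 * b) ^ k / (k.factorial : ℝ) : ℝ) : ℂ) *
      ((((Real.cos (2 * Real.pi * u) ^ k : ℝ) : ℂ) * ph s u) *
        (((Real.cos (2 * Real.pi * v) ^ k : ℝ) : ℂ) * ph d v)))
      (((Real.exp (2 * b * (Real.cos (2 * Real.pi * u) *
        Real.cos (2 * Real.pi * v))) : ℝ) : ℂ) * (ph s u * ph d v)) := by
    intro u v
    have h1 : HasSum (fun k : ℕ => (2 * b * (Real.cos (2 * Real.pi * u) *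
        Real.cos (2 * Real.pi * v))) ^ k / (k.factorial : ℝ))
        (Real.exp (2 * b * (Real.cos (2 * Real.pi * u) * Real.cos (2 * Real.pi * v)))) := by
      rw [Real.exp_eq_exp_ℝ]
      exact NormedSpace.expSeries_div_hasSum_exp _
    have h2 := ((Complex.hasSum_ofReal.2 h1).mul_right (ph s u * ph d v))
    refine H353.hs_congr h2 fun k => ?_
    rw [mul_pow, mul_pow]
    push_cast
    ring
  have hin : ∀ v : ℝ, HasSum (fun k : ℕ => (((2 * b) ^ k / (k.factorial : ℝ) : ℝ) : ℂ) *
      (Ac k s * (((Real.cos (2 * Real.pi * v) ^ k : ℝ) : ℂ) * ph d v)))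
      (∫ u in (0 : ℝ)..1, ((Real.exp (2 * b * (Real.cos (2 * Real.pi * u) *
        Real.cos (2 * Real.pi * v))) : ℝ) : ℂ) * (ph s u * ph d v)) := by
    intro v
    have h3 : HasSum (fun k : ℕ => ∫ u in (0 : ℝ)..1, (((2 * b) ^ k / (k.factorial : ℝ) : ℝ) : ℂ) *
      ((((Real.cos (2 * Real.pi * u) ^ k : ℝ) : ℂ) * ph s u) *
        (((Real.cos (2 * Real.pi * v) ^ k : ℝ) : ℂ) * ph d v)))
        (∫ u in (0 : ℝ)..1, ((Real.exp (2 * b * (Real.cos (2 * Real.pi * u) *
        Real.cos (2 * Real.pi * v))) : ℝ) : ℂ) * (ph s u * ph d v)) := by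
      refine intervalIntegral.hasSum_integral_of_dominated_convergence
        (fun k _ => (2 * b) ^ k / (k.factorial : ℝ)) (fun k => ?_) (fun k => ?_) ?_ ?_ ?_
      · exact (continuous_const.mul
          ((cont_Ac k s).mul continuous_const)).aestronglyMeasurable
      · refine Filter.Eventually.of_forall fun u _ => ?_
        rw [norm_mul, norm_mul, norm_mul, norm_mul, norm_ph, norm_ph, Complex.norm_real,
          Real.norm_eq_abs, abs_of_nonneg (hk k), mul_one, mul_one]
        exact mul_le_of_le_one_right (hk k)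
          (mul_le_one₀ (hcos u k) (norm_nonneg _) (hcos v k))
      · exact Filter.Eventually.of_forall fun u _ => hS
      · exact intervalIntegrable_const
      · exact Filter.Eventually.of_forall fun u _ => hpt u v
    refine H353.hs_congr h3 fun k => ?_
    rw [intervalIntegral.integral_const_mul, intervalIntegral.integral_mul_const]
    rfl
  have hA : ∀ k : ℕ, ‖Ac k s‖ ≤ 1 := by
    intro k
    unfold Ac
    have := intervalIntegral.norm_integral_le_of_norm_le_const (a := (0 : ℝ)) (b := 1) (C := 1)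
      (f := fun u : ℝ => ((Real.cos (2 * Real.pi * u) ^ k : ℝ) : ℂ) * ph s u) (fun u _ => by
        rw [norm_mul, norm_ph, mul_one]
        exact hcos u k)
    simpa using this
  have h4 : HasSum (fun k : ℕ => ∫ v in (0 : ℝ)..1, (((2 * b) ^ k / (k.factorial : ℝ) : ℝ) : ℂ) *
      (Ac k s * (((Real.cos (2 * Real.pi * v) ^ k : ℝ) : ℂ) * ph d v)))
      (∫ v in (0 : ℝ)..1, ∫ u in (0 : ℝ)..1, ((Real.exp (2 * b * (Real.cos (2 * Real.pi * u) *
        Real.cos (2 * Real.pi * v))) : ℝ) : ℂ) * (ph s u * ph d v)) := by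
    refine intervalIntegral.hasSum_integral_of_dominated_convergence
      (fun k _ => (2 * b) ^ k / (k.factorial : ℝ)) (fun k => ?_) (fun k => ?_) ?_ ?_ ?_
    · exact (continuous_const.mul
        (continuous_const.mul (cont_Ac k d))).aestronglyMeasurable
    · refine Filter.Eventually.of_forall fun v _ => ?_
      rw [norm_mul, norm_mul, norm_mul, norm_ph, Complex.norm_real,
        Real.norm_eq_abs, abs_of_nonneg (hk k), mul_one]
      exact mul_le_of_le_one_right (hk k)
        (mul_le_one₀ (hA k) (norm_nonneg _) (hcos v k))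
    · exact Filter.Eventually.of_forall fun u _ => hS
    · exact intervalIntegrable_const
    · exact Filter.Eventually.of_forall fun v _ => hin v
  refine H353.hs_congr h4 fun k => ?_
  rw [intervalIntegral.integral_const_mul, intervalIntegral.integral_const_mul]
  rfl

lemma edge_double {b : ℝ} (hb : 0 ≤ b) (n n' : ℤ) :
    ∫ v in (0 : ℝ)..1, ∫ u in (0 : ℝ)..1, ((Real.exp (2 * b * (Real.cos (2 * Real.pi * u) *
        Real.cos (2 * Real.pi * v))) : ℝ) : ℂ) * (ph (n + n') u * ph (n - n') v) =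
      (wI b n : ℂ) * (wI b n' : ℂ) := by
  have hg : ∀ m : ℤ, Continuous fun u : ℝ =>
      ((Real.exp (b * Real.cos (2 * Real.pi * u)) : ℝ) : ℂ) * ph m u := by
    intro m
    refine (Complex.continuous_ofReal.comp (Real.continuous_exp.comp
      (continuous_const.mul cont_cos2))).mul (continuous_ph m)
  have hp : ∀ m : ℤ, Function.Periodic (fun u : ℝ =>
      ((Real.exp (b * Real.cos (2 * Real.pi * u)) : ℝ) : ℂ) * ph m u) 1 := by
    intro m u
    have h1 : Real.cos (2 * Real.pi * (u + 1)) = Real.cos (2 * Real.pi * u) := per_cos2 u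
    show ((Real.exp (b * Real.cos (2 * Real.pi * (u + 1))) : ℝ) : ℂ) * ph m (u + 1) = _
    rw [h1, ph_per m u]
  rw [← wI_int hb n, ← wI_int hb n', ← int_prod (hg n) (hg n') (hp n) (hp n')]
  refine intervalIntegral.integral_congr fun v _ => ?_
  refine intervalIntegral.integral_congr fun u _ => ?_
  show ((Real.exp (2 * b * (Real.cos (2 * Real.pi * u) *
        Real.cos (2 * Real.pi * v))) : ℝ) : ℂ) * (ph (n + n') u * ph (n - n') v) =
    (((Real.exp (b * Real.cos (2 * Real.pi * (u + v))) : ℝ) : ℂ) * ph n (u + v)) *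
      (((Real.exp (b * Real.cos (2 * Real.pi * (u - v))) : ℝ) : ℂ) * ph n' (u - v))
  have h1 : Real.exp (2 * b * (Real.cos (2 * Real.pi * u) * Real.cos (2 * Real.pi * v))) =
      Real.exp (b * Real.cos (2 * Real.pi * (u + v))) *
        Real.exp (b * Real.cos (2 * Real.pi * (u - v))) := by
    rw [← Real.exp_add, mul_add, mul_sub, Real.cos_add, Real.cos_sub]
    congr 1
    ring
  rw [h1, ph_add, sub_eq_add_neg u v, ph_add, ph_neg_right, ph_add_int, sub_eq_add_neg n n',
    ph_add_int]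
  push_cast
  ring

/-- the edge duplication kernel -/
def NE (b : ℝ) (s d : ℤ) : ℝ := if 2 ∣ s - d then wI b ((s + d) / 2) * wI b ((s - d) / 2) else 0

theorem hasSum_NE {b : ℝ} (hb : 0 ≤ b) (s d : ℤ) :
    HasSum (fun k : ℕ => (2 * b) ^ k / (k.factorial : ℝ) * ((Ac k s).re * (Ac k d).re))
      (NE b s d) := by
  unfold NE
  split_ifs with h
  · obtain ⟨m, hm⟩ := h
    have e1 : (s - d) / 2 = m := by omega
    have e2 : (s + d) / 2 = d + m := by omega
    rw [e1, e2]
    have h1 := hasSum_edge_c hb (d + m + m) (d + m - m)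
    rw [edge_double hb (d + m) m] at h1
    have e3 : d + m + m = s := by omega
    have e4 : d + m - m = d := by omega
    rw [e3, e4] at h1
    have h2 := Complex.hasSum_re h1
    have h3 : ((wI b (d + m) : ℂ) * (wI b m : ℂ)).re = wI b (d + m) * wI b m := by
      rw [← Complex.ofReal_mul, Complex.ofReal_re]
    rw [h3] at h2
    refine hsR_congr h2 fun k => ?_
    rw [Ac_real k s, Ac_real k d, ← Complex.ofReal_mul, ← Complex.ofReal_mul, Complex.ofReal_re,
      Complex.ofReal_re, Complex.ofReal_re]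
  · have h0 : (fun k : ℕ => (2 * b) ^ k / (k.factorial : ℝ) * ((Ac k s).re * (Ac k d).re)) =
        fun _ => 0 := by
      funext k
      rcases Int.even_or_odd ((k : ℤ) + s) with h1 | h1
      · have h2 : Odd ((k : ℤ) + d) := by
          rw [← Int.not_even_iff_odd]
          intro h3
          apply h
          obtain ⟨p, hp⟩ := h1
          obtain ⟨q, hq⟩ := h3
          exact ⟨p - q, by omega⟩
        rw [Ac_zero_of_odd h2]
        simp
      · rw [Ac_zero_of_odd h1]
        simp
    rw [h0]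
    exact hasSum_zero

theorem gramK_NE {b : ℝ} (hb : 0 ≤ b) : GramK (NE b) := by
  refine ⟨ℕ, fun k s => √((2 * b) ^ k / (k.factorial : ℝ)) * (Ac k s).re, fun s d => ?_⟩
  refine hsR_congr (hasSum_NE hb s d) fun k => ?_
  have hk : 0 ≤ (2 * b) ^ k / (k.factorial : ℝ) := by positivity
  have := Real.mul_self_sqrt hk
  linear_combination (-(Ac k s).re * (Ac k d).re) * this

/-! ### discrete duplication kernels of weights -/

section dup

variable {V : Type} [Fintype V]

/-- the duplication kernel of a weight on `V → ℤ`: `μ(h) μ(h')` as a function of `u = h + h'`,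
`v = h - h'` -/
def ND (μ : (V → ℤ) → ℝ) (u v : V → ℤ) : ℝ := by
  classical
  exact if ∀ x, 2 ∣ u x - v x then μ (fun x => (u x + v x) / 2) * μ (fun x => (u x - v x) / 2) else 0

/-- weights whose duplication kernel is a Gram kernel -/
def DG (μ : (V → ℤ) → ℝ) : Prop := GramK (ND μ)

lemma ND_self (μ : (V → ℤ) → ℝ) (h h' : V → ℤ) : ND μ (h + h') (h - h') = μ h * μ h' := by
  unfold ND
  rw [if_pos]
  · congr 2 <;> (funext x; simp only [Pi.add_apply, Pi.sub_apply]; omega)
  · intro x
    exact ⟨h' x, by simp only [Pi.add_apply, Pi.sub_apply]; ring⟩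

lemma DG.mul {μ ν : (V → ℤ) → ℝ} (h : DG μ) (h' : DG ν) : DG fun h => μ h * ν h := by
  refine (GramK.mul h h').congr fun u v => ?_
  unfold ND
  split_ifs <;> ring

lemma parity_gram : GramK fun u v : V → ℤ =>
    (by classical exact if ∀ x, 2 ∣ u x - v x then (1 : ℝ) else 0) := by
  classical
  refine (GramK.ind fun u : V → ℤ => fun x => ((u x : ℤ) : ZMod 2)).congr fun u v => ?_
  have : ((fun x => ((u x : ℤ) : ZMod 2)) = fun x => ((v x : ℤ) : ZMod 2)) ↔
      ∀ x, 2 ∣ u x - v x := by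
    constructor
    · intro h x
      have h1 := congrFun h x
      have h2 : ((u x - v x : ℤ) : ZMod 2) = 0 := by
        push_cast
        rw [h1, sub_self]
      exact (ZMod.intCast_zmod_eq_zero_iff_dvd _ 2).1 h2
    · intro h
      funext x
      have h2 := (ZMod.intCast_zmod_eq_zero_iff_dvd (u x - v x) 2).2 (h x)
      push_cast at h2
      exact sub_eq_zero.1 h2
  by_cases h : ∀ x, 2 ∣ u x - v x
  · rw [if_pos (this.2 h), if_pos h]
  · rw [if_neg (fun h' => h (this.1 h')), if_neg h]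

/-- a product of edge weights -/
lemma DG.edges {E : Type*} (s : Finset E) (src tgt : E → V) (b : E → ℝ) (hb : ∀ e ∈ s, 0 ≤ b e) :
    DG fun h : V → ℤ => ∏ e ∈ s, wI (b e) (h (tgt e) - h (src e)) := by
  classical
  have h1 := (parity_gram (V := V)).mul (GramK.prod s
    (fun e (u v : V → ℤ) => NE (b e) (u (tgt e) - u (src e)) (v (tgt e) - v (src e)))
    fun e he => (gramK_NE (hb e he)).comap fun u : V → ℤ => u (tgt e) - u (src e))
  refine h1.congr fun u v => ?_
  unfold ND
  split_ifs with h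
  · rw [one_mul, ← Finset.prod_mul_distrib]
    refine Finset.prod_congr rfl fun e _ => ?_
    unfold NE
    obtain ⟨p, hp⟩ := h (tgt e)
    obtain ⟨q, hq⟩ := h (src e)
    have hd : (2 : ℤ) ∣ u (tgt e) - u (src e) - (v (tgt e) - v (src e)) := ⟨p - q, by omega⟩
    rw [if_pos hd]
    beta_reduce
    have a1 : (u (tgt e) - u (src e) + (v (tgt e) - v (src e))) / 2 =
        (u (tgt e) + v (tgt e)) / 2 - (u (src e) + v (src e)) / 2 := by omega
    have a2 : (u (tgt e) - u (src e) - (v (tgt e) - v (src e))) / 2 =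
        (u (tgt e) - v (tgt e)) / 2 - (u (src e) - v (src e)) / 2 := by omega
    rw [a1, a2]
  · rw [zero_mul]

/-- product of site weights `exp (-q(h))`, `q` a quadratic form with
`q(h) + q(h') = (q(h+h') + q(h-h')) / 2` -/
lemma DG.quad (q : (V → ℤ) → ℝ) (hq : ∀ h h', q h + q h' = (q (h + h') + q (h - h')) / 2) :
    DG fun h : V → ℤ => Real.exp (-q h) := by
  classical
  refine ((parity_gram (V := V)).mul (GramK.rank1 fun u : V → ℤ =>
    Real.exp (-(q u / 2)))).congr fun u v => ?_
  unfold ND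
  split_ifs with h
  · rw [one_mul, ← Real.exp_add, ← Real.exp_add]
    congr 1
    have h1 := hq (fun x => (u x + v x) / 2) (fun x => (u x - v x) / 2)
    have e1 : ((fun x => (u x + v x) / 2) + fun x => (u x - v x) / 2 : V → ℤ) = u := by
      funext x
      obtain ⟨p, hp⟩ := h x
      simp only [Pi.add_apply]
      omega
    have e2 : ((fun x => (u x + v x) / 2) - fun x => (u x - v x) / 2 : V → ℤ) = v := by
      funext x
      obtain ⟨p, hp⟩ := h x
      simp only [Pi.sub_apply]
      omega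
    rw [e1, e2] at h1
    linarith
  · rw [zero_mul]

end dup

end

end Vale.Agent.P159.H896
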