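import Vale.Agent.P159.H896.Rq8
import Vale.Agent.P159.H896.CombU
import Vale.Agent.P159.H340.Al4

/-!
P159 (helper896), (P8), part 1: **typical fields on the coarse cells**. For a form `B` on the coarse
cells with at least half of the neutral form of the cells `l ρ`: `Rcl` at twice the field is at most one,
the bare energy and the mean square, off a small set of the Gaussian law with root `pin B`.
-/

set_option linter.unusedSectionVars false

namespace Vale.Agent.P159.H896

open Finset Matrix MeasureTheory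
open Vale.Agent.P159.TM.H104 (EM Ex Cv K3 Lg li nh Gr)
open Vale.Agent.P159.TM.H764 (EE)
open Vale.Agent.P159.H37
open Vale.Agent.P159.H363 (Nf acl pin Rcl lf)
open Vale.Agent.P159.H864 (TI sym MC cobV cl up fc Gc lapM)
open Vale.Agent.P159.H963 (Pn Gnc nMC nwt obsN ntr Neu nM gw_wT)
open Vale.Agent.P159.H730 (RL Hm wN)
open Vale.Agent.P159.H859 (psd_of Rk gd gd_le)
open Vale.Agent.P159.H447 (maj_nwt)
open Vale.Agent.P159.H239 (TypE rs_ray)
open Vale.Agent.P159.H340 (tce anw)
open Vale.Agent.P159.TM.Spec (V)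
open Vale.Agent.P159.TM.SpecC (wT)

noncomputable section

section tail

variable {n : ℕ} [NeZero n]

/-- a translation invariant form is at most its trace -/
lemma ti_le_trace {K : Matrix (V n) (V n) ℝ} (tK : TI K) (h0 : ∀ k, 0 ≤ sym K k) {M : ℝ}
    (hM : ∑ k, sym K k ≤ M) (g : V n → ℝ) : qf K g ≤ M * ∑ x, g x ^ 2 := by
  have h1 := (H864.qf_le_iff tK (TI.one.smul M)).2 (fun k => by
    rw [H864.sym_smul, H864.sym_one, mul_one]
    refine (Finset.single_le_sum (f := fun q => sym K q) (fun q _ => h0 q)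
      (Finset.mem_univ k)).trans hM) g
  have e : qf (1 : Matrix (V n) (V n) ℝ) g = ∑ x, g x ^ 2 := by
    rw [qf_eq, one_mulVec]
    unfold dotProduct
    exact Finset.sum_congr rfl fun x _ => by ring
  rwa [H864.qf_smul_mat, e] at h1

/-- **tail of a quadratic form of the field with root `pin B`** -/
theorem tail_pin {B S : Matrix (V n) (V n) ℝ} (hB : Nf B) (hS : TI S) (hS0 : ∀ k, 0 ≤ sym S k)
    {M : ℝ} (hM0 : 0 < M) (hM : ∑ k ∈ univ.erase (0 : V n), sym S k * (sym B k)⁻¹ ≤ M) (y : ℝ) :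
    (gau (V n)).real {g | 4 * M * (y + 1 / 2) ≤ qf S (pin B *ᵥ g)} ≤ Real.exp (-y) := by
  classical
  have tB := H363.ti_pin B
  set K := pin B * S * pin B with hK
  have tK : TI K := (tB.mul hS).mul tB
  have hKsym : ∀ k, sym K k = sym S k * (sym B k)⁻¹ := by
    intro k
    rw [hK, H864.sym_mul (tB.mul hS) tB, H864.sym_mul tB hS, H363.sym_pin]
    have : √((sym B k)⁻¹) * √((sym B k)⁻¹) = (sym B k)⁻¹ :=
      Real.mul_self_sqrt (inv_nonneg.2 (hB.nn k))
    calc √((sym B k)⁻¹) * sym S k * √((sym B k)⁻¹) =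
          sym S k * (√((sym B k)⁻¹) * √((sym B k)⁻¹)) := by ring
      _ = _ := by rw [this]
  have hK0 : ∀ k, 0 ≤ sym K k := fun k => by
    rw [hKsym]
    exact mul_nonneg (hS0 k) (inv_nonneg.2 (hB.nn k))
  have hKsum : ∑ k, sym K k ≤ M := by
    rw [← Finset.add_sum_erase univ _ (Finset.mem_univ (0 : V n)), hKsym 0, hB.zero]
    simp only [_root_.inv_zero, mul_zero, zero_add]
    simp only [hKsym]
    exact hM
  have hKq : ∀ g : V n → ℝ, qf K g = qf S (pin B *ᵥ g) := by
    intro g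
    have hT : (pin B)ᵀ = pin B := tB.transpose
    rw [hK, qf_eq, qf_eq, ← mulVec_mulVec, ← mulVec_mulVec, dotProduct_mulVec,
      ← mulVec_transpose, hT]
  have hKs : Kᵀ = K := tK.transpose
  have hKn : ∀ g : V n → ℝ, 0 ≤ qf K g := by
    intro g
    have h1 := (H864.qf_le_iff (TI.one.smul 0) tK).2 (fun k => by
      rw [H864.sym_smul, H864.sym_one, zero_mul]
      exact hK0 k) g
    rwa [H864.qf_smul_mat, zero_mul] at h1
  have htr : K.trace ≤ M := by
    rw [tK.trace_eq]
    exact hKsum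
  have h2 := H663.gau_tail hKs hKn (lam := 1 / (2 * M))
    (by positivity) (fun g => by
      have := ti_le_trace tK hK0 hKsum g
      rw [div_mul_eq_mul_div, one_mul, div_le_iff₀ (by positivity)]
      linarith) (4 * M * (y + 1 / 2))
  have hm : MeasurableSet {g : V n → ℝ | 4 * M * (y + 1 / 2) ≤ qf K g} := by
    refine measurableSet_le measurable_const ?_
    unfold H37.qf
    fun_prop
  rw [integral_indicator hm, setIntegral_const, smul_eq_mul, mul_one] at h2
  simp only [hKq] at h2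
  refine h2.trans (Real.exp_le_exp.2 ?_)
  have h3 : 1 / (2 * M) * K.trace ≤ 1 / 2 := by
    rw [div_mul_eq_mul_div, one_mul, div_le_iff₀ (by positivity)]
    linarith
  have h4 : 1 / (2 * M) * (4 * M * (y + 1 / 2)) / 2 = y + 1 / 2 := by
    field_simp
    ring
  linarith

/-- the trace of the bare propagator -/
lemma sum_EE_inv (n : ℕ) [NeZero n] :
    ∑ k ∈ univ.erase (0 : V n), (EE k)⁻¹ ≤ 2 * (n : ℝ) ^ 2 * (2 + Real.log n) := by
  have hn : (0 : ℝ) < n := by exact_mod_cast NeZero.pos n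
  set r : ℝ := 1 / (n : ℝ) ^ 2 with hr
  have hr0 : 0 < r := by positivity
  have h1 : ∀ k ∈ univ.erase (0 : V n), (EE k)⁻¹ ≤ 2 * (r + 1 * EE k)⁻¹ := by
    intro k hk
    have hE := EE_gap' (Finset.ne_of_mem_erase hk)
    have hE0 : 0 < EE k := lt_of_lt_of_le (by positivity) hE
    have h3 : r ≤ EE k := by
      refine le_trans ?_ hE
      rw [hr]
      exact div_le_div_of_nonneg_right (by norm_num) (by positivity)
    rw [one_mul, ← div_eq_mul_inv, inv_eq_one_div, div_le_div_iff₀ hE0 (by positivity)]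
    linarith
  have h5 := gd_le (n := n) hr0 one_pos
  rw [H859.gd_eq hr0 zero_le_one] at h5
  have h6 : ∑ k : V n, (r + 1 * EE k)⁻¹ ≤
      (n : ℝ) ^ 2 * (1 / (r * (n : ℝ) ^ 2) + (1 + Real.log n) / 1) := by
    have h7 := mul_le_mul_of_nonneg_left h5 (by positivity : 0 ≤ (n : ℝ) ^ 2)
    rwa [← mul_assoc, mul_inv_cancel₀ (by positivity), one_mul] at h7
  have h7 : ∑ k ∈ univ.erase (0 : V n), (r + 1 * EE k)⁻¹ ≤ ∑ k : V n, (r + 1 * EE k)⁻¹ := by
    refine Finset.sum_le_sum_of_subset_of_nonneg (Finset.erase_subset _ _) fun k _ _ => ?_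
    have := TM.H764.EE_nonneg k
    positivity
  have e : (n : ℝ) ^ 2 * (1 / (r * (n : ℝ) ^ 2) + (1 + Real.log n) / 1) =
      (n : ℝ) ^ 2 * (2 + Real.log n) := by
    rw [hr]
    field_simp
    ring
  calc ∑ k ∈ univ.erase (0 : V n), (EE k)⁻¹
      ≤ ∑ k ∈ univ.erase (0 : V n), 2 * (r + 1 * EE k)⁻¹ := Finset.sum_le_sum h1
    _ = 2 * ∑ k ∈ univ.erase (0 : V n), (r + 1 * EE k)⁻¹ := by rw [Finset.mul_sum]
    _ ≤ 2 * ((n : ℝ) ^ 2 * (2 + Real.log n)) := by linarith
    _ = _ := by ring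

end tail

section gd

variable {N l ρ : ℕ} [NeZero N] [NeZero (N / l)] [NeZero (N / l / ρ)] [NeZero (N / (l * ρ))]
  {b τ : ℝ} {B : Matrix (V (N / l / ρ)) (V (N / l / ρ)) ℝ}

lemma tcf_smul (x : ℝ) (f : V (N / l / ρ) → ℝ) : tcf N l ρ (x • f) = x • tcf N l ρ f := rfl

/-- **typical `Rcl`**, prior masses `a → 0` -/
theorem gd_R (hb : 0 < b) (hl : l ∣ N) (hρ : ρ ∣ N / l) (hτ : 0 < τ) (hB : Nf B)
    (hBA : ∀ k, sym (anw N l ρ b τ) k ≤ 2 * sym B k) {Y p : ℝ} (hY : 4 ≤ Y) (hp : p ≤ 1 / 2)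
    (hT : ∀ a, 0 < a → a < τ → TypE N (l * ρ) b τ a Y 1 p) :
    (gau (V (N / l / ρ))).real {g | 1 < Rcl N (l * ρ) b τ τ ((2 : ℝ) • tcf N l ρ (pin B *ᵥ g))} ≤
      12 * p := by
  have hL := H340.dvd_lr hl hρ
  set L := l * ρ with hLd
  set h := Nat.div_div_eq_div_mul N l ρ with hh
  have hA : Nf (acl N L b τ τ) := H340.nf_acl hb hL hτ le_rfl
  have hM := maj_nwt (N := N) hb.le hτ 0
  -- a small `κ`
  obtain ⟨κ, hκ, hκA⟩ : ∃ κ : ℝ, 0 < κ ∧ ∀ q : V (N / L), q ≠ 0 → κ ≤ sym (acl N L b τ τ) q := by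
    by_cases hne : (univ.erase (0 : V (N / L))).Nonempty
    · obtain ⟨q0, hq0, hmin⟩ := Finset.exists_min_image (univ.erase (0 : V (N / L)))
        (fun q => sym (acl N L b τ τ) q) hne
      exact ⟨_, hA.pos q0 (Finset.ne_of_mem_erase hq0), fun q hq =>
        hmin q (Finset.mem_erase.2 ⟨hq, Finset.mem_univ _⟩)⟩
    · refine ⟨1, one_pos, fun q hq => ?_⟩
      exact absurd ⟨q, Finset.mem_erase.2 ⟨hq, Finset.mem_univ _⟩⟩ hne
  set a := aof L τ κ with ha
  obtain ⟨ha0, haτ⟩ := aof_pos (N := N) hL hτ hκ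
  have hka := kap_aof (N := N) hL hτ hκ
  have hX' := rl_cell hb.le hL ha0 haτ le_rfl hA
  rw [hka] at hX'
  set X' := srcM N L τ * pinK (acl N L b τ τ) κ with hX'd
  set Z : Matrix (V (N / L)) (V (N / l / ρ)) ℝ :=
    (pin B).submatrix (tce h).symm id with hZ
  set X := srcM N L τ * Z with hX
  have tB := H363.ti_pin B
  have tK := H363.ti_pin (acl N L b τ τ + κ • (Pn : Matrix (V (N / L)) (V (N / L)) ℝ))
  have hXg : ∀ g, X *ᵥ g = srcM N L τ *ᵥ (tcf N l ρ (pin B *ᵥ g)) := by
    intro g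
    rw [hX, ← mulVec_mulVec]
    congr 1
  -- the two covariances
  have hps : (((2 : ℝ) ^ 2) • (X' * X'ᵀ) - X * Xᵀ).PosSemidef := by
    refine psd_of ?_ fun u => ?_
    · rw [transpose_sub, transpose_smul, H859.gram_symm, H859.gram_symm]
    · rw [H859.qf_sub_m, H864.qf_smul_mat]
      set w := (srcM N L τ)ᵀ *ᵥ u with hw
      have e2 : ∀ {J : Type} [Fintype J] (W : Matrix (V (N / L)) J ℝ),
          qf ((srcM N L τ * W) * (srcM N L τ * W)ᵀ) u = ∑ i, (Wᵀ *ᵥ w) i ^ 2 := by
        intro J _ W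
        have := qf_gram (srcM N L τ * W)ᵀ u
        rw [transpose_transpose] at this
        rw [this, transpose_mul, ← mulVec_mulVec, ← hw]
      rw [hX'd, hX, e2, e2]
      have h1 : ∑ i, (Zᵀ *ᵥ w) i ^ 2 = qf (pin B * pin B) (w ∘ tce h) := by
        have e3 : Zᵀ *ᵥ w = pin B *ᵥ (w ∘ tce h) := by
          funext i
          rw [mulVec, mulVec, dotProduct, dotProduct, ← (tce h).sum_comp]
          refine Finset.sum_congr rfl fun x _ => ?_
          rw [hZ, transpose_apply, submatrix_apply, Equiv.symm_apply_apply, id]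
          have hsy : (pin B)ᵀ = pin B := tB.transpose
          have : pin B x i = pin B i x := by
            conv_lhs => rw [← hsy]
            rfl
          rw [this]
          rfl
        rw [e3]
        have := qf_gram (pin B) (w ∘ tce h)
        rw [tB.transpose] at this
        exact this.symm
      have h2 : ∑ i, ((pinK (acl N L b τ τ) κ)ᵀ *ᵥ w) i ^ 2 =
          qf ((pinK (acl N L b τ τ) κ * pinK (acl N L b τ τ) κ).submatrix (tce h) (tce h))
            (w ∘ tce h) := by
        rw [H340.qf_tce]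
        have e4 : (w ∘ tce h) ∘ (tce h).symm = w := by
          funext x
          simp
        rw [e4]
        have := qf_gram (pinK (acl N L b τ τ) κ) w
        have ht : (pinK (acl N L b τ τ) κ)ᵀ = pinK (acl N L b τ τ) κ := tK.transpose
        rw [ht] at this ⊢
        exact this.symm
      rw [h1, h2]
      have h3 := (H864.qf_le_iff (tB.mul tB)
        ((H340.ti_tce h (tK.mul tK)).smul ((2 : ℝ) ^ 2))).2 (fun k => by
          rw [H864.sym_mul tB tB, H363.sym_pin, H864.sym_smul, H340.sym_tce,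
            H864.sym_mul tK tK]
          have e5 := sym_pinK hA κ (tce h k)
          unfold pinK at e5
          rw [e5]
          by_cases hk : k = 0
          · rw [hk, hB.zero]
            have := mul_self_nonneg (if tce h (0 : V (N / l / ρ)) = 0 then (0 : ℝ) else
              √((sym (acl N L b τ τ) (tce h 0) + κ)⁻¹))
            simp only [_root_.inv_zero, Real.sqrt_zero, mul_zero]
            positivity
          · have hk' : tce h k ≠ 0 := fun hc => hk ((H340.tce_eq_zero h).1 hc)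
            rw [if_neg hk', Real.mul_self_sqrt (inv_nonneg.2 (hB.nn k))]
            have h6 := hκA _ hk'
            have h7 := hA.pos _ hk'
            rw [Real.mul_self_sqrt (by positivity)]
            have h8 := hBA k
            unfold H340.anw at h8
            rw [H340.sym_tce] at h8
            have h9 := hB.pos k hk
            have h8' : sym (acl N L b τ τ) (tce h k) ≤ 2 * sym B k := h8
            rw [← div_eq_mul_inv, inv_eq_one_div, div_le_div_iff₀ h9 (by positivity)]
            linarith) (w ∘ tce h)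
      rw [H864.qf_smul_mat] at h3
      have e6 : H363.pin (acl N L b τ τ + κ • (Pn : Matrix (V (N / L)) (V (N / L)) ℝ)) =
        pinK (acl N L b τ τ) κ := rfl
      rw [e6] at h3
      linarith
  have h5 := hM.prob_psd 2 2 hps 1
  have h6 := typ_gauss hb.le hL ha0 haτ hX' (hT a ha0 haτ) (by linarith) le_rfl hp
  have h7 : (gau (V (N / L))).real {g | 1 < Rs (nwt N b τ 0) (((2 : ℝ) * 2) • (X' *ᵥ g))} ≤
      6 * p := by
    refine (measureReal_mono fun g hg => ?_).trans h6
    simp only [Set.mem_ofPred_eq] at hg ⊢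
    exact hg.trans_le (rs_ray hb.le hτ _ (by norm_num) (by linarith))
  have e7 : {g | 1 < Rcl N L b τ τ ((2 : ℝ) • tcf N l ρ (pin B *ᵥ g))} =
      {g | 1 < Rs (nwt N b τ 0) ((2 : ℝ) • (X *ᵥ g))} := by
    ext g
    simp only [Set.mem_ofPred_eq]
    rw [Rcl_eq, srcF_eq hL hτ le_rfl, mulVec_smul, hXg, H963.nMC_self]
  rw [e7]
  linarith

end gd

end

end Vale.Agent.P159.H896
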