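import Vale.Agent.P159.H896.Pe1

/-!
P159 (helper896), (P8), part 2: **the bare energy and the mean square of a typical field on the coarse
cells**.
-/

set_option linter.unusedSectionVars false

namespace Vale.Agent.P159.H896

open Finset Matrix MeasureTheory
open Vale.Agent.P159.TM.H764 (EE)
open Vale.Agent.P159.H37
open Vale.Agent.P159.H363 (Nf acl pin Rcl lf)
open Vale.Agent.P159.H864 (TI sym MC cobV cl up fc Gc lapM)
open Vale.Agent.P159.H859 (Rk)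
open Vale.Agent.P159.H340 (tce anw)
open Vale.Agent.P159.TM.Spec (V)
open Vale.Agent.P159.TM.SpecC (wT)

noncomputable section

variable {N l ρ : ℕ} [NeZero N] [NeZero (N / l)] [NeZero (N / l / ρ)] [NeZero (N / (l * ρ))]
  {b τ : ℝ} {B : Matrix (V (N / l / ρ)) (V (N / l / ρ)) ℝ}

lemma nlr (hl : l ∣ N) (hρ : ρ ∣ N / l) :
    ((N / l / ρ : ℕ) : ℝ) * ((l * ρ : ℕ) : ℝ) = N := by
  have h1 := H864.Nl hl
  have h2 := H864.Nl hρ
  rw [← h1, ← h2]
  push_cast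
  ring

/-- the symbol of the form from below -/
lemma inv_B_le (hb : 0 < b) (hl : l ∣ N) (hρ : ρ ∣ N / l) (hτ : 0 < τ) (hB : Nf B)
    (hBA : ∀ k, sym (anw N l ρ b τ) k ≤ 2 * sym B k) {k : V (N / l / ρ)} (hk : k ≠ 0) :
    (sym B k)⁻¹ ≤ 2 / (((l * ρ : ℕ) : ℝ) ^ 2 * τ) *
      (1 + τ * b * ((l * ρ : ℕ) : ℝ) ^ 2 / EE k) := by
  have hL := H340.dvd_lr hl hρ
  have hLp : (0 : ℝ) < ((l * ρ : ℕ) : ℝ) := by exact_mod_cast H864.l_pos hL
  set h := Nat.div_div_eq_div_mul N l ρ with hh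
  have hk' : tce h k ≠ 0 := fun hc => hk ((H340.tce_eq_zero h).1 hc)
  have h1 := H340.uc_inv (t := τ) hb hL hτ le_rfl hk'
  have h2 := H340.uc_pos (t := τ) hb hL hτ le_rfl hk'
  have h3 := hBA k
  unfold H340.anw at h3
  rw [H340.sym_tce, H340.sym_acl_ne hk'] at h3
  rw [H340.EE_tce] at h1
  have h4 := hB.pos k hk
  have h5 : (0 : ℝ) < ((l * ρ : ℕ) : ℝ) ^ 2 * τ := by positivity
  set u := H340.uc N (l * ρ) b τ τ (tce h k) with hu
  calc (sym B k)⁻¹ ≤ 2 / (((l * ρ : ℕ) : ℝ) ^ 2 * τ) * u⁻¹ := by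
        rw [← div_eq_mul_inv, div_div, inv_eq_one_div, div_le_div_iff₀ h4 (by positivity)]
        linarith
    _ ≤ _ := mul_le_mul_of_nonneg_left h1 (by positivity)

/-- **mean square** -/
theorem gd_S (hb : 0 < b) (hl : l ∣ N) (hρ : ρ ∣ N / l) (hτ : 0 < τ) (hB : Nf B)
    (hBA : ∀ k, sym (anw N l ρ b τ) k ≤ 2 * sym B k) (y : ℝ) :
    (gau (V (N / l / ρ))).real {g | 4 * (2 * ((N / l / ρ : ℕ) : ℝ) ^ 2 +
        4 * b * (τ * (N : ℝ) ^ 2) * (2 + Real.log ((N / l / ρ : ℕ) : ℝ))) * (y + 1 / 2) ≤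
        τ * ∑ x, lf2 N l ρ (pin B *ᵥ g) x ^ 2} ≤ Real.exp (-y) := by
  have hL := H340.dvd_lr hl hρ
  have hLp : (0 : ℝ) < ((l * ρ : ℕ) : ℝ) := by exact_mod_cast H864.l_pos hL
  have hnp : (0 : ℝ) < ((N / l / ρ : ℕ) : ℝ) := by exact_mod_cast NeZero.pos (N / l / ρ)
  have hNn := nlr (N := N) hl hρ
  have hlog : 0 ≤ Real.log ((N / l / ρ : ℕ) : ℝ) := Real.log_natCast_nonneg _
  set L : ℝ := ((l * ρ : ℕ) : ℝ) with hLd
  set n : ℝ := ((N / l / ρ : ℕ) : ℝ) with hn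
  have h1 := tail_pin (B := B) (S := (τ * L ^ 2) • 1) hB (TI.one.smul _) (fun k => by
    rw [H864.sym_smul, H864.sym_one]
    positivity) (M := 2 * n ^ 2 + 4 * b * (τ * (N : ℝ) ^ 2) * (2 + Real.log n)) (by positivity) (by
      have h2 : ∀ k ∈ univ.erase (0 : V (N / l / ρ)),
          sym ((τ * L ^ 2) • (1 : Matrix (V (N / l / ρ)) (V (N / l / ρ)) ℝ)) k * (sym B k)⁻¹ ≤
            2 + 2 * τ * b * L ^ 2 * (EE k)⁻¹ := by
        intro k hk
        have hk' := Finset.ne_of_mem_erase hk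
        have hE : 0 < EE k := H462.EE_pos hk'
        rw [H864.sym_smul, H864.sym_one, mul_one]
        have h3 := mul_le_mul_of_nonneg_left (inv_B_le hb hl hρ hτ hB hBA hk')
          (by positivity : 0 ≤ τ * L ^ 2)
        refine h3.trans (le_of_eq ?_)
        rw [← hLd]
        field_simp
      refine (Finset.sum_le_sum h2).trans ?_
      rw [Finset.sum_add_distrib, ← Finset.mul_sum, Finset.sum_const, nsmul_eq_mul]
      have h4 := sum_EE_inv (N / l / ρ)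
      rw [← hn] at h4
      have h5 : ((univ.erase (0 : V (N / l / ρ))).card : ℝ) ≤ n ^ 2 := by
        have h6 : (univ.erase (0 : V (N / l / ρ))).card ≤ (univ : Finset (V (N / l / ρ))).card :=
          Finset.card_le_card (Finset.erase_subset _ _)
        have h7 : (((univ : Finset (V (N / l / ρ))).card : ℕ) : ℝ) = n ^ 2 := by
          rw [Finset.card_univ, TM.H764.card_V]
        rw [← h7]
        exact_mod_cast h6
      have h6 := mul_le_mul_of_nonneg_left h4 (by positivity : 0 ≤ 2 * τ * b * L ^ 2)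
      have h8 : 2 * τ * b * L ^ 2 * (2 * n ^ 2 * (2 + Real.log n)) =
          4 * b * (τ * (N : ℝ) ^ 2) * (2 + Real.log n) := by
        rw [← hNn]
        ring
      linarith) y
  refine le_trans (le_of_eq ?_) h1
  congr 1
  ext g
  simp only [Set.mem_ofPred_eq]
  have e : qf ((τ * L ^ 2) • (1 : Matrix (V (N / l / ρ)) (V (N / l / ρ)) ℝ)) (pin B *ᵥ g) =
      τ * ∑ x, lf2 N l ρ (pin B *ᵥ g) x ^ 2 := by
    rw [H37.qf_smul_one, lf2_eq hl hρ, H363.lf_eq hL]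
    have e2 : ∑ x, ((((l * ρ : ℕ) : ℝ)) • ((cobV N (l * ρ))ᵀ *ᵥ tcf N l ρ (pin B *ᵥ g))) x ^ 2 =
        L ^ 2 * ∑ x, ((cobV N (l * ρ))ᵀ *ᵥ tcf N l ρ (pin B *ᵥ g)) x ^ 2 := by
      rw [Finset.mul_sum]
      refine Finset.sum_congr rfl fun x _ => ?_
      rw [Pi.smul_apply, smul_eq_mul, mul_pow]
    rw [e2, H864.sq_cobV_tr hL]
    have e3 : ∑ c, tcf N l ρ (pin B *ᵥ g) c ^ 2 = ∑ c, (pin B *ᵥ g) c ^ 2 :=
      sum_sq_tce (Nat.div_div_eq_div_mul N l ρ) _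
    rw [e3]
    ring
  rw [e]

/-- **bare energy** -/
theorem gd_E (hb : 0 < b) (hl : l ∣ N) (hρ : ρ ∣ N / l) (hτ : 0 < τ) (hB : Nf B)
    (hBA : ∀ k, sym (anw N l ρ b τ) k ≤ 2 * sym B k) {κ : ℝ} (hκ : 0 < κ) (hκb : κ * b ≤ 1)
    (y : ℝ) :
    (gau (V (N / l / ρ))).real {g | 4 * (4 / κ * (τ * (N : ℝ) ^ 2) *
        (2 + Real.log ((N / l / ρ : ℕ) : ℝ))) * (y + 1 / 2) ≤
        qf (Rk τ (κ / ((l * ρ : ℕ) : ℝ) ^ 2)) (cobV N (l * ρ) *ᵥ (τ • lf2 N l ρ (pin B *ᵥ g)))} ≤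
      Real.exp (-y) := by
  have hL := H340.dvd_lr hl hρ
  have hLp : (0 : ℝ) < ((l * ρ : ℕ) : ℝ) := by exact_mod_cast H864.l_pos hL
  have hnp : (0 : ℝ) < ((N / l / ρ : ℕ) : ℝ) := by exact_mod_cast NeZero.pos (N / l / ρ)
  have hNp : (0 : ℝ) < N := by exact_mod_cast NeZero.pos N
  have hNn := nlr (N := N) hl hρ
  have hlog : 0 ≤ Real.log ((N / l / ρ : ℕ) : ℝ) := Real.log_natCast_nonneg _
  set L : ℝ := ((l * ρ : ℕ) : ℝ) with hLd
  set n : ℝ := ((N / l / ρ : ℕ) : ℝ) with hn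
  have hκL : 0 ≤ κ / L ^ 2 := by positivity
  have h1 := tail_pin (B := B) (S := (τ ^ 2 * L ^ 2) • Rk τ (κ / L ^ 2)) hB
    ((H859.ti_Rk _ _).smul _) (fun k => by
    rw [H864.sym_smul, H859.sym_Rk hτ hκL]
    have := TM.H764.EE_nonneg k
    positivity) (M := 4 / κ * (τ * (N : ℝ) ^ 2) * (2 + Real.log n)) (by positivity) (by
      have h2 : ∀ k ∈ univ.erase (0 : V (N / l / ρ)),
          sym ((τ ^ 2 * L ^ 2) • (Rk τ (κ / L ^ 2) : Matrix (V (N / l / ρ)) (V (N / l / ρ)) ℝ)) k *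
            (sym B k)⁻¹ ≤ 2 * τ * L ^ 2 / κ * (EE k)⁻¹ := by
        intro k hk
        have hk' := Finset.ne_of_mem_erase hk
        have hE : 0 < EE k := H462.EE_pos hk'
        rw [H864.sym_smul, H859.sym_Rk hτ hκL]
        have h3 := mul_le_mul_of_nonneg_left (inv_B_le hb hl hρ hτ hB hBA hk')
          (by positivity : 0 ≤ τ ^ 2 * L ^ 2 * (τ + κ / L ^ 2 * EE k)⁻¹)
        refine h3.trans ?_
        rw [← hLd]
        have e1 : τ ^ 2 * L ^ 2 * (τ + κ / L ^ 2 * EE k)⁻¹ *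
            (2 / (L ^ 2 * τ) * (1 + τ * b * L ^ 2 / EE k)) =
            2 * τ * L ^ 2 * (EE k)⁻¹ * ((EE k + τ * b * L ^ 2) / (τ * L ^ 2 + κ * EE k)) := by
          field_simp
        have e2 : 2 * τ * L ^ 2 / κ * (EE k)⁻¹ = 2 * τ * L ^ 2 * (EE k)⁻¹ * (1 / κ) := by
          field_simp
        rw [e1, e2]
        refine mul_le_mul_of_nonneg_left ?_ (by positivity)
        rw [div_le_div_iff₀ (by positivity) hκ]
        have : κ * b * (τ * L ^ 2) ≤ 1 * (τ * L ^ 2) :=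
          mul_le_mul_of_nonneg_right hκb (by positivity)
        linarith
      refine (Finset.sum_le_sum h2).trans ?_
      rw [← Finset.mul_sum]
      have h4 := sum_EE_inv (N / l / ρ)
      rw [← hn] at h4
      have h6 := mul_le_mul_of_nonneg_left h4 (by positivity : 0 ≤ 2 * τ * L ^ 2 / κ)
      refine h6.trans (le_of_eq ?_)
      rw [← hNn]
      field_simp
      ring) y
  refine le_trans (le_of_eq ?_) h1
  congr 1
  ext g
  simp only [Set.mem_ofPred_eq]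
  have e : qf ((τ ^ 2 * L ^ 2) • (Rk τ (κ / L ^ 2) : Matrix (V (N / l / ρ)) (V (N / l / ρ)) ℝ))
      (pin B *ᵥ g) =
      qf (Rk τ (κ / L ^ 2)) (cobV N (l * ρ) *ᵥ (τ • lf2 N l ρ (pin B *ᵥ g))) := by
    have e1 : cobV N (l * ρ) *ᵥ (τ • lf2 N l ρ (pin B *ᵥ g)) =
        (τ * L) • tcf N l ρ (pin B *ᵥ g) := by
      rw [lf2_eq hl hρ, H363.lf_eq hL, mulVec_smul, mulVec_smul, mulVec_mulVec,
        H864.cobV_mul_tr hL, one_mulVec, smul_smul]
    rw [e1, H864.qf_smul_mat, H37.qf_smul]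
    have e3 : qf (Rk τ (κ / L ^ 2) : Matrix (V (N / (l * ρ))) (V (N / (l * ρ))) ℝ)
        (tcf N l ρ (pin B *ᵥ g)) =
        qf (Rk τ (κ / L ^ 2) : Matrix (V (N / l / ρ)) (V (N / l / ρ)) ℝ) (pin B *ᵥ g) :=
      qf_Rk_tce (Nat.div_div_eq_div_mul N l ρ) _ _ _
    rw [e3]
    ring
  rw [e]

end

end Vale.Agent.P159.H896
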