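import Vale.Agent.P159.H896.Pe2
import Vale.Agent.P159.H896.EvalF
import Vale.Agent.P159.H340.Vb8
import Vale.Agent.P159.H889.Vreal
import Vale.Agent.P159.H375.Fine0

/-!
P159 (helper896), (P8), part 3: **the functional after one step against the transported functional**,
abstract numbers.
-/

set_option linter.unusedSectionVars false

namespace Vale.Agent.P159.H896

open Finset Matrix MeasureTheory Filter Topology
open Vale.Agent.P159.TM.H104 (EM Ex Cv K3 Lg li nh Gr)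
open Vale.Agent.P159.TM.H764 (EE)
open Vale.Agent.P159.H37
open Vale.Agent.P159.H363 (Nf acl pin Rcl lf Wcl)
open Vale.Agent.P159.H864 (TI sym MC cobV cl up fc Gc lapM)
open Vale.Agent.P159.H963 (Pn Gnc nMC nwt obsN ntr Neu nM gw_wT)
open Vale.Agent.P159.H730 (RL Hm wN)
open Vale.Agent.P159.H859 (Rk)
open Vale.Agent.P159.H239 (TypE rs_ray)
open Vale.Agent.P159.H340 (tce anw)
open Vale.Agent.P159.H889 (Wc)
open Vale.Agent.P159.TM.Spec (V)
open Vale.Agent.P159.TM.SpecC (wT)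

noncomputable section

variable {N l ρ : ℕ} [NeZero N] [NeZero (N / l)] [NeZero (N / l / ρ)] [NeZero (N / (l * ρ))]
  {b t τ : ℝ}

lemma wm_Mb (hb : 0 < b) (hl : l ∣ N) (hρ : ρ ∣ N / l) (ht : 0 ≤ t) (hτ : 0 < τ) :
    WM (wT b N) (Mb N l ρ t τ) := by
  have h := H340.bt_Mb (N := N) (τ := τ) hl hρ ht
  exact H375.wm_cell hb (H340.dvd_lr hl hρ) hτ h.sym h.lo

/-- the weight of the typical law at the cells `l` is integrable -/
lemma int_W (hb : 0 < b) (hl : l ∣ N) (hτ : 0 < τ) (h1 : τ < t) :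
    Integrable (fun g => Wcl N l b t t (pin (acl N l b t t) *ᵥ g)) (gau (V (N / l))) := by
  have ht : 0 < t := hτ.trans h1
  haveI : NeZero (N / l / (N / l)) := ⟨by
    rw [Nat.div_self (NeZero.pos _)]
    exact one_ne_zero⟩
  haveI : NeZero (N / (l * (N / l))) := ⟨by
    rw [Nat.mul_div_cancel' hl, Nat.div_self (NeZero.pos _)]
    exact one_ne_zero⟩
  exact typ_int hb.le hl hτ h1 le_rfl (H340.nf_acl hb hl ht le_rfl)
    (wm_Mb hb hl (dvd_refl _) ht.le hτ)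

/-- the good set in the exact law -/
lemma typ_compl (hb : 0 < b) (hl : l ∣ N) {a ρ0 δ : ℝ} (ha : 0 < a) (h1 : a < t)
    (h : TypE N l b t a 1 ρ0 δ) :
    1 - δ ≤ Ech (nMC N l b t a 0) 0 (obsN N l (t - a))
      ({J : V N → ℝ | Rs (nwt N b t 0) J ≤ ρ0}.indicator fun _ => (1 : ℝ)) := by
  have ht : 0 < t := ha.trans h1
  have hE : EM (nMC N l b t a 0) := H963.em_nMC hb.le hl ha h1.le 0
  set S : Set (V N → ℝ) := {J : V N → ℝ | Rs (nwt N b t 0) J ≤ ρ0} with hS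
  have hSm : MeasurableSet S :=
    measurableSet_le (H692.continuous_Rs (H963.em_nwt (N := N) hb.le ht 0)).measurable
      measurable_const
  have hc := H239.chi_set hE 0 (obsN N l (t - a)) hSm
  have hcc := H239.chi_set hE 0 (obsN N l (t - a)) hSm.compl
  have e : (fun _ : V N → ℝ => (1 : ℝ)) = fun F => (S.indicator fun _ => (1 : ℝ)) F +
      (Sᶜ.indicator fun _ => (1 : ℝ)) F := by
    funext F
    by_cases hF : F ∈ S
    · rw [Set.indicator_of_mem hF, Set.indicator_of_notMem (by simpa using hF)]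
      ring
    · rw [Set.indicator_of_notMem hF, Set.indicator_of_mem (by simpa using hF)]
      ring
  have h2 := Ech_const hE (P := obsN N l (t - a)) (J₁ := 0) 1
  rw [e, H663.Ech_add' hc hcc] at h2
  unfold H239.TypE at h
  simp only [one_smul] at h
  have h3 : Ech (nMC N l b t a 0) 0 (obsN N l (t - a)) (Sᶜ.indicator fun _ => (1 : ℝ)) ≤ δ := h
  linarith

/-- **(E) on one torus**, abstract numbers -/
theorem p8_gen (hb : 0 < b) (hl : l ∣ N) (hρ : ρ ∣ N / l) (hτ : 0 < τ) (h1 : τ < t)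
    {ρ0 δ : ℝ} (hρ0 : 0 ≤ ρ0) (hδ0 : 0 ≤ δ) (hδ1 : δ ≤ 1 / 2)
    (hT : ∀ a, 0 < a → a < t → TypE N l b t a 1 ρ0 δ) {e1 : ℝ}
    (he1 : ∀ F, ‖Ph (wT b N) (t • (1 : Matrix (V N) (V N) ℝ)) 1 (lf N l F) - Wc N l b t F‖ ≤ e1)
    (hHS : ∀ k, sym (anw N l ρ b τ) k ≤ 2 * sym (Acx N l ρ b t t τ) k) {Y p : ℝ} (hY : 4 ≤ Y)
    (hp : p ≤ 1 / 2) (hT2 : ∀ a, 0 < a → a < τ → TypE N (l * ρ) b τ a Y 1 p)
    {κ : ℝ} (hκ : 0 < κ) (hκb : κ * b ≤ 1) {y E0 A0 : ℝ}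
    (hE0 : 4 * (4 / κ * (τ * (N : ℝ) ^ 2) * (2 + Real.log ((N / l / ρ : ℕ) : ℝ))) * (y + 1 / 2) ≤
      E0)
    (hA0 : 4 * (2 * ((N / l / ρ : ℕ) : ℝ) ^ 2 +
        4 * b * (τ * (N : ℝ) ^ 2) * (2 + Real.log ((N / l / ρ : ℕ) : ℝ))) * (y + 1 / 2) ≤ A0)
    {dfin : ℝ} (hd : 0 ≤ dfin)
    (hfin : ∀ f' : V (N / l / ρ) → ℝ, Rcl N (l * ρ) b τ τ ((2 : ℝ) • tcf N l ρ f') ≤ 1 →
      qf (Rk τ (κ / ((l * ρ : ℕ) : ℝ) ^ 2)) (cobV N (l * ρ) *ᵥ (τ • lf2 N l ρ f')) ≤ E0 →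
      τ * ∑ x, lf2 N l ρ f' x ^ 2 ≤ A0 →
      ‖Ph (wT b N) (τ • (1 : Matrix (V N) (V N) ℝ)) 1 (lf2 N l ρ f')
        - Ph (wT b N) (Mb N l ρ t τ) 1 (lf2 N l ρ f')‖ ≤ dfin) :
    H889.tn2 (Acx N l ρ b t t τ) (fun f' =>
        Ph (wT b N) (τ • (1 : Matrix (V N) (V N) ℝ)) 1 (lf2 N l ρ f')
        - Pc N l ρ b t t τ (Wc N l b t) f')
      ≤ dfin + (om (wT b N) (τ • (1 : Matrix (V N) (V N) ℝ)) 1 +
          om (wT b N) (t • (1 : Matrix (V N) (V N) ℝ)) 1) * √(12 * p + 2 * Real.exp (-y))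
        + 2 * om (wT b N) (t • (1 : Matrix (V N) (V N) ℝ)) 1 *
          ((Real.exp ρ0 - 1) + √(2 * Real.exp ρ0 * δ)) + e1 := by
  have ht : 0 < t := hτ.trans h1
  have hL := H340.dvd_lr hl hρ
  have hA : Nf (acl N l b t t) := H340.nf_acl hb hl ht le_rfl
  have hnf : Nf (Acx N l ρ b t t τ) := H708.nf_Ac hρ (nf_Ah (t := t) hl hτ h1 hA)
  set Gs : Set (V N → ℝ) := {J | Rs (nwt N b t 0) J ≤ ρ0} with hGs
  have hGsm : MeasurableSet Gs :=
    measurableSet_le (H692.continuous_Rs (H963.em_nwt (N := N) hb.le ht 0)).measurable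
      measurable_const
  have hR : ∀ J ∈ Gs, Neu J → Rs (nMC N l b t t 0) J ≤ ρ0 := by
    intro J hJ _
    rw [H963.nMC_self]
    exact hJ
  have hδ : ∀ᶠ a in 𝓝[>] (0 : ℝ), 1 - δ ≤ Ech (nMC N l b t a 0) 0 (obsN N l (t - a))
      (Gs.indicator fun _ => (1 : ℝ)) := by
    filter_upwards [Ioo_mem_nhdsGT ht] with a ha
    exact typ_compl hb hl ha.1 ha.2 (hT a ha.1 ha.2)
  -- the good set on the coarse cells
  set Gd : Set (V (N / l / ρ) → ℝ) :=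
    ({f' | Rcl N (l * ρ) b τ τ ((2 : ℝ) • tcf N l ρ f') ≤ 1} ∩
      {f' | qf (Rk τ (κ / ((l * ρ : ℕ) : ℝ) ^ 2)) (cobV N (l * ρ) *ᵥ (τ • lf2 N l ρ f')) < E0}) ∩
      {f' | τ * ∑ x, lf2 N l ρ f' x ^ 2 < A0} with hGd
  have hRc : Continuous fun f' : V (N / l / ρ) → ℝ =>
      Rcl N (l * ρ) b τ τ ((2 : ℝ) • tcf N l ρ f') := by
    have e : (fun f' : V (N / l / ρ) → ℝ => Rcl N (l * ρ) b τ τ ((2 : ℝ) • tcf N l ρ f')) =
        fun f' => Rs (nMC N (l * ρ) b τ τ 0) (srcM N (l * ρ) τ *ᵥ ((2 : ℝ) • tcf N l ρ f')) := by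
      funext f'
      rw [Rcl_eq, srcF_eq hL hτ le_rfl]
    rw [e]
    have h2 : Continuous fun f' : V (N / l / ρ) → ℝ => tcf N l ρ f' := by
      unfold tcf
      exact continuous_pi fun c => continuous_apply _
    exact (H692.continuous_Rs (H963.em_nMC hb.le hL hτ le_rfl 0)).comp
      (Continuous.matrix_mulVec continuous_const (h2.const_smul (2 : ℝ)))
  have hlf2 : Continuous (lf2 N l ρ) := continuous_lf2
  have hE1 : Continuous fun f' : V (N / l / ρ) → ℝ =>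
      qf (Rk τ (κ / ((l * ρ : ℕ) : ℝ) ^ 2)) (cobV N (l * ρ) *ᵥ (τ • lf2 N l ρ f')) := by
    have h2 : Continuous fun f' : V (N / l / ρ) → ℝ =>
        cobV N (l * ρ) *ᵥ (τ • lf2 N l ρ f') :=
      Continuous.matrix_mulVec continuous_const (hlf2.const_smul τ)
    have h3 : Continuous fun v : V (N / (l * ρ)) → ℝ =>
        qf (Rk τ (κ / ((l * ρ : ℕ) : ℝ) ^ 2)) v := by
      unfold H37.qf
      fun_prop
    exact h3.comp h2
  have hS1 : Continuous fun f' : V (N / l / ρ) → ℝ => τ * ∑ x, lf2 N l ρ f' x ^ 2 := by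
    refine continuous_const.mul (continuous_finsetSum _ fun x _ => ?_)
    exact ((continuous_apply x).comp hlf2).pow 2
  have hGm : MeasurableSet Gd :=
    ((measurableSet_le hRc.measurable measurable_const).inter
      (measurableSet_lt hE1.measurable measurable_const)).inter
      (measurableSet_lt hS1.measurable measurable_const)
  have hπ : (gau (V (N / l / ρ))).real
      ((fun g => pin (Acx N l ρ b t t τ) *ᵥ g) ⁻¹' Gdᶜ) ≤ 12 * p + 2 * Real.exp (-y) := by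
    have k1 := gd_R hb hl hρ hτ hnf hHS hY hp hT2
    have k2 := gd_E hb hl hρ hτ hnf hHS hκ hκb y
    have k3 := gd_S hb hl hρ hτ hnf hHS y
    have hsub : ((fun g => pin (Acx N l ρ b t t τ) *ᵥ g) ⁻¹' Gdᶜ) ⊆
        ({g | 1 < Rcl N (l * ρ) b τ τ ((2 : ℝ) • tcf N l ρ (pin (Acx N l ρ b t t τ) *ᵥ g))} ∪
          {g | 4 * (4 / κ * (τ * (N : ℝ) ^ 2) * (2 + Real.log ((N / l / ρ : ℕ) : ℝ))) *
            (y + 1 / 2) ≤ qf (Rk τ (κ / ((l * ρ : ℕ) : ℝ) ^ 2))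
              (cobV N (l * ρ) *ᵥ (τ • lf2 N l ρ (pin (Acx N l ρ b t t τ) *ᵥ g)))}) ∪
          {g | 4 * (2 * ((N / l / ρ : ℕ) : ℝ) ^ 2 + 4 * b * (τ * (N : ℝ) ^ 2) *
            (2 + Real.log ((N / l / ρ : ℕ) : ℝ))) * (y + 1 / 2) ≤
            τ * ∑ x, lf2 N l ρ (pin (Acx N l ρ b t t τ) *ᵥ g) x ^ 2} := by
      intro g hg
      by_contra hcon
      simp only [Set.mem_union, Set.mem_ofPred_eq, not_or, not_lt, not_le] at hcon
      obtain ⟨⟨c1, c2⟩, c3⟩ := hcon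
      exact hg ⟨⟨c1, c2.trans_le hE0⟩, c3.trans_le hA0⟩
    refine (measureReal_mono hsub).trans ((measureReal_union_le _ _).trans ?_)
    have k4 := measureReal_union_le (μ := gau (V (N / l / ρ)))
      {g | 1 < Rcl N (l * ρ) b τ τ ((2 : ℝ) • tcf N l ρ (pin (Acx N l ρ b t t τ) *ᵥ g))}
      {g | 4 * (4 / κ * (τ * (N : ℝ) ^ 2) * (2 + Real.log ((N / l / ρ : ℕ) : ℝ))) *
            (y + 1 / 2) ≤ qf (Rk τ (κ / ((l * ρ : ℕ) : ℝ) ^ 2))
              (cobV N (l * ρ) *ᵥ (τ • lf2 N l ρ (pin (Acx N l ρ b t t τ) *ᵥ g)))}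
    linarith
  have hMC : MC N l t t = t • (1 : Matrix (V N) (V N) ℝ) := H864.MC_self N l t
  have key := eval_src (b := b) hb.le hl hρ hτ h1 le_rfl hA (wm_Mb hb hl hρ ht.le hτ)
    (int_W hb hl hτ h1) hGsm hρ0 hR hδ0 hδ1 hδ 1 (W := Wc N l b t)
    (H889.continuous_Wc hb.le ht).measurable (e1 := e1) (fun F => by
      rw [hMC]
      exact he1 F) (M1 := τ • (1 : Matrix (V N) (V N) ℝ)) (wm_t hb.le hτ) hGm hd
    (fun f' hf' => hfin f' hf'.1.1 hf'.1.2.le hf'.2.le) hπ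
  rw [hMC] at key
  exact key

end

end Vale.Agent.P159.H896
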