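import Vale.Agent.P159.H145.Nu3

/-!
P159 (helper896), (P8), part 4: **scalar numbers** of the step of the functional.
-/

namespace Vale.Agent.P159.H896

open Vale.Agent.P159.H972 (lg)
open Vale.Agent.P159.H145

noncomputable section

/-- the probabilities and the defect of the weight -/
theorem pe_prob {th θ : ℝ} (hth : 0 < th) (hθ : θ ≤ 1 / 400) :
    ∃ E : ℝ, 0 < E ∧ ∀ e, 0 < e → e ≤ E → ∀ y : ℝ, 0 < y →
      (y * e ^ (-θ * 3) + y * e ^ (-θ * 3)) *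
          √(12 * Real.exp (-(e ^ (-(th / 20)))) + 2 * Real.exp (-(e ^ (-(th / 20))))) +
        2 * (y * e ^ (-θ * 3)) * ((Real.exp (e ^ (19 / 20 : ℝ)) - 1) +
          √(2 * Real.exp (e ^ (19 / 20 : ℝ)) * Real.exp (-(e ^ (-(th / 40)))))) ≤
      y * e ^ (9 / 10 : ℝ) / 2 := by
  obtain ⟨E1, hE1, h1⟩ := exp_absorb (c := 1) (a := th / 20) 2 one_pos (by linarith)
  obtain ⟨E2, hE2, h2⟩ := exp_absorb (c := 1) (a := th / 40) 2 one_pos (by linarith)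
  obtain ⟨E3, hE3, h3⟩ := absorb (A := 100) (a := 1 / 40) (κ := 1) (by norm_num) (by norm_num)
    one_pos
  refine ⟨min (min E1 E2) (min E3 1), by positivity, ?_⟩
  intro e he hee y hy
  have k1 := h1 e he (hee.trans ((min_le_left _ _).trans (min_le_left _ _)))
  have k2 := h2 e he (hee.trans ((min_le_left _ _).trans (min_le_right _ _)))
  have k3 := h3 e he (hee.trans ((min_le_right _ _).trans (min_le_left _ _)))
  have he1 : e ≤ 1 := hee.trans ((min_le_right _ _).trans (min_le_right _ _))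
  rw [one_mul] at k1 k2
  set p1 := Real.exp (-(e ^ (-(th / 20)))) with hp1
  set p2 := Real.exp (-(e ^ (-(th / 40)))) with hp2
  set z : ℝ := e ^ (19 / 20 : ℝ) with hz
  have hz0 : 0 < z := Real.rpow_pos_of_pos he _
  have hz1 : z ≤ 1 := Real.rpow_le_one he.le he1 (by norm_num)
  have hez : e ≤ z := by
    have := rpow_anti he he1 (show (19 / 20 : ℝ) ≤ 1 by norm_num)
    rwa [Real.rpow_one] at this
  have he2 : e ^ (2 : ℝ) = e ^ 2 := Real.rpow_two e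
  rw [he2] at k1 k2
  -- the first root
  have r1 : √(12 * p1 + 2 * p1) ≤ 4 * e := by
    rw [Real.sqrt_le_left (by positivity)]
    nlinarith
  have x1 : Real.exp z ≤ 1 + 2 * z := by
    have h5 := Real.abs_exp_sub_one_sub_id_le (x := z) (by rwa [abs_of_pos hz0])
    have h6 := (abs_le.1 h5).2
    nlinarith
  have r2 : √(2 * Real.exp z * p2) ≤ 3 * e := by
    rw [Real.sqrt_le_left (by positivity)]
    have h7 : Real.exp z ≤ 3 := by linarith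
    have h8 : 0 ≤ p2 := (Real.exp_pos _).le
    nlinarith
  have hq : 0 < e ^ (-θ * 3) := Real.rpow_pos_of_pos he _
  have hs1 : (Real.exp z - 1) + √(2 * Real.exp z * p2) ≤ 5 * z := by linarith
  have hs2 : √(12 * p1 + 2 * p1) ≤ 4 * z := by linarith
  have h9 : e ^ (-θ * 3) * z ≤ e ^ (9 / 10 : ℝ) * e ^ (1 / 40 : ℝ) := by
    rw [hz, ← Real.rpow_add he, ← Real.rpow_add he]
    exact rpow_anti he he1 (by linarith)
  have h10 : 0 < e ^ (9 / 10 : ℝ) := Real.rpow_pos_of_pos he _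
  have h11 : 36 * (e ^ (-θ * 3) * z) ≤ e ^ (9 / 10 : ℝ) := by
    have : 36 * (e ^ (9 / 10 : ℝ) * e ^ (1 / 40 : ℝ)) ≤ e ^ (9 / 10 : ℝ) := by nlinarith
    linarith
  calc (y * e ^ (-θ * 3) + y * e ^ (-θ * 3)) * √(12 * p1 + 2 * p1) +
        2 * (y * e ^ (-θ * 3)) * ((Real.exp z - 1) + √(2 * Real.exp z * p2))
      ≤ (y * e ^ (-θ * 3) + y * e ^ (-θ * 3)) * (4 * z) + 2 * (y * e ^ (-θ * 3)) * (5 * z) :=
        add_le_add (mul_le_mul_of_nonneg_left hs2 (by positivity))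
          (mul_le_mul_of_nonneg_left hs1 (by positivity))
    _ = y * (36 * (e ^ (-θ * 3) * z)) / 2 := by ring
    _ ≤ y * e ^ (9 / 10 : ℝ) / 2 := by
        have := mul_le_mul_of_nonneg_left h11 hy.le
        linarith

/-- the number of the fine step -/
theorem pe_fin {κ C c th thp C0 c1 θ : ℝ} {q0 : ℕ} (hκ : 0 < κ) (hC : 0 ≤ C) (hc : 0 < c)
    (hc' : c ≤ 1) (hth : 0 < th) (hthθ : th ≤ θ) (hthp : 4 * thp ≤ θ)
    (hθ : θ ≤ 1 / 400) (hc1 : 0 < c1) (hc1' : c1 ≤ θ) (hC0 : 4 ≤ c * C0) :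
    ∃ E : ℝ, 0 < E ∧ ∀ e, 0 < e → e ≤ E → ∀ y : ℝ, 0 < y → y ≤ 1 →
      ∀ nb T lgn x : ℝ, 1 ≤ nb → nb ≤ 2 ^ (1 + 4 * q0) * e ^ (-θ) → 0 ≤ T → T ≤ nb ^ 2 →
        0 ≤ lgn → lgn ≤ nb + e ^ (-(2 * c1)) → 0 < x →
        x ≤ (16 * e ^ (-(4 * thp))) * (e ^ (47 / 50 : ℝ) * y) ^ C0 →
      C * Real.exp (1 / 2) * ((1 + T + 4 * (4 / κ * T * (2 + lgn)) *
        (e ^ (-(th / 20)) + 1 / 2)) ^ 7 * nb ^ 2) * x ^ c ≤ y * e ^ (9 / 10 : ℝ) / 2 := by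
  have hC00 : 0 < C0 := by
    by_contra hcon
    have := mul_nonpos_of_nonneg_of_nonpos hc.le (not_lt.1 hcon)
    linarith
  obtain ⟨A0, hA0⟩ : ∃ A0 : ℝ, A0 = (2 : ℝ) ^ (1 + 4 * q0) := ⟨_, rfl⟩
  have hA01 : 1 ≤ A0 := by rw [hA0]; exact one_le_pow₀ one_le_two
  obtain ⟨A1, hA1⟩ : ∃ A1 : ℝ, A1 = 1 + A0 ^ 2 + 4 * (4 / κ * A0 ^ 2 * (2 + (A0 + 1))) * (1 + 1 / 2)
    := ⟨_, rfl⟩
  have hA10 : 0 ≤ A1 := by rw [hA1]; positivity
  obtain ⟨A, hA⟩ : ∃ A : ℝ, A = C * Real.exp (1 / 2) * (A1 ^ 7 * A0 ^ 2) * 16 := ⟨_, rfl⟩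
  have hAnn : 0 ≤ A := by rw [hA]; positivity
  obtain ⟨E3, hE3, h3⟩ := absorb (A := A) (a := 1) (κ := 1 / 2) hAnn one_pos (by norm_num)
  refine ⟨min E3 1, by positivity, ?_⟩
  intro e he hee y hy hy1 nb T lgn x hnb hnb' hT hT' hl hl' hx hx'
  have k3 := h3 e he (hee.trans (min_le_left _ _))
  rw [Real.rpow_one] at k3
  have he1 : e ≤ 1 := hee.trans (min_le_right _ _)
  rw [← hA0] at hnb'
  have bnb : Bd e nb A0 (-θ) := ⟨by linarith, by linarith, hnb'⟩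
  have bT : Bd e T (A0 ^ 2) (-θ * (2 : ℕ)) := (bnb.pow he 2).of_le hT hT'
  have θ0 : 0 < θ := hth.trans_le hthθ
  have b1 : Bd e (e ^ (-(2 * c1))) 1 (-(2 * c1)) := ⟨by positivity, zero_le_one, by rw [one_mul]⟩
  have bl : Bd e lgn (A0 + 1) (-(2 * θ)) :=
    ((bnb.exp he he1 (b := -(2 * θ)) (by linarith)).add
      (b1.exp he he1 (b := -(2 * θ)) (by linarith))).of_le hl hl'
  have b2 : Bd e (2 + lgn) (2 + (A0 + 1)) (-(2 * θ)) :=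
    ((Bd.cst he he1 (by norm_num : (0 : ℝ) ≤ 2)).exp he he1 (by linarith)).add bl
  have b3 : Bd e (e ^ (-(th / 20)) + 1 / 2) (1 + 1 / 2) (-θ) :=
    (Bd.mk (x := e ^ (-(th / 20))) (A := 1) (a := -(th / 20)) (by positivity) zero_le_one
      (by rw [one_mul])).exp he he1 (by linarith) |>.add
      ((Bd.cst he he1 (by norm_num : (0 : ℝ) ≤ 1 / 2)).exp he he1 (by linarith))
  have b4 : Bd e (4 * (4 / κ * T * (2 + lgn)) * (e ^ (-(th / 20)) + 1 / 2))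
      (4 * (4 / κ * A0 ^ 2 * (2 + (A0 + 1))) * (1 + 1 / 2)) (-θ * (2 : ℕ) + -(2 * θ) + -θ) :=
    (((bT.smul (by positivity : 0 ≤ 4 / κ)).mul he b2).smul (by norm_num : (0 : ℝ) ≤ 4)).mul he b3
  have b5 : Bd e (1 + T + 4 * (4 / κ * T * (2 + lgn)) * (e ^ (-(th / 20)) + 1 / 2)) A1
      (-(5 * θ)) := by
    rw [hA1]
    refine (((Bd.cst he he1 zero_le_one).exp he he1 (by linarith)).add
      (bT.exp he he1 (by push_cast; linarith))).add (b4.exp he he1 (by push_cast; linarith))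
  have b6 := (b5.pow he 7).mul he (bnb.pow he 2)
  -- the cells
  have hx2 : x ^ c ≤ 16 * (e ^ (7 / 2 : ℝ) * y) := by
    have hthp0 : 4 * thp ≤ 1 / 400 := by linarith
    have g1 : 0 < e ^ (47 / 50 : ℝ) * y := mul_pos (Real.rpow_pos_of_pos he _) hy
    have g2 : x ^ c ≤ ((16 * e ^ (-(4 * thp))) * (e ^ (47 / 50 : ℝ) * y) ^ C0) ^ c :=
      Real.rpow_le_rpow hx.le hx' hc.le
    rw [Real.mul_rpow (by positivity) (by positivity), Real.mul_rpow (by norm_num) (by positivity),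
      ← Real.rpow_mul he.le, ← Real.rpow_mul g1.le] at g2
    have g3 : (16 : ℝ) ^ c ≤ 16 := by
      calc (16 : ℝ) ^ c ≤ 16 ^ (1 : ℝ) := Real.rpow_le_rpow_of_exponent_le (by norm_num) hc'
        _ = 16 := Real.rpow_one _
    have g4 : e ^ (-(4 * thp) * c) ≤ e ^ (-(1 / 100 : ℝ)) := by
      refine rpow_anti he he1 ?_
      rcases le_or_gt (4 * thp) 0 with h0 | h0
      · have : 4 * thp * c ≤ 0 := mul_nonpos_of_nonpos_of_nonneg h0 hc.le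
        linarith
      · nlinarith
    have g5 : (e ^ (47 / 50 : ℝ) * y) ^ (C0 * c) ≤ e ^ (188 / 50 : ℝ) * y := by
      have h5 : e ^ (47 / 50 : ℝ) * y ≤ 1 := by
        have : e ^ (47 / 50 : ℝ) ≤ 1 := Real.rpow_le_one he.le he1 (by norm_num)
        nlinarith
      have h6 : (e ^ (47 / 50 : ℝ) * y) ^ (C0 * c) ≤ (e ^ (47 / 50 : ℝ) * y) ^ (4 : ℝ) :=
        Real.rpow_le_rpow_of_exponent_ge g1 h5 (by linarith)
      refine h6.trans ?_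
      rw [Real.mul_rpow (by positivity) hy.le, ← Real.rpow_mul he.le]
      have h7 : (47 / 50 : ℝ) * 4 = 188 / 50 := by norm_num
      rw [h7]
      refine mul_le_mul_of_nonneg_left ?_ (by positivity)
      calc y ^ (4 : ℝ) ≤ y ^ (1 : ℝ) := Real.rpow_le_rpow_of_exponent_ge hy hy1 (by norm_num)
        _ = y := Real.rpow_one y
    have g6 : e ^ (-(1 / 100 : ℝ)) * e ^ (188 / 50 : ℝ) ≤ e ^ (7 / 2 : ℝ) := by
      rw [← Real.rpow_add he]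
      exact rpow_anti he he1 (by norm_num)
    calc x ^ c ≤ (16 : ℝ) ^ c * e ^ (-(4 * thp) * c) * (e ^ (47 / 50 : ℝ) * y) ^ (C0 * c) := g2
      _ ≤ 16 * e ^ (-(1 / 100 : ℝ)) * (e ^ (188 / 50 : ℝ) * y) := by
          gcongr
      _ = 16 * ((e ^ (-(1 / 100 : ℝ)) * e ^ (188 / 50 : ℝ)) * y) := by ring
      _ ≤ 16 * (e ^ (7 / 2 : ℝ) * y) := by gcongr
  have b7 := (b6.smul (show 0 ≤ C * Real.exp (1 / 2) by positivity)).le
  have hx0 : 0 ≤ x ^ c := Real.rpow_nonneg hx.le _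
  have b8 : C * Real.exp (1 / 2) * ((1 + T + 4 * (4 / κ * T * (2 + lgn)) *
        (e ^ (-(th / 20)) + 1 / 2)) ^ 7 * nb ^ 2) * x ^ c ≤
      (C * Real.exp (1 / 2) * (A1 ^ 7 * A0 ^ 2) * e ^ (-(5 * θ) * (7 : ℕ) + -θ * (2 : ℕ))) *
        (16 * (e ^ (7 / 2 : ℝ) * y)) := by
    refine mul_le_mul b7 hx2 hx0 ?_
    positivity
  refine b8.trans ?_
  have b9 : e ^ (-(5 * θ) * (7 : ℕ) + -θ * (2 : ℕ)) * e ^ (7 / 2 : ℝ) ≤ e ^ (9 / 10 : ℝ) * e := by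
    have e1 : e ^ (9 / 10 : ℝ) * e = e ^ (9 / 10 + 1 : ℝ) := by
      rw [Real.rpow_add he, Real.rpow_one]
    rw [e1, ← Real.rpow_add he]
    refine rpow_anti he he1 ?_
    push_cast
    linarith
  calc (C * Real.exp (1 / 2) * (A1 ^ 7 * A0 ^ 2) * e ^ (-(5 * θ) * (7 : ℕ) + -θ * (2 : ℕ))) *
        (16 * (e ^ (7 / 2 : ℝ) * y))
      = A * (e ^ (-(5 * θ) * (7 : ℕ) + -θ * (2 : ℕ)) * e ^ (7 / 2 : ℝ)) * y := by
        rw [hA]
        ring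
    _ ≤ A * (e ^ (9 / 10 : ℝ) * e) * y := by gcongr
    _ = (A * e) * (y * e ^ (9 / 10 : ℝ)) := by ring
    _ ≤ 1 / 2 * (y * e ^ (9 / 10 : ℝ)) := by gcongr
    _ = _ := by ring

/-- powers of the level against the logarithm -/
lemma n_pow {C0 e : ℝ} {n : ℕ} (hC0 : 0 ≤ C0) (he : 0 < e) (hn : 4 * lg C0 e ≤ n) :
    (1 + (n : ℝ)) * ((2 : ℝ) ^ n)⁻¹ ≤ 2 * e ^ (2 * C0) := by
  obtain ⟨k, hk⟩ : ∃ k, k = n / 2 := ⟨_, rfl⟩
  have hk1 : n ≤ 2 * k + 1 := by omega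
  have hk2 : 2 * k ≤ n := by omega
  have hk3 : 2 * lg C0 e ≤ k := by omega
  have h1 : (k : ℝ) + 1 ≤ 2 ^ k := by
    have : k + 1 ≤ 2 ^ k := Nat.lt_two_pow_self
    exact_mod_cast this
  have h2 : 1 + (n : ℝ) ≤ 2 * 2 ^ k := by
    have : (n : ℝ) ≤ 2 * k + 1 := by exact_mod_cast hk1
    linarith
  have h3 : ((2 : ℝ) ^ n)⁻¹ ≤ ((2 : ℝ) ^ (2 * k))⁻¹ :=
    inv_anti₀ (by positivity) (pow_le_pow_right₀ one_le_two hk2)
  have h4 : ((2 : ℝ) ^ k)⁻¹ ≤ e ^ (2 * C0) := by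
    have h5 : (e ^ (-C0)) ^ 2 ≤ (2 : ℝ) ^ k := by
      calc (e ^ (-C0)) ^ 2 ≤ ((2 : ℝ) ^ lg C0 e) ^ 2 :=
            pow_le_pow_left₀ (by positivity) (two_lg_ge he) 2
        _ = 2 ^ (2 * lg C0 e) := by rw [← pow_mul, mul_comm]
        _ ≤ 2 ^ k := pow_le_pow_right₀ one_le_two hk3
    have h6 : (e ^ (-C0)) ^ 2 = (e ^ (2 * C0))⁻¹ := by
      rw [← Real.rpow_natCast (e ^ (-C0)) 2, ← Real.rpow_mul he.le, ← Real.rpow_neg he.le]
      congr 1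
      push_cast
      ring
    rw [h6] at h5
    exact inv_le_of_inv_le₀ (by positivity) h5
  calc (1 + (n : ℝ)) * ((2 : ℝ) ^ n)⁻¹ ≤ (2 * 2 ^ k) * ((2 : ℝ) ^ (2 * k))⁻¹ :=
        mul_le_mul h2 h3 (by positivity) (by positivity)
    _ = 2 * ((2 : ℝ) ^ k)⁻¹ := by
        rw [two_mul k, pow_add, mul_inv]
        field_simp
    _ ≤ 2 * e ^ (2 * C0) := by linarith

/-- the edge condition -/
theorem pe_edge {b Kc th thp C0 c1 θ : ℝ} {q0 : ℕ} (hb : 0 ≤ b) (hK : 0 ≤ Kc)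
    (hth : 0 < th) (hthθ : th ≤ θ) (hthp0 : 0 ≤ thp) (hthp : 4 * thp ≤ θ)
    (hθ : θ ≤ 1 / 400) (hc1 : 0 < c1) (hc1' : c1 ≤ θ) (hC0 : 1 ≤ C0) :
    ∃ E : ℝ, 0 < E ∧ ∀ e, 0 < e → e ≤ E → ∀ (n : ℕ), 4 * lg C0 e ≤ n →
      ∀ nb T lgn lgN t n1 R : ℝ, 1 ≤ nb → nb ≤ 2 ^ (1 + 4 * q0) * e ^ (-θ) → 0 ≤ T → T ≤ nb ^ 2 →
        0 ≤ lgn → lgn ≤ nb + e ^ (-(2 * c1)) → 0 ≤ lgN → lgN ≤ n + nb → 0 ≤ t →
        t ≤ ((2 : ℝ) ^ n)⁻¹ → n1 ^ 2 * t ≤ nb ^ 2 * ((2 : ℝ) ^ n)⁻¹ → 0 ≤ R →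
        R ≤ (16 * e ^ (-(4 * thp))) ^ 2 →
      Kc * (1 + 4 * (2 * n1 ^ 2 + 4 * b * T * (2 + lgn)) * (e ^ (-(th / 20)) + 1 / 2)) * t *
        (1 + lgN) * R ^ 3 ≤ 1 := by
  obtain ⟨A0, hA0⟩ : ∃ A0 : ℝ, A0 = (2 : ℝ) ^ (1 + 4 * q0) := ⟨_, rfl⟩
  have hA01 : 1 ≤ A0 := by rw [hA0]; exact one_le_pow₀ one_le_two
  obtain ⟨A1, hA1⟩ : ∃ A1 : ℝ, A1 = 1 + 4 * (2 * A0 ^ 2 + 4 * b * A0 ^ 2 * (2 + (A0 + 1))) *
    (1 + 1 / 2) := ⟨_, rfl⟩
  have hA10 : 0 ≤ A1 := by rw [hA1]; positivity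
  obtain ⟨A, hA⟩ : ∃ A : ℝ, A = Kc * A1 * (1 + A0) * ((16 : ℝ) ^ 2) ^ 3 * 2 := ⟨_, rfl⟩
  have hAnn : 0 ≤ A := by rw [hA]; positivity
  obtain ⟨E3, hE3, h3⟩ := absorb (A := A) (a := 1) (κ := 1) hAnn one_pos one_pos
  refine ⟨min E3 1, by positivity, ?_⟩
  intro e he hee n hn nb T lgn lgN t n1 R hnb hnb' hT hT' hl hl' hlN hlN' ht ht' hn1 hR hR'
  have k3 := h3 e he (hee.trans (min_le_left _ _))
  rw [Real.rpow_one] at k3
  have he1 : e ≤ 1 := hee.trans (min_le_right _ _)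
  have θ0 : 0 < θ := hth.trans_le hthθ
  rw [← hA0] at hnb'
  set u : ℝ := ((2 : ℝ) ^ n)⁻¹ with hu
  have hu0 : 0 < u := by positivity
  have bnb : Bd e nb A0 (-θ) := ⟨by linarith, by linarith, hnb'⟩
  have bT : Bd e T (A0 ^ 2) (-θ * (2 : ℕ)) := (bnb.pow he 2).of_le hT hT'
  have b1 : Bd e (e ^ (-(2 * c1))) 1 (-(2 * c1)) := ⟨by positivity, zero_le_one, by rw [one_mul]⟩
  have bl : Bd e lgn (A0 + 1) (-(2 * θ)) :=
    ((bnb.exp he he1 (b := -(2 * θ)) (by linarith)).add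
      (b1.exp he he1 (b := -(2 * θ)) (by linarith))).of_le hl hl'
  have b2 : Bd e (2 + lgn) (2 + (A0 + 1)) (-(2 * θ)) :=
    ((Bd.cst he he1 (by norm_num : (0 : ℝ) ≤ 2)).exp he he1 (by linarith)).add bl
  have b3 : Bd e (e ^ (-(th / 20)) + 1 / 2) (1 + 1 / 2) (-θ) :=
    (Bd.mk (x := e ^ (-(th / 20))) (A := 1) (a := -(th / 20)) (by positivity) zero_le_one
      (by rw [one_mul])).exp he he1 (by linarith) |>.add
      ((Bd.cst he he1 (by norm_num : (0 : ℝ) ≤ 1 / 2)).exp he he1 (by linarith))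
  -- the bracket times `t`
  have q1 : (1 + 4 * (2 * n1 ^ 2 + 4 * b * T * (2 + lgn)) * (e ^ (-(th / 20)) + 1 / 2)) * t ≤
      (1 + 4 * (2 * nb ^ 2 + 4 * b * T * (2 + lgn)) * (e ^ (-(th / 20)) + 1 / 2)) * u := by
    have g1 : 0 ≤ 4 * (e ^ (-(th / 20)) + 1 / 2) * 2 := by positivity
    have g2 := mul_le_mul_of_nonneg_left hn1 g1
    have g3 : 0 ≤ 4 * (4 * b * T * (2 + lgn)) * (e ^ (-(th / 20)) + 1 / 2) := by positivity
    have g4 := mul_le_mul_of_nonneg_left ht' g3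
    nlinarith
  have b4 : Bd e (1 + 4 * (2 * nb ^ 2 + 4 * b * T * (2 + lgn)) * (e ^ (-(th / 20)) + 1 / 2)) A1
      (-(5 * θ)) := by
    rw [hA1]
    have c1' : Bd e (2 * nb ^ 2) (2 * A0 ^ 2) (-(4 * θ)) :=
      ((bnb.pow he 2).smul (by norm_num : (0 : ℝ) ≤ 2)).exp he he1 (by push_cast; linarith)
    have c2 : Bd e (4 * b * T * (2 + lgn)) (4 * b * A0 ^ 2 * (2 + (A0 + 1))) (-(4 * θ)) :=
      ((bT.smul (by positivity : 0 ≤ 4 * b)).mul he b2).exp he he1 (by push_cast; linarith)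
    exact ((Bd.cst he he1 zero_le_one).exp he he1 (by linarith)).add
      ((((c1'.add c2).smul (by norm_num : (0 : ℝ) ≤ 4)).mul he b3).exp he he1 (by linarith))
  have b5 : Bd e R ((16 : ℝ) ^ 2) (-(2 * θ)) := by
    have c0 : Bd e (16 * e ^ (-(4 * thp))) 16 (-(4 * thp)) :=
      ⟨by positivity, by norm_num, le_rfl⟩
    exact ((c0.pow he 2).of_le hR hR').exp he he1 (by push_cast; linarith)
  -- the logarithm
  have q2 : u * (1 + lgN) ≤ (1 + nb) * (2 * e ^ (2 * C0)) := by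
    have g1 := n_pow (n := n) (by linarith : 0 ≤ C0) he hn
    have g2 : 1 + lgN ≤ (1 + (n : ℝ)) * (1 + nb) := by
      have : (0 : ℝ) ≤ n := Nat.cast_nonneg n
      nlinarith
    calc u * (1 + lgN) ≤ u * ((1 + (n : ℝ)) * (1 + nb)) := mul_le_mul_of_nonneg_left g2 hu0.le
      _ = (1 + nb) * ((1 + (n : ℝ)) * u) := by ring
      _ ≤ _ := mul_le_mul_of_nonneg_left g1 (by linarith)
  have b6 : Bd e (1 + nb) (1 + A0) (-θ) :=
    ((Bd.cst he he1 zero_le_one).exp he he1 (by linarith)).add bnb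
  have b7 := (((b4.mul he b6).mul he (b5.pow he 3)).smul (by positivity : 0 ≤ Kc * 2)).le
  have e2 : e ^ (2 * C0) ≤ e ^ (2 : ℝ) := rpow_anti he he1 (by linarith)
  set Br := 1 + 4 * (2 * nb ^ 2 + 4 * b * T * (2 + lgn)) * (e ^ (-(th / 20)) + 1 / 2) with hBr
  have hBr0 : 0 ≤ Br := b4.x0
  calc Kc * (1 + 4 * (2 * n1 ^ 2 + 4 * b * T * (2 + lgn)) * (e ^ (-(th / 20)) + 1 / 2)) * t *
        (1 + lgN) * R ^ 3
      = Kc * ((1 + 4 * (2 * n1 ^ 2 + 4 * b * T * (2 + lgn)) * (e ^ (-(th / 20)) + 1 / 2)) * t) *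
        ((1 + lgN) * R ^ 3) := by ring
    _ ≤ Kc * (Br * u) * ((1 + lgN) * R ^ 3) := by
        refine mul_le_mul_of_nonneg_right (mul_le_mul_of_nonneg_left q1 hK) (by positivity)
    _ = (Kc * Br * R ^ 3) * (u * (1 + lgN)) := by ring
    _ ≤ (Kc * Br * R ^ 3) * ((1 + nb) * (2 * e ^ (2 * C0))) :=
        mul_le_mul_of_nonneg_left q2 (by positivity)
    _ = (Kc * 2 * (Br * (1 + nb) * R ^ 3)) * e ^ (2 * C0) := by ring
    _ ≤ (Kc * 2 * (A1 * (1 + A0) * ((16 : ℝ) ^ 2) ^ 3) *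
        e ^ (-(5 * θ) + -θ + -(2 * θ) * (3 : ℕ))) * e ^ (2 : ℝ) := by
        refine mul_le_mul b7 e2 (by positivity) (by positivity)
    _ = A * (e ^ (-(5 * θ) + -θ + -(2 * θ) * (3 : ℕ)) * e ^ (2 : ℝ)) := by
        rw [hA]
        ring
    _ ≤ A * e := by
        refine mul_le_mul_of_nonneg_left ?_ hAnn
        rw [← Real.rpow_add he]
        have := rpow_anti he he1 (show (1 : ℝ) ≤ -(5 * θ) + -θ + -(2 * θ) * (3 : ℕ) + 2 by
          push_cast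
          linarith)
        rwa [Real.rpow_one] at this
    _ ≤ 1 := k3

end

end Vale.Agent.P159.H896
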