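import Vale.Agent.P159.H896.Pe3
import Vale.Agent.P159.H896.Pe4
import Vale.Agent.P159.H43.P7
import Vale.Agent.P159.H889.Vpd

/-!
P159 (helper896), (P8), part 5: **sizes of one step** in helper889's letters.
-/

set_option linter.unusedSectionVars false

namespace Vale.Agent.P159.H896

open Finset Matrix MeasureTheory Filter Topology
open Vale.Agent.P159.TM.H764 (EE)
open Vale.Agent.P159.H37
open Vale.Agent.P159.H363 (Nf acl pin Rcl lf Wcl rel)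
open Vale.Agent.P159.H864 (TI sym MC cobV cl up fc Gc lapM)
open Vale.Agent.P159.H859 (Rk)
open Vale.Agent.P159.H239 (TypE)
open Vale.Agent.P159.H340 (tce anw)
open Vale.Agent.P159.H889 (Wc Cx Cw Cy CxF lam Mw hS tn2 lam_pos tn_mul Mw_pow)
open Vale.Agent.P159.H972 (Par lg tn GP FL Good tn_pos)
open Vale.Agent.P159.H43 (omT omT_le_osc osc_post tn_mul_sq tt_R lg_up)
open Vale.Agent.P159.H145 (mt OscZ)
open Vale.Agent.P159.TM.Spec (V)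
open Vale.Agent.P159.TM.SpecC (wT)

noncomputable section

/-- half of the new form -/
lemma sym_half {n : ℕ} [NeZero n] {A₁ A₂ : Matrix (V n) (V n) ℝ} (h1 : Nf A₁) (h2 : Nf A₂) {h : ℝ}
    (hh0 : 0 ≤ h) (hh : h ≤ 1 / 2) (hs : ∑ k, rel A₁ A₂ k ^ 2 ≤ h ^ 2) (k : V n) :
    sym A₂ k ≤ 2 * sym A₁ k := by
  have h3 : rel A₁ A₂ k ^ 2 ≤ h ^ 2 :=
    (Finset.single_le_sum (f := fun k => rel A₁ A₂ k ^ 2) (fun i _ => sq_nonneg _)
      (mem_univ k)).trans hs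
  have h4 : |rel A₁ A₂ k| ≤ 1 / 2 := (abs_le_of_sq_le_sq h3 hh0).trans hh
  have h5 := H363.rel_mul h1 h2 k
  have h6 : 0 ≤ sym A₂ k := by
    by_cases hk : k = 0
    · rw [hk, h2.zero]
    · exact (h2.pos k hk).le
  have h7 := (abs_le.1 h4).1
  nlinarith

lemma typE_cast {N l l' : ℕ} [NeZero N] [NeZero (N / l)] [NeZero (N / l')] (h : l = l')
    {b t a Y ρ p : ℝ} (hT : TypE N l b t a Y ρ p) : TypE N l' b t a Y ρ p := by
  subst h
  exact hT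

section sizes

variable {n m s s' r : ℕ}

lemma nlr_pow (h : s ≤ s') (hr : s' ≤ r) : 2 ^ r / 2 ^ s / 2 ^ (s' - s) = 2 ^ (r - s') := by
  rw [Nat.pow_div (h.trans hr) two_pos, Nat.pow_div (by omega) two_pos]
  congr 1
  omega

lemma lr_pow (h : s ≤ s') : 2 ^ s * 2 ^ (s' - s) = 2 ^ s' := by
  rw [← pow_add, Nat.add_sub_cancel' h]

lemma nat_le_two_pow (k : ℕ) : (k : ℝ) ≤ 2 ^ k := by
  have : k ≤ 2 ^ k := Nat.lt_two_pow_self.le
  exact_mod_cast this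

lemma sqrt_tn (n : ℕ) : √(tn n) = ((2 : ℝ) ^ n)⁻¹ := by
  have h : tn n = (((2 : ℝ) ^ n)⁻¹) ^ 2 := by
    unfold tn
    rw [inv_pow, ← pow_mul, mul_comm, pow_mul]
    norm_num
  rw [h, Real.sqrt_sq (by positivity)]

lemma tn_le_pow (n : ℕ) : tn n ≤ ((2 : ℝ) ^ n)⁻¹ := by
  unfold tn
  exact inv_anti₀ (by positivity) (pow_le_pow_left₀ (by norm_num) (by norm_num) n)

/-- the logarithm of the number of coarse cells -/
lemma lgn_le {c1 e e' : ℝ} (hs : s' ≤ m) (hnm : n ≤ m) (hr : m ≤ r) (he : 0 < e)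
    (he' : e / 2 ≤ e') (hc1 : 0 < c1) (hc1' : c1 ≤ 1 / 400)
    (hns : ((m - s' : ℕ) : ℝ) ≤ e' ^ (-(2 * c1))) :
    Real.log (((2 ^ (r - s') : ℕ)) : ℝ) ≤ 2 ^ (r - n) + e ^ (-(2 * c1)) := by
  have hl := Real.log_two_lt_d9
  have hl0 : 0 < Real.log 2 := Real.log_pos one_lt_two
  push_cast
  rw [Real.log_pow]
  have h1 : ((r - s' : ℕ) : ℝ) = ((r - m : ℕ) : ℝ) + ((m - s' : ℕ) : ℝ) := by
    have : r - s' = (r - m) + (m - s') := by omega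
    rw [this]
    push_cast
    ring
  rw [h1, add_mul]
  refine add_le_add ?_ ?_
  · have h2 : ((r - m : ℕ) : ℝ) ≤ 2 ^ (r - n) :=
      (nat_le_two_pow _).trans (pow_le_pow_right₀ one_le_two (by omega))
    have h3 : (0 : ℝ) ≤ ((r - m : ℕ) : ℝ) := Nat.cast_nonneg _
    nlinarith
  · have h2 : e' ^ (-(2 * c1)) ≤ (e / 2) ^ (-(2 * c1)) :=
      Real.rpow_le_rpow_of_nonpos (by positivity) he' (by linarith)
    have h3 : (e / 2) ^ (-(2 * c1)) = e ^ (-(2 * c1)) * 2 ^ (2 * c1) := by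
      rw [Real.div_rpow he.le two_pos.le, Real.rpow_neg two_pos.le, div_inv_eq_mul]
    have h4 : (2 : ℝ) ^ (2 * c1) ≤ 6 / 5 := by
      calc (2 : ℝ) ^ (2 * c1) ≤ 2 ^ (1 / 200 : ℝ) :=
            Real.rpow_le_rpow_of_exponent_le one_le_two (by linarith)
        _ ≤ 6 / 5 := by
            have h5 : ((2 : ℝ) ^ (1 / 200 : ℝ)) ≤ 2 ^ (1 / 4 : ℝ) :=
              Real.rpow_le_rpow_of_exponent_le one_le_two (by norm_num)
            refine h5.trans ?_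
            have h6 : ((2 : ℝ) ^ (1 / 4 : ℝ)) ^ 4 = 2 := by
              rw [← Real.rpow_natCast, ← Real.rpow_mul two_pos.le]
              norm_num
            by_contra hc
            have h7 : (6 / 5 : ℝ) ^ 4 < ((2 : ℝ) ^ (1 / 4 : ℝ)) ^ 4 :=
              pow_lt_pow_left₀ (not_le.1 hc) (by norm_num) (by norm_num)
            rw [h6] at h7
            norm_num at h7
    have h5 : 0 < e ^ (-(2 * c1)) := Real.rpow_pos_of_pos he _
    have h6 : ((m - s' : ℕ) : ℝ) ≤ e ^ (-(2 * c1)) * (6 / 5) := by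
      refine hns.trans (h2.trans ?_)
      rw [h3]
      exact mul_le_mul_of_nonneg_left h4 h5.le
    have h7 : (0 : ℝ) ≤ ((m - s' : ℕ) : ℝ) := Nat.cast_nonneg _
    nlinarith

/-- the logarithm of the torus -/
lemma lgN_le (hr : n ≤ r) : Real.log (((2 ^ r : ℕ)) : ℝ) ≤ n + 2 ^ (r - n) := by
  have hl := Real.log_two_lt_d9
  have hl0 : 0 < Real.log 2 := Real.log_pos one_lt_two
  push_cast
  rw [Real.log_pow]
  have h1 : (r : ℝ) = n + ((r - n : ℕ) : ℝ) := by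
    rw [Nat.cast_sub hr]
    ring
  have h2 := nat_le_two_pow (r - n)
  have h3 : (0 : ℝ) ≤ ((r - n : ℕ) : ℝ) := Nat.cast_nonneg _
  have h4 : (0 : ℝ) ≤ (n : ℝ) := Nat.cast_nonneg _
  rw [h1]
  nlinarith

/-- the number of coarse cells -/
lemma n1_le (hs : n ≤ 2 * s') (hr : s' ≤ r) (hnr : n ≤ r) :
    (((2 ^ (r - s') : ℕ)) : ℝ) ^ 2 * tn n ≤ (2 ^ (r - n)) ^ 2 * ((2 : ℝ) ^ n)⁻¹ := by
  push_cast
  have h1 : (2 : ℝ) ^ r = 2 ^ (r - s') * 2 ^ s' := by rw [← pow_add, Nat.sub_add_cancel hr]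
  have h2 : (2 : ℝ) ^ r = 2 ^ (r - n) * 2 ^ n := by rw [← pow_add, Nat.sub_add_cancel hnr]
  have h3 : (2 : ℝ) ^ (r - s') = 2 ^ r / 2 ^ s' := by
    rw [h1]
    field_simp
  have h4 : (2 : ℝ) ^ (r - n) = 2 ^ r / 2 ^ n := by
    rw [h2]
    field_simp
  have h5 : tn n = ((2 : ℝ) ^ n)⁻¹ * ((2 : ℝ) ^ n)⁻¹ := by
    unfold tn
    rw [← mul_inv, ← mul_pow]
    norm_num
  have h6 : (2 : ℝ) ^ n ≤ (2 ^ s') ^ 2 := by
    rw [← pow_mul]
    exact pow_le_pow_right₀ one_le_two (by omega)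
  have h7 : (((2 : ℝ) ^ s') ^ 2)⁻¹ ≤ ((2 : ℝ) ^ n)⁻¹ := inv_anti₀ (by positivity) h6
  rw [h3, h4, h5, div_pow, div_pow, div_eq_mul_inv, div_eq_mul_inv]
  have h8 : (((2 : ℝ) ^ n) ^ 2)⁻¹ = ((2 : ℝ) ^ n)⁻¹ * ((2 : ℝ) ^ n)⁻¹ := by
    rw [pow_two, mul_inv]
  rw [h8]
  calc ((2 : ℝ) ^ r) ^ 2 * (((2 : ℝ) ^ s') ^ 2)⁻¹ * (((2 : ℝ) ^ n)⁻¹ * ((2 : ℝ) ^ n)⁻¹)
      = (((2 : ℝ) ^ s') ^ 2)⁻¹ * (((2 : ℝ) ^ r) ^ 2 * (((2 : ℝ) ^ n)⁻¹ * ((2 : ℝ) ^ n)⁻¹)) := by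
        ring
    _ ≤ ((2 : ℝ) ^ n)⁻¹ * (((2 : ℝ) ^ r) ^ 2 * (((2 : ℝ) ^ n)⁻¹ * ((2 : ℝ) ^ n)⁻¹)) :=
        mul_le_mul_of_nonneg_right h7 (by positivity)
    _ = _ := by ring

end sizes

section cx

variable {P : Par} {b C1 c1 : ℝ} {n m s s' r : ℕ} {e e' y y' : ℝ}

/-- the size of the window -/
lemma Mw_le (hW : Cw P n m e e') (he : 0 < e) (he1 : e ≤ 1) (hnm : n ≤ m) :
    Mw n m ≤ 16 * e ^ (-(4 * P.thp)) := by
  have h1 : m - n ≤ 4 * P.w e := by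
    have := hW.w2
    omega
  have h3 : (2 : ℝ) ^ P.w e ≤ 2 * e ^ (-P.thp) := lg_up P.thp0.le he he1
  rw [Mw_pow hnm]
  calc (2 : ℝ) ^ (m - n) ≤ 2 ^ (4 * P.w e) := pow_le_pow_right₀ one_le_two h1
    _ = (2 ^ P.w e) ^ 4 := by rw [← pow_mul, mul_comm]
    _ ≤ (2 * e ^ (-P.thp)) ^ 4 := pow_le_pow_left₀ (by positivity) h3 4
    _ = 16 * e ^ (-(4 * P.thp)) := by
        rw [mul_pow, ← Real.rpow_natCast (e ^ (-P.thp)) 4, ← Real.rpow_mul he.le]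
        norm_num
        congr 1
        ring

/-- the new cells against the old mass -/
lemma xs_le (hC : Cx P b C1 c1 n s e y) (hW : Cw P n m e e') (hY : Cy P b C1 c1 m s s' e e' y y')
    (hnm : n ≤ m) (hC0 : P.C0 ≤ C1) (hC00 : 0 ≤ P.C0) :
    (2 : ℝ) ^ s' * √(tn n) ≤ (16 * e ^ (-(4 * P.thp))) * (e ^ (47 / 50 : ℝ) * y) ^ P.C0 := by
  have he := hC.e0
  have he1 : e ≤ 1 := by linarith [hC.e1]
  have hy := hC.y0
  have h1 : (2 : ℝ) ^ s' * √(tn n) = Mw n m * lam m s' := by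
    rw [sqrt_tn]
    unfold Mw lam
    field_simp
  have h2 := Mw_le hW he he1 hnm
  have h3 := hY.cx.s2
  have h4 : e' * y' ≤ e ^ (47 / 50 : ℝ) * y := by
    have g1 := hW.hi
    have g2 : y' ≤ e ^ (-(1 / 100) : ℝ) * y := by
      have g3 := hY.h2
      have g4 : 0 < e ^ (1 / 100 : ℝ) := Real.rpow_pos_of_pos he _
      rw [Real.rpow_neg he.le, ← div_eq_inv_mul, le_div_iff₀ g4]
      linarith
    calc e' * y' ≤ e ^ (19 / 20 : ℝ) * (e ^ (-(1 / 100) : ℝ) * y) :=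
          mul_le_mul g1 g2 hY.cx.y0.le (by positivity)
      _ = e ^ (47 / 50 : ℝ) * y := by
          rw [← mul_assoc, ← Real.rpow_add he]
          norm_num
  have h5 : e ^ (47 / 50 : ℝ) * y ≤ 1 := by
    have g1 : e ^ (47 / 50 : ℝ) ≤ 1 := Real.rpow_le_one he.le he1 (by norm_num)
    have g2 := hC.ylt.le
    nlinarith
  have h6 : 0 < e ^ (47 / 50 : ℝ) * y := by positivity
  have h7 : lam m s' ≤ (e ^ (47 / 50 : ℝ) * y) ^ P.C0 := by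
    refine h3.trans ?_
    calc (e' * y') ^ C1 ≤ (e ^ (47 / 50 : ℝ) * y) ^ C1 :=
          Real.rpow_le_rpow hY.cx.x0.le h4 (hC00.trans hC0)
      _ ≤ _ := Real.rpow_le_rpow_of_exponent_ge h6 h5 hC0
  rw [h1]
  exact mul_le_mul h2 h7 (lam_pos _ _).le (by positivity)

/-- the total activity at the old mass -/
lemma omT_half (hb : 0 < b) (hC : Cx P b C1 c1 n s e y) {c ρ : ℝ}
    (hN : H43.P7n c ρ P.thp e) (hr : P.TT n e r)
    (hR : (2 : ℝ) ^ (r - n) ≤ c * e ^ (-ρ)) :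
    omT (wT b (2 ^ r)) (mt (2 ^ r) (tn n)) ≤ 1 / 2 := by
  have ht0 : 0 < tn n := tn_pos n
  have hnr : n ≤ r := le_trans (Nat.le_add_right _ _) hr.1
  have he1 : e ≤ 1 := by linarith [hC.e1]
  have hs := hN.s hC.e0 he1 hC.y0 hC.y1 (by positivity) hR
  have hw := (H896.wp_t (N := 2 ^ r) hb.le ht0).toWM
  have h1 := omT_le_osc hw (osc_post hb hnr le_rfl (by linarith) (hC.vy r hr) hs)
  linarith

end cx

end

end Vale.Agent.P159.H896
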