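import Vale.Agent.P159.H896.Pe5

/-!
P159 (helper896), (P8), part 6: **the functional of the next level on the typical fields**, one torus,
helper889's letters.
-/

set_option linter.unusedSectionVars false

namespace Vale.Agent.P159.H896

open Finset Matrix MeasureTheory Filter Topology
open Vale.Agent.P159.TM.H764 (EE)
open Vale.Agent.P159.H37
open Vale.Agent.P159.H363 (Nf acl pin Rcl lf Wcl rel)
open Vale.Agent.P159.H864 (TI sym MC cobV cl up fc Gc lapM)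
open Vale.Agent.P159.H859 (Rk)
open Vale.Agent.P159.H239 (TypE)
open Vale.Agent.P159.H340 (tce anw)
open Vale.Agent.P159.H889 (Wc Cx Cw Cy CxF lam Mw hS tn2 lam_pos tn_mul Mw_pow)
open Vale.Agent.P159.H972 (Par lg tn GP FL Good tn_pos)
open Vale.Agent.P159.H43 (omT omT_le_osc osc_post tn_mul_sq tt_R lg_up)
open Vale.Agent.P159.H145 (mt OscZ)
open Vale.Agent.P159.TM.Spec (V)
open Vale.Agent.P159.TM.SpecC (wT)

noncomputable section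

/-- helper640's number of the fine step with the bare energy, at one `b` -/
def VbvE (b κ C c : ℝ) : Prop :=
  ∀ (N l ρ n p : ℕ) [NeZero N] [NeZero (N / l)] [NeZero (N / l / ρ)] [NeZero (N / (l * ρ))],
      l ∣ N → ρ ∣ N / l → l * ρ = 2 ^ n → 2 ^ p ∣ N →
    ∀ t : ℝ, 0 < t → t * ((2 : ℝ) ^ n) ^ 2 ≤ 1 → 1 < t * 4 ^ (p + 1) → 9 ≤ t * (N : ℝ) ^ 2 →
      omT (wT b N) (t • (1 : Matrix (V N) (V N) ℝ)) ≤ 1 / 2 →
    ∀ τ : ℝ, 0 < τ → τ ≤ t → ∀ (f : V (N / l / ρ) → ℝ) (R₀ E₀ A₀ : ℝ),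
      Rcl N (l * ρ) b τ τ ((2 : ℝ) • tcf N l ρ f) ≤ R₀ →
      qf (Rk τ (κ / ((l * ρ : ℕ) : ℝ) ^ 2)) (cobV N (l * ρ) *ᵥ (τ • lf2 N l ρ f)) ≤ E₀ →
      τ * ∑ x, lf2 N l ρ f x ^ 2 ≤ A₀ →
      C * (t / τ) * ((1 + τ * (N : ℝ) ^ 2 + A₀) * (t * (1 + Real.log N))) ≤ 1 →
    ∀ q : ℤ, ‖Ph (wT b N) (τ • (1 : Matrix (V N) (V N) ℝ)) q (lf2 N l ρ f) -
        Ph (wT b N) (Mb N l ρ t τ) q (lf2 N l ρ f)‖ ≤
      C * Real.exp (R₀ / 2) * ((1 + τ * (N : ℝ) ^ 2 + E₀) ^ 7 *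
        (t * (N : ℝ) ^ 2)) * ((2 : ℝ) ^ n * √t) ^ c

/-- the numbers of (P8) at one size `e` -/
structure PeN (b κ C c θ : ℝ) (P : Par) (c1 e : ℝ) : Prop where
  prob : ∀ y : ℝ, 0 < y →
      (y * e ^ (-θ * 3) + y * e ^ (-θ * 3)) *
          √(12 * Real.exp (-(e ^ (-(P.th / 20)))) + 2 * Real.exp (-(e ^ (-(P.th / 20))))) +
        2 * (y * e ^ (-θ * 3)) * ((Real.exp (e ^ (19 / 20 : ℝ)) - 1) +
          √(2 * Real.exp (e ^ (19 / 20 : ℝ)) * Real.exp (-(e ^ (-(P.th / 40)))))) ≤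
      y * e ^ (9 / 10 : ℝ) / 2
  fin : ∀ y : ℝ, 0 < y → y ≤ 1 →
      ∀ nb T lgn x : ℝ, 1 ≤ nb → nb ≤ 2 ^ (1 + 4 * P.q0) * e ^ (-θ) → 0 ≤ T → T ≤ nb ^ 2 →
        0 ≤ lgn → lgn ≤ nb + e ^ (-(2 * c1)) → 0 < x →
        x ≤ (16 * e ^ (-(4 * P.thp))) * (e ^ (47 / 50 : ℝ) * y) ^ P.C0 →
      C * Real.exp (1 / 2) * ((1 + T + 4 * (4 / κ * T * (2 + lgn)) *
        (e ^ (-(P.th / 20)) + 1 / 2)) ^ 7 * nb ^ 2) * x ^ c ≤ y * e ^ (9 / 10 : ℝ) / 2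
  edge : ∀ (n : ℕ), 4 * lg P.C0 e ≤ n →
      ∀ nb T lgn lgN t n1 R : ℝ, 1 ≤ nb → nb ≤ 2 ^ (1 + 4 * P.q0) * e ^ (-θ) → 0 ≤ T →
        T ≤ nb ^ 2 → 0 ≤ lgn → lgn ≤ nb + e ^ (-(2 * c1)) → 0 ≤ lgN → lgN ≤ n + nb → 0 ≤ t →
        t ≤ ((2 : ℝ) ^ n)⁻¹ → n1 ^ 2 * t ≤ nb ^ 2 * ((2 : ℝ) ^ n)⁻¹ → 0 ≤ R →
        R ≤ (16 * e ^ (-(4 * P.thp))) ^ 2 →
      C * (1 + 1 / (16 * b)) * (1 + 4 * (2 * n1 ^ 2 + 4 * b * T * (2 + lgn)) *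
        (e ^ (-(P.th / 20)) + 1 / 2)) * t * (1 + lgN) * R ^ 3 ≤ 1
  xs : 16 * e ^ (-(4 * P.thp)) * (e ^ (47 / 50 : ℝ)) ^ P.C0 ≤ 1
  k4 : 4 ≤ e ^ (-(P.th / 20))
  k1 : 1 ≤ e ^ (-(P.th / 40))
  h2 : hS e ≤ 1 / 2

/-- the condition of the edges, real numbers -/
lemma edge_num {b C T lgn n1 yt1 R tt lN : ℝ} (hb : 0 < b) (hC : 0 ≤ C) (hT : 0 ≤ T)
    (hlg : 0 ≤ lgn) (hy : 1 / 2 ≤ yt1) (hR : 1 ≤ R) (ht : 0 ≤ tt) (hl : 0 ≤ lN)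
    (h : C * (1 + 1 / (16 * b)) * (1 + 4 * (2 * n1 ^ 2 + 4 * b * T * (2 + lgn)) * yt1) * tt *
      (1 + lN) * R ^ 3 ≤ 1) :
    C * R * ((1 + T + 4 * (2 * n1 ^ 2 + 4 * b * T * (2 + lgn)) * yt1) * (tt * (1 + lN))) ≤ 1 := by
  refine le_trans ?_ h
  obtain ⟨A0, hA0⟩ : ∃ A0, A0 = 4 * (2 * n1 ^ 2 + 4 * b * T * (2 + lgn)) * yt1 := ⟨_, rfl⟩
  rw [← hA0]
  have hbT : 0 ≤ b * T := by positivity
  have h1 : 16 * b * T ≤ A0 := by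
    have g2 : 0 ≤ b * T * lgn := by positivity
    have g3 : 0 ≤ n1 ^ 2 := sq_nonneg _
    have g4 : 8 * (b * T) ≤ 2 * n1 ^ 2 + 4 * b * T * (2 + lgn) := by linarith
    have g5 : 8 * (b * T) * (1 / 2) ≤ (2 * n1 ^ 2 + 4 * b * T * (2 + lgn)) * yt1 :=
      mul_le_mul g4 hy (by norm_num) (by linarith)
    rw [hA0]
    linarith
  have h2 : 0 ≤ A0 := by linarith
  have h3 : 1 + T + A0 ≤ (1 + 1 / (16 * b)) * (1 + A0) := by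
    have g1 : T ≤ 1 / (16 * b) * A0 := by
      rw [one_div, ← div_eq_inv_mul, le_div_iff₀ (by positivity)]
      linarith
    have g2 : 0 ≤ 1 / (16 * b) := by positivity
    have g3 : (1 + 1 / (16 * b)) * (1 + A0) = 1 + A0 + 1 / (16 * b) + 1 / (16 * b) * A0 := by
      ring
    rw [g3]
    linarith
  have h4 : R ≤ R ^ 3 := by
    have g1 : 1 ≤ R ^ 2 := one_le_pow₀ hR
    have g2 : R ^ 3 = R * R ^ 2 := by ring
    rw [g2]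
    exact le_mul_of_one_le_right (by linarith) g1
  have h5 : 0 ≤ tt * (1 + lN) := by positivity
  have hR0 : 0 ≤ R := by linarith
  have h6 : C * R ≤ C * R ^ 3 := mul_le_mul_of_nonneg_left h4 hC
  have h7 : (1 + T + A0) * (tt * (1 + lN)) ≤
      ((1 + 1 / (16 * b)) * (1 + A0)) * (tt * (1 + lN)) := mul_le_mul_of_nonneg_right h3 h5
  have h8 : 0 ≤ (1 + T + A0) * (tt * (1 + lN)) := mul_nonneg (by linarith) h5
  have h9 := mul_le_mul h6 h7 h8 (by positivity : 0 ≤ C * R ^ 3)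
  refine h9.trans (le_of_eq ?_)
  ring

/-- the last sum -/
lemma last_num {om1 om2 o x1 x2 B E1 d : ℝ} (h1 : om1 ≤ o) (h2 : om2 ≤ o) (hx1 : 0 ≤ x1)
    (hx2 : 0 ≤ x2) (h : (o + o) * x1 + 2 * o * x2 ≤ B / 2) (hd : d = B / 2) :
    d + (om1 + om2) * x1 + 2 * om2 * x2 + E1 ≤ B + E1 := by
  have q1 := mul_le_mul_of_nonneg_right (add_le_add h1 h2) hx1
  have q2 := mul_le_mul_of_nonneg_right (mul_le_mul_of_nonneg_left h2 (zero_le_two (α := ℝ))) hx2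
  linarith

/-- sizes of the old mass -/
lemma tn_sizes {n r s' : ℕ} (hx0 : (0 : ℝ) < 2 ^ s' * √(tn n)) (hx2 : (2 : ℝ) ^ s' * √(tn n) ≤ 1)
    (hr3 : n + 2 ≤ r) :
    tn n * ((2 : ℝ) ^ s') ^ 2 ≤ 1 ∧ 1 < tn n * 4 ^ (n + 1) ∧ 9 ≤ tn n * ((2 ^ r : ℕ) : ℝ) ^ 2 := by
  have ht0 : 0 < tn n := tn_pos n
  refine ⟨?_, ?_, ?_⟩
  · have h1 : tn n * ((2 : ℝ) ^ s') ^ 2 = ((2 : ℝ) ^ s' * √(tn n)) ^ 2 := by
      rw [mul_pow, Real.sq_sqrt ht0.le]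
      ring
    rw [h1]
    exact pow_le_one₀ hx0.le hx2
  · have h4 : (4 : ℝ) ^ n ≠ 0 := by positivity
    have h1 : tn n * 4 ^ (n + 1) = 4 := by
      unfold tn
      rw [pow_succ]
      field_simp
    rw [h1]
    norm_num
  · rw [tn_mul_sq (by omega)]
    have h1 : (2 : ℝ) ^ 2 ≤ 2 ^ (r - n) := pow_le_pow_right₀ one_le_two (by omega)
    have h2 := pow_le_pow_left₀ (by positivity) h1 2
    norm_num at h2
    linarith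

/-- the probabilities at the new cells -/
lemma prob_num {P : Par} {e e' : ℝ} (he : 0 < e) (he1 : e ≤ 1) (he' : 0 < e')
    (hi : e' ≤ e ^ (19 / 20 : ℝ)) (k4 : 4 ≤ e ^ (-(P.th / 20))) (k1 : 1 ≤ e ^ (-(P.th / 40))) :
    e ^ (-(P.th / 20)) ≤ e' ^ (-(P.th / 16)) ∧ Real.exp (-(e ^ (-(P.th / 20)))) ≤ 1 / 2 ∧
      Real.exp (-(e ^ (-(P.th / 40)))) ≤ 1 / 2 ∧
      Real.exp (-(e' ^ (-(P.th / 16)))) ≤ Real.exp (-(e ^ (-(P.th / 20)))) := by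
  have h16 : e ^ (-(P.th / 20)) ≤ e' ^ (-(P.th / 16)) := by
    have h1 : (e ^ (19 / 20 : ℝ)) ^ (-(P.th / 16)) ≤ e' ^ (-(P.th / 16)) :=
      Real.rpow_le_rpow_of_nonpos he' hi (by linarith [P.th0])
    refine le_trans ?_ h1
    rw [← Real.rpow_mul he.le]
    exact Real.rpow_le_rpow_of_exponent_ge he he1 (by linarith [P.th0])
  have e1 := Real.exp_neg_one_lt_d9
  have e4 : Real.exp (-4) ≤ 1 / 2 := by
    have h2 : Real.exp (-4) ≤ Real.exp (-1) := Real.exp_le_exp.2 (by norm_num)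
    linarith
  refine ⟨h16, (Real.exp_le_exp.2 (by linarith)).trans e4, ?_, Real.exp_le_exp.2 (by linarith)⟩
  have h2 : Real.exp (-(e ^ (-(P.th / 40)))) ≤ Real.exp (-1) := Real.exp_le_exp.2 (by linarith)
  linarith

section tor

variable {P : Par} {b C1 c1 : ℝ} {n m s s' r : ℕ} {e e' y y' : ℝ}

/-- **(P8) on one torus** -/
theorem pce_tor (hb : 0 < b) {κ C c θ : ℝ} (hκ : 0 < κ) (hκb : κ * b ≤ 1) (hCn : 0 ≤ C)
    (hV : VbvE b κ C c)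
    (hC : Cx P b C1 c1 n s e y) (hW : Cw P n m e e') (hY : Cy P b C1 c1 m s s' e e' y y')
    (hnm : n < m) (hC0 : P.C0 ≤ C1) (hC00 : 0 ≤ P.C0) (hc1 : 0 < c1) (hc1' : c1 ≤ 1 / 400)
    (hnE : 4 * lg P.C0 e ≤ n) (hN : PeN b κ C c θ P c1 e) (hr2 : m ≤ r)
    (hR : (2 : ℝ) ^ (r - n) ≤ 2 ^ (1 + 4 * P.q0) * e ^ (-θ)) (hr3 : n + 2 ≤ r)
    (hsm : s' ≤ m) (hns : ((m - s' : ℕ) : ℝ) ≤ e' ^ (-(2 * c1)))
    [i1 : NeZero (2 ^ r / 2 ^ s)] [i2 : NeZero (2 ^ r / 2 ^ s / 2 ^ (s' - s))]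
    [i3 : NeZero (2 ^ r / (2 ^ s * 2 ^ (s' - s)))]
    (hT : ∀ a, 0 < a → a < tn n → TypE (2 ^ r) (2 ^ s) b (tn n) a 1 (e ^ (19 / 20 : ℝ))
      (Real.exp (-(e ^ (-(P.th / 40))))))
    (hT2 : ∀ a, 0 < a → a < tn m → ∀ [NeZero (2 ^ r / 2 ^ s')],
      TypE (2 ^ r) (2 ^ s') b (tn m) a (e' ^ (-(P.th / 16))) 1
        (Real.exp (-(e' ^ (-(P.th / 16))))))
    (hHS : ∑ k, rel (Acx (2 ^ r) (2 ^ s) (2 ^ (s' - s)) b (tn n) (tn n) (tn m))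
        (anw (2 ^ r) (2 ^ s) (2 ^ (s' - s)) b (tn m)) k ^ 2 ≤ hS e ^ 2)
    (hom : ∀ T, 0 < T → T ≤ 4 * tn n →
      om (wT b (2 ^ r)) (mt (2 ^ r) T) 1 ≤ y * e ^ (-θ * 3))
    (homT : omT (wT b (2 ^ r)) (mt (2 ^ r) (tn n)) ≤ 1 / 2) {E1 : ℝ}
    (hE1 : ∀ F : V (2 ^ r / 2 ^ s) → ℝ, ‖Ph (wT b (2 ^ r)) (mt (2 ^ r) (tn n)) 1
      (lf (2 ^ r) (2 ^ s) F) - Wc (2 ^ r) (2 ^ s) b (tn n) F‖ ≤ E1) :
    tn2 (Acx (2 ^ r) (2 ^ s) (2 ^ (s' - s)) b (tn n) (tn n) (tn m)) (fun f' =>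
        Ph (wT b (2 ^ r)) (mt (2 ^ r) (tn m)) 1 (lf2 (2 ^ r) (2 ^ s) (2 ^ (s' - s)) f')
          - Pc (2 ^ r) (2 ^ s) (2 ^ (s' - s)) b (tn n) (tn n) (tn m)
            (Wc (2 ^ r) (2 ^ s) b (tn n)) f') ≤ y * e ^ (9 / 10 : ℝ) + E1 := by
  have he := hC.e0
  have he1 : e ≤ 1 := by linarith [hC.e1]
  have hy0 := hC.y0
  have hss := hY.ss
  have hsr : s' ≤ r := hsm.trans hr2
  have hnr : n ≤ r := by omega
  have hsl : s ≤ r := hss.trans hsr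
  have ht0 : 0 < tn n := tn_pos n
  have hτ0 : 0 < tn m := tn_pos m
  have hτt : tn m < tn n := by
    unfold tn
    exact inv_strictAnti₀ (by positivity) (pow_lt_pow_right₀ (by norm_num) hnm)
  have hl : 2 ^ s ∣ 2 ^ r := pow_dvd_pow 2 hsl
  have hρ : 2 ^ (s' - s) ∣ 2 ^ r / 2 ^ s := by
    rw [Nat.pow_div hsl two_pos]
    exact pow_dvd_pow 2 (by omega)
  have hlr : 2 ^ s * 2 ^ (s' - s) = 2 ^ s' := lr_pow hss
  have hn1 : 2 ^ r / 2 ^ s / 2 ^ (s' - s) = 2 ^ (r - s') := nlr_pow hss hsr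
  -- forms
  have hA : Nf (acl (2 ^ r) (2 ^ s) b (tn n) (tn n)) := H340.nf_acl hb hl ht0 le_rfl
  have hnf : Nf (Acx (2 ^ r) (2 ^ s) (2 ^ (s' - s)) b (tn n) (tn n) (tn m)) :=
    H708.nf_Ac hρ (nf_Ah (t := tn n) hl hτ0 hτt hA)
  have hnf2 : Nf (anw (2 ^ r) (2 ^ s) (2 ^ (s' - s)) b (tn m)) := H340.nf_anw hb hl hρ hτ0
  have hhS0 : 0 ≤ hS e := Real.rpow_nonneg he.le _
  have hsym := sym_half hnf hnf2 hhS0 hN.h2 hHS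
  -- typical at the new cells
  have hk4 := hN.k4
  obtain ⟨h16, hp12, hδ12, hpp⟩ := prob_num he he1 hY.cx.e0 hW.hi hN.k4 hN.k1
  have hT2' : ∀ a, 0 < a → a < tn m → TypE (2 ^ r) (2 ^ s * 2 ^ (s' - s)) b (tn m) a
      (e' ^ (-(P.th / 16))) 1 (Real.exp (-(e ^ (-(P.th / 20))))) := by
    intro a ha haT
    have i4 : NeZero (2 ^ r / 2 ^ s') := ⟨by
      rw [← hlr]
      exact i3.out⟩
    have h1 := hT2 a ha haT
    have h2 := typE_cast hlr.symm h1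
    exact h2.mono hb.le (hlr ▸ pow_dvd_pow 2 hsr) ha haT.le (by linarith) le_rfl le_rfl hpp
  -- sizes
  have hnb1 : (1 : ℝ) ≤ 2 ^ (r - n) := one_le_pow₀ one_le_two
  have hN2 : tn n * ((2 ^ r : ℕ) : ℝ) ^ 2 = (2 ^ (r - n)) ^ 2 := tn_mul_sq hnr
  have hT0 : (0 : ℝ) ≤ tn m * ((2 ^ r : ℕ) : ℝ) ^ 2 := by positivity
  have hT1 : tn m * ((2 ^ r : ℕ) : ℝ) ^ 2 ≤ (2 ^ (r - n)) ^ 2 := by
    rw [tn_mul_sq hr2]
    exact pow_le_pow_left₀ (by positivity) (pow_le_pow_right₀ one_le_two (by omega)) 2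
  have hlg0 : 0 ≤ Real.log ((2 ^ r / 2 ^ s / 2 ^ (s' - s) : ℕ) : ℝ) := Real.log_natCast_nonneg _
  have hlg1 : Real.log ((2 ^ r / 2 ^ s / 2 ^ (s' - s) : ℕ) : ℝ) ≤
      2 ^ (r - n) + e ^ (-(2 * c1)) := by
    rw [hn1]
    exact lgn_le hsm hnm.le hr2 he hW.lo hc1 hc1' hns
  have hx0 : (0 : ℝ) < 2 ^ s' * √(tn n) := by positivity
  have hx1 := xs_le hC hW hY hnm.le hC0 hC00
  have hx2 : (2 : ℝ) ^ s' * √(tn n) ≤ 1 := by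
    refine hx1.trans (le_trans ?_ hN.xs)
    refine mul_le_mul_of_nonneg_left ?_ (by positivity)
    refine Real.rpow_le_rpow (by positivity) ?_ hC00
    exact mul_le_of_le_one_right (Real.rpow_nonneg he.le _) hC.ylt.le
  have key := p8_gen (N := 2 ^ r) (l := 2 ^ s) (ρ := 2 ^ (s' - s)) (b := b) (t := tn n)
    (τ := tn m) hb hl hρ hτ0 hτt (ρ0 := e ^ (19 / 20 : ℝ))
    (δ := Real.exp (-(e ^ (-(P.th / 40))))) (Real.rpow_nonneg he.le _) (Real.exp_pos _).le hδ12 hT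
    (e1 := E1) (fun F => hE1 F) hsym (Y := e' ^ (-(P.th / 16)))
    (p := Real.exp (-(e ^ (-(P.th / 20))))) (by linarith) hp12 hT2' hκ hκb
    (y := e ^ (-(P.th / 20))) le_rfl le_rfl (dfin := y * e ^ (9 / 10 : ℝ) / 2) (by positivity)
    (fun f' g1 g2 g3 => ?_)
  · refine key.trans ?_
    have o1 : om (wT b (2 ^ r)) (tn m • (1 : Matrix (V (2 ^ r)) (V (2 ^ r)) ℝ)) 1 ≤
        y * e ^ (-θ * 3) := hom (tn m) hτ0 (by linarith)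
    have o2 : om (wT b (2 ^ r)) (tn n • (1 : Matrix (V (2 ^ r)) (V (2 ^ r)) ℝ)) 1 ≤
        y * e ^ (-θ * 3) := hom (tn n) ht0 (by linarith)
    refine last_num o1 o2 (Real.sqrt_nonneg _) ?_ (hN.prob y hy0) rfl
    have h3 : 1 ≤ Real.exp (e ^ (19 / 20 : ℝ)) := Real.one_le_exp (Real.rpow_nonneg he.le _)
    have h4 := Real.sqrt_nonneg (2 * Real.exp (e ^ (19 / 20 : ℝ)) *
      Real.exp (-(e ^ (-(P.th / 40)))))
    linarith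
  · -- the fine step
    obtain ⟨htn, htp, htN⟩ := tn_sizes hx0 hx2 hr3
    have hR2 : tn n / tn m = Mw n m ^ 2 := by
      rw [div_eq_iff hτ0.ne']
      exact tn_mul n m
    have hR1 : 1 ≤ tn n / tn m := by
      rw [le_div_iff₀ hτ0, one_mul]
      exact hτt.le
    have hR0 : 0 ≤ tn n / tn m := by linarith
    have hn1' : ((2 ^ r / 2 ^ s / 2 ^ (s' - s) : ℕ) : ℝ) ^ 2 * tn n ≤
        (2 ^ (r - n)) ^ 2 * ((2 : ℝ) ^ n)⁻¹ := by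
      rw [hn1]
      exact n1_le (hnm.le.trans hY.cx.ns) hsr hnr
    have hRle : tn n / tn m ≤ (16 * e ^ (-(4 * P.thp))) ^ 2 := by
      rw [hR2]
      exact pow_le_pow_left₀ (H889.Mw_pos n m).le (Mw_le hW he he1 hnm.le) 2
    have hedge := hN.edge n hnE (2 ^ (r - n)) _ _ (Real.log ((2 ^ r : ℕ) : ℝ)) (tn n)
      ((2 ^ r / 2 ^ s / 2 ^ (s' - s) : ℕ) : ℝ) (tn n / tn m) hnb1 hR hT0 hT1 hlg0 hlg1
      (Real.log_natCast_nonneg _) (lgN_le hnr) ht0.le (tn_le_pow n) hn1' hR0 hRle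
    have hcond := edge_num hb hCn hT0 hlg0 (by linarith) hR1 ht0.le (Real.log_natCast_nonneg _)
      hedge
    have h := hV (2 ^ r) (2 ^ s) (2 ^ (s' - s)) s' n hl hρ hlr (pow_dvd_pow 2 hnr) (tn n) ht0 htn
      htp htN homT (tn m) hτ0 hτt.le f' 1 _ _ g1 g2 g3 hcond 1
    refine h.trans ?_
    have h6 := hN.fin y hy0 hC.ylt.le (2 ^ (r - n)) _ _ ((2 : ℝ) ^ s' * √(tn n)) hnb1 hR hT0 hT1
      hlg0 hlg1 hx0 hx1
    rw [hN2]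
    exact h6

end tor

end

end Vale.Agent.P159.H896
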