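import Vale.Agent.P159.H896.TypI
import Vale.Agent.P159.H896.Ht1
import Vale.Agent.P159.H896.Amp
import Vale.Agent.P159.H239.Typ

/-!
P159 (helper896), quantitative V bound, part 0: the covariance of the source of the cell channel with
fine mass `F`, posterior cell mass `T`, prior cell mass `a`, any cells:
`(T - a) S_N ≤ X Xᵀ ≤ q₁ (T - a) S_N`, `q₁ = 1 + b T N² / 16`, uniformly in `a`, `F`, `l`.
-/

set_option linter.unusedSectionVars false

namespace Vale.Agent.P159.H896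

open Finset Matrix MeasureTheory
open Vale.Agent.P159.TM.H104 (EM Ex Cv K3 Lg li nh Gr)
open Vale.Agent.P159.TM.H764 (EE)
open Vale.Agent.P159.H37
open Vale.Agent.P159.H864 (TI sym MC cobV cl up fc Gc lapM)
open Vale.Agent.P159.H963 (Pn Gnc nMC nwt obsN ntr Neu)
open Vale.Agent.P159.H730 (RL Hm)
open Vale.Agent.P159.H859 (psd_of Rk)
open Vale.Agent.P159.H447 (SN CN CN_gram SN_tr K4S)
open Vale.Agent.P159.TM.Spec (V)
open Vale.Agent.P159.TM.SpecC (wT)

noncomputable section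

variable {N l : ℕ} [NeZero N] [NeZero (N / l)] {b F T a : ℝ} {I : Type*} [Fintype I]
  {X : Matrix (V N) I ℝ}

/-- the upper factor of the covariance -/
def q1 (N : ℕ) (b T : ℝ) : ℝ := 1 + b * T * (N : ℝ) ^ 2 / 16

lemma one_le_q1 (N : ℕ) (hb : 0 ≤ b) (hT : 0 ≤ T) : 1 ≤ q1 N b T := by
  unfold q1
  have : 0 ≤ b * T * (N : ℝ) ^ 2 / 16 := by positivity
  linarith

lemma obsN_CN (N l : ℕ) [NeZero N] [NeZero (N / l)] (s : ℝ) : obsN N l s = √s • CN N l := rfl

lemma neu_CN (u : V N → ℝ) : Neu (CN N l *ᵥ u) := by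
  unfold H447.CN
  rw [← mulVec_mulVec]
  exact H963.neu_Pn _

lemma qf_SN (hl : l ∣ N) (u : V N → ℝ) : qf (SN N l) u = ∑ c, (CN N l *ᵥ u) c ^ 2 := by
  rw [← CN_gram hl, H37.qf_gram]

/-- the resolvent of the channel -/
def Bk (N l : ℕ) [NeZero N] [NeZero (N / l)] (b F T a : ℝ) : Matrix (V (N / l)) (V (N / l)) ℝ :=
  fc (fun x => (1 - (T - a) * x)⁻¹) (Gnc N l b F T)

lemma ti_Bk : TI (Bk N l b F T a) := H864.ti_fc _ _

section chan

variable (hb : 0 ≤ b) (hl : l ∣ N) (ha : 0 < a) (h1 : a < T) (h : T ≤ F)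
include hb hl ha h1 h

lemma bk_pos (k : V (N / l)) : 0 < 1 - (T - a) * sym (Gnc N l b F T) k := by
  have hT : 0 < T := ha.trans h1
  have hq : 0 < T - a := by linarith
  have h2 := H963.sym_Gnc_le hb hl hT h k
  have h3 : (T - a) * sym (Gnc N l b F T) k ≤ (T - a) * T⁻¹ :=
    mul_le_mul_of_nonneg_left h2 hq.le
  have h4 : (T - a) * T⁻¹ < 1 := by
    rw [← div_eq_mul_inv, div_lt_one hT]
    linarith
  linarith

lemma sym_Bk (k : V (N / l)) :
    sym (Bk N l b F T a) k = (1 - (T - a) * sym (Gnc N l b F T) k)⁻¹ := by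
  unfold Bk
  rw [H864.sym_fc]

lemma Bk_ge (k : V (N / l)) : 1 ≤ sym (Bk N l b F T a) k := by
  have h2 := bk_pos hb hl ha h1 h k
  rw [sym_Bk hb hl ha h1 h]
  have h3 : 0 ≤ (T - a) * sym (Gnc N l b F T) k :=
    mul_nonneg (by linarith) (H963.sym_Gnc_nonneg hb hl (ha.trans h1) h k)
  rw [one_le_inv₀ h2]
  linarith

lemma Bk_le (hb' : 0 < b) (k : V (N / l)) (hk : k ≠ 0) :
    sym (Bk N l b F T a) k ≤ q1 N b T := by
  have hT : 0 < T := ha.trans h1
  have hlp : (0 : ℝ) < l := by exact_mod_cast H864.l_pos hl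
  have hNp : (0 : ℝ) < N := by exact_mod_cast NeZero.pos N
  rw [sym_Bk hb hl ha h1 h]
  have h2 := bk_pos hb hl ha h1 h k
  have h3 := H859.Gnck_dom hb hl (κ := 1 / b) hT h (by positivity)
    (by rw [mul_one_div_cancel hb'.ne']) k
  have hE := EE_gap' hk
  have hE0 : 0 < EE k := lt_of_lt_of_le (by
    have : (0 : ℝ) < ((N / l : ℕ) : ℝ) := by exact_mod_cast NeZero.pos (N / l)
    positivity) hE
  set x : ℝ := 1 / b / (l : ℝ) ^ 2 * EE k with hx
  have hx0 : 0 < x := by positivity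
  have h4 : (T - a) * sym (Gnc N l b F T) k ≤ (T - a) * (T + x)⁻¹ :=
    mul_le_mul_of_nonneg_left h3 (by linarith)
  have h5 : (a + x) / (T + x) ≤ 1 - (T - a) * sym (Gnc N l b F T) k := by
    have : (T - a) * (T + x)⁻¹ = 1 - (a + x) / (T + x) := by
      field_simp
      ring
    linarith
  have h6 : 0 < (a + x) / (T + x) := by positivity
  refine (inv_anti₀ h6 h5).trans ?_
  rw [inv_div]
  unfold q1
  have h7 : T / x ≤ b * T * (N : ℝ) ^ 2 / 16 := by
    have h8 : 16 / (b * (N : ℝ) ^ 2) ≤ x := by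
      have h9 : ((N / l : ℕ) : ℝ) = (N : ℝ) / l := cast_div' hl
      rw [h9] at hE
      calc 16 / (b * (N : ℝ) ^ 2) = 1 / b / (l : ℝ) ^ 2 * (16 / ((N : ℝ) / l) ^ 2) := by
            field_simp
        _ ≤ x := mul_le_mul_of_nonneg_left hE (by positivity)
    rw [div_le_iff₀ hx0]
    have h10 : b * T * (N : ℝ) ^ 2 / 16 * (16 / (b * (N : ℝ) ^ 2)) = T := by
      field_simp
    calc T = b * T * (N : ℝ) ^ 2 / 16 * (16 / (b * (N : ℝ) ^ 2)) := h10.symm
      _ ≤ b * T * (N : ℝ) ^ 2 / 16 * x := mul_le_mul_of_nonneg_left h8 (by positivity)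
  have h8 : (T + x) / (a + x) ≤ (T + x) / x :=
    div_le_div_of_nonneg_left (by positivity) hx0 (by linarith)
  have h9 : (T + x) / x = 1 + T / x := by
    field_simp
    ring
  linarith

/-- the covariance of the source -/
theorem rl_cov (hX : RL (nMC N l b F a 0) (obsN N l (T - a)) X) :
    X * Xᵀ = (T - a) • ((CN N l)ᵀ * Bk N l b F T a * CN N l) := by
  have hT : 0 < T := ha.trans h1
  have hq : 0 < T - a := by linarith
  have hpost : post (nMC N l b F a 0) (obsN N l (T - a)) = nMC N l b F T 0 :=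
    H963.post_nMC hl b h1.le 0
  have tG : TI (Gnc N l b F T) := H963.ti_Gnc hb hl hT h
  have hinv : Bk N l b F T a * (1 - (T - a) • Gnc N l b F T) = 1 := by
    refine H864.sym_inj (ti_Bk.mul (TI.one.sub (tG.smul _))) TI.one fun k => ?_
    rw [H864.sym_mul ti_Bk (TI.one.sub (tG.smul _)), H864.sym_sub, H864.sym_one, H864.sym_smul,
      sym_Bk hb hl ha h1 h]
    exact inv_mul_cancel₀ (bk_pos hb hl ha h1 h k).ne'
  rw [hX.cov, hpost, Hm_obsN hl hq.le, Matrix.inv_eq_left_inv hinv, obsN_CN, transpose_smul]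
  simp only [Matrix.smul_mul, Matrix.mul_smul, smul_smul]
  rw [Real.mul_self_sqrt hq.le]

lemma rl_qf (hX : RL (nMC N l b F a 0) (obsN N l (T - a)) X) (u : V N → ℝ) :
    qf (X * Xᵀ) u = (T - a) * qf (Bk N l b F T a) (CN N l *ᵥ u) := by
  rw [rl_cov hb hl ha h1 h hX, H864.qf_smul_mat, qf_eq, qf_eq]
  congr 1
  rw [← mulVec_mulVec, ← mulVec_mulVec, dotProduct_mulVec, vecMul_transpose]

lemma gram_tr' : (X * Xᵀ)ᵀ = X * Xᵀ := H859.gram_symm X

/-- **lower bound** -/
theorem rl_low (hX : RL (nMC N l b F a 0) (obsN N l (T - a)) X) :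
    (X * Xᵀ - (T - a) • SN N l).PosSemidef := by
  refine psd_of ?_ fun u => ?_
  · rw [transpose_sub, transpose_smul, SN_tr hl, H859.gram_symm]
  · rw [H859.qf_sub_m, H864.qf_smul_mat, rl_qf hb hl ha h1 h hX, qf_SN hl, ← mul_sub]
    refine mul_nonneg (by linarith) ?_
    have h2 := qf_neu_le (S := 1) (R := Bk N l b F T a) TI.one ti_Bk (c := 1) (fun k _ => by
      rw [H864.sym_one, one_mul]
      exact Bk_ge hb hl ha h1 h k) (neu_CN (l := l) u)
    have e : qf (1 : Matrix (V (N / l)) (V (N / l)) ℝ) (CN N l *ᵥ u) =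
        ∑ c, (CN N l *ᵥ u) c ^ 2 := by
      rw [qf_eq, one_mulVec]
      unfold dotProduct
      exact Finset.sum_congr rfl fun x _ => by ring
    rw [e, one_mul] at h2
    linarith

/-- **upper bound** -/
theorem rl_up (hb' : 0 < b) (hX : RL (nMC N l b F a 0) (obsN N l (T - a)) X) :
    ((q1 N b T * (T - a)) • SN N l - X * Xᵀ).PosSemidef := by
  refine psd_of ?_ fun u => ?_
  · rw [transpose_sub, transpose_smul, SN_tr hl, H859.gram_symm]
  · rw [H859.qf_sub_m, H864.qf_smul_mat, rl_qf hb hl ha h1 h hX, qf_SN hl]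
    have h2 := qf_neu_le (S := Bk N l b F T a) (R := 1) ti_Bk TI.one (c := q1 N b T)
      (fun k hk => by
        rw [H864.sym_one, mul_one]
        exact Bk_le hb hl ha h1 h hb' k hk) (neu_CN (l := l) u)
    have e : qf (1 : Matrix (V (N / l)) (V (N / l)) ℝ) (CN N l *ᵥ u) =
        ∑ c, (CN N l *ᵥ u) c ^ 2 := by
      rw [qf_eq, one_mulVec]
      unfold dotProduct
      exact Finset.sum_congr rfl fun x _ => by ring
    rw [e] at h2
    have h3 := mul_le_mul_of_nonneg_left h2 (by linarith : 0 ≤ T - a)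
    linarith

end chan

end

end Vale.Agent.P159.H896
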