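import Vale.Agent.P159.H896.Rq0
import Vale.Agent.P159.H462.L1d
import Vale.Agent.P159.H239.Ap4

/-!
P159 (helper896), quantitative V bound, part 1: **propagation of a set bound to a smaller mass**.
If under the exact law of the source of the posterior `Rs ≤ ρ` off probability `p`, then under the
exact law of the source of the intermediate posterior `Rs ≤ ρ + 2 √p` off probability `√p`.
-/

set_option linter.unusedSectionVars false

namespace Vale.Agent.P159.H896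

open Finset Matrix MeasureTheory
open Vale.Agent.P159.TM.H104 (EM Ex Cv K3 Lg li nh Gr)
open Vale.Agent.P159.TM.H764 (EE)
open Vale.Agent.P159.H37
open Vale.Agent.P159.H663 (GC ind)
open Vale.Agent.P159.H864 (TI sym MC cobV cl up fc Gc lapM)
open Vale.Agent.P159.H963 (Pn Gnc nMC nwt obsN ntr Neu)
open Vale.Agent.P159.H730 (RL Hm wN)
open Vale.Agent.P159.H859 (psd_of Rk)
open Vale.Agent.P159.H447 (SN CN CN_gram SN_tr K4S)
open Vale.Agent.P159.H239 (TypE neg_log_le chi_set exists_lin)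
open Vale.Agent.P159.TM.Spec (V)
open Vale.Agent.P159.TM.SpecC (wT)

noncomputable section

/-- **set propagation** -/
theorem pset {X : Type*} [Fintype X] {μ' : (X → ℤ) → ℝ} {I I₂ : Type*} [Fintype I] [Fintype I₂]
    (hμ : EM μ') (P : Matrix I X ℝ) (P₂ : Matrix I₂ X ℝ)
    (hK : GC (post (post μ' P) P₂)) (h0 : ∀ J, 0 ≤ Rs (post (post μ' P) P₂) J)
    {θ : ℝ} (hθ : θ < 1)
    (hG : ∀ g : I₂ → ℝ, qf (Gm (post (post μ' P) P₂)) (P₂ᵀ *ᵥ g) ≤ θ * ∑ i, g i ^ 2)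
    {S : Set (X → ℝ)} (hS : MeasurableSet S) {r : ℝ}
    (hr : ∀ J ∈ S, Rs (post (post μ' P) P₂) J ≤ r) {p : ℝ} (hp0 : 0 < p) (hp : p ≤ 1 / 4)
    (hpS : Ech μ' 0 (fromRows P P₂) (ind Sᶜ) ≤ p) :
    Ech μ' 0 P ({J : X → ℝ | Rs (post μ' P) J ≤ r + 2 * √p}ᶜ.indicator fun _ => (1 : ℝ)) ≤ √p := by
  have hμ1 := em_post hμ P
  have hsp : 0 < √p := Real.sqrt_pos.2 hp0
  have hsp2 : √p ≤ 1 / 2 := by
    rw [Real.sqrt_le_left (by norm_num)]
    linarith
  have hB : MeasurableSet {J : X → ℝ | Rs (post μ' P) J ≤ r + 2 * √p} :=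
    measurableSet_le (H114.continuous_Rs hμ1).measurable measurable_const
  set B : Set (X → ℝ) := {J : X → ℝ | Rs (post μ' P) J ≤ r + 2 * √p} with hBd
  have hΦ : EGr (ind Sᶜ) := H663.EGr.ind hS.compl
  have key : ∀ J, √p * Bᶜ.indicator (fun _ => (1 : ℝ)) J ≤ Ech (post μ' P) J P₂ (ind Sᶜ) := by
    intro J
    have hnn : 0 ≤ Ech (post μ' P) J P₂ (ind Sᶜ) :=
      Ech_nonneg hμ1 _ _ fun J => H663.ind_nonneg _ J
    by_cases hJ : J ∈ Bᶜ
    · rw [Set.indicator_of_mem hJ, mul_one]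
      by_contra hc
      have hc' := (not_le.1 hc).le
      obtain ⟨b, hb⟩ := exists_lin P₂ hθ (H663.Gm_symm _) hG J
      have h1 := H663.prop_set' hμ1 P₂ hK h0 hb hS hr (p := √p) (by linarith) hc'
      have h2 := neg_log_le hsp.le hsp2
      exact hJ (by
        rw [hBd, Set.mem_ofPred_eq]
        linarith)
    · rw [Set.indicator_of_notMem hJ, mul_zero]
      exact hnn
  have h1 := H663.Ech_mono' hμ (J₁ := 0) (P := P)
    ((chi_set hμ 0 P hB.compl).cmul (√p)) (H462.chI_tower hμ 0 P P₂ hΦ) key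
  rw [Ech_cmul, ← Ech_tower hμ 0 P P₂ hΦ] at h1
  have h2 := h1.trans hpS
  have h3 : √p * √p = p := Real.mul_self_sqrt hp0.le
  exact le_of_mul_le_mul_left (h2.trans h3.ge) hsp

section tor

variable {N l : ℕ} [NeZero N] [NeZero (N / l)] {b : ℝ}

/-- the covariance of the observation is at most the relative mass -/
lemma qf_obs_le (hb : 0 ≤ b) (hl : l ∣ N) {F T q : ℝ} (hT : 0 < T) (h : T ≤ F) (hq : 0 ≤ q)
    (g : V (N / l) → ℝ) :
    qf (Gm (nMC N l b F T 0)) ((obsN N l q)ᵀ *ᵥ g) ≤ q / T * ∑ i, g i ^ 2 := by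
  rw [← H730.qf_Hm, Hm_obsN hl hq, H864.qf_smul_mat, mul_comm_div]
  refine mul_le_mul_of_nonneg_left ?_ hq
  have tG : TI (Gnc N l b F T) := H963.ti_Gnc hb hl hT h
  have h1 := (H864.qf_le_iff tG (TI.one.smul (T⁻¹))).2 (fun k => by
    rw [H864.sym_smul, H864.sym_one, mul_one]
    exact H963.sym_Gnc_le hb hl hT h k) g
  have e : qf (1 : Matrix (V (N / l)) (V (N / l)) ℝ) g = ∑ i, g i ^ 2 := by
    rw [qf_eq, one_mulVec]
    unfold dotProduct
    exact Finset.sum_congr rfl fun x _ => by ring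
  rw [H864.qf_smul_mat, e] at h1
  rw [div_eq_inv_mul]
  exact h1

/-- **set propagation on the torus**: from the scalar mass `T₂` to the cell mass `T₁` -/
theorem pset_tor (hb : 0 ≤ b) (hl : l ∣ N) {a T₁ T₂ : ℝ} (ha : 0 < a) (h1 : a < T₁) (h2 : T₁ ≤ T₂)
    {ρ p : ℝ} (hp0 : 0 < p) (hp : p ≤ 1 / 4) (h : TypE N l b T₂ a 1 ρ p) :
    Ech (nMC N l b T₂ a 0) 0 (obsN N l (T₁ - a))
      ({J : V N → ℝ | Rs (nMC N l b T₂ T₁ 0) J ≤ ρ + 2 * √p}ᶜ.indicator fun _ => (1 : ℝ)) ≤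
        √p := by
  have hT1 : 0 < T₁ := ha.trans h1
  have hT2 : 0 < T₂ := hT1.trans_le h2
  have hμ : EM (nMC N l b T₂ a 0) := H963.em_nMC hb hl ha (h1.le.trans h2) 0
  have hpost1 : post (nMC N l b T₂ a 0) (obsN N l (T₁ - a)) = nMC N l b T₂ T₁ 0 :=
    H963.post_nMC hl b h1.le 0
  have hpost2 : post (nMC N l b T₂ T₁ 0) (obsN N l (T₂ - T₁)) = nwt N b T₂ 0 := by
    rw [H963.post_nMC hl b h2 0, H963.nMC_self]
  have hem2 := H963.em_nwt (N := N) hb hT2 0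
  have hev2 : Ev (nwt N b T₂ 0) := (H963.gw_wT hb).ev_nM _ _ 0
  have hpk2 : PK (nwt N b T₂ 0) := by
    rw [← H963.nMC_self N l b T₂ 0]
    exact H963.pk_nMC hb hl hT2 le_rfl 0
  have hS : MeasurableSet {J : V N → ℝ | Rs (nwt N b T₂ 0) J ≤ ρ} :=
    measurableSet_le (H114.continuous_Rs hem2).measurable measurable_const
  have hmain := pset hμ (obsN N l (T₁ - a)) (obsN N l (T₂ - T₁)) (θ := (T₂ - T₁) / T₂)
    (S := {J : V N → ℝ | Rs (nwt N b T₂ 0) J ≤ ρ}) (r := ρ) (p := p)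
  rw [hpost1, hpost2] at hmain
  refine hmain (fun J u => H789.qf_mono hem2 hev2 hpk2 J u)
    (fun J => H789.Rs_nonneg hem2 hev2 hpk2 J) ?_ ?_ hS (fun J hJ => hJ) hp0 hp ?_
  · rw [div_lt_one hT2]
    linarith
  · intro g
    have h3 := qf_obs_le (b := b) hb hl hT2 le_rfl (sub_nonneg.2 h2) g
    rwa [H963.nMC_self] at h3
  · unfold H239.TypE at h
    simp only [one_smul] at h
    have e : Ech (nMC N l b T₂ a 0) 0 (fromRows (obsN N l (T₁ - a)) (obsN N l (T₂ - T₁)))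
        (ind {J : V N → ℝ | Rs (nwt N b T₂ 0) J ≤ ρ}ᶜ) =
        Ech (nMC N l b T₂ a 0) 0 (obsN N l (T₂ - a))
          (ind {J : V N → ℝ | Rs (nwt N b T₂ 0) J ≤ ρ}ᶜ) := by
      refine H462.Ech_gram hμ 0 _ _ ?_ (H663.EGr.ind hS.compl).meas
      rw [obsN_CN, obsN_CN, obsN_CN, H462.gram_rows (by linarith) (by linarith)]
      have : T₁ - a + (T₂ - T₁) = T₂ - a := by ring
      rw [this]
    rw [e]
    exact h

end tor

end

end Vale.Agent.P159.H896
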