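import Vale.Agent.P159.H896.Rq2
import Vale.Agent.P159.H663.Sgq

/-!
P159 (helper896), quantitative V bound, part 3: the energy `<J, G J>` of a Gaussian source of
covariance at most `q` times the cells has exponential tails on the scale
`M = q 2 b N² (2 + log (N / l))`.
-/

set_option linter.unusedSectionVars false

namespace Vale.Agent.P159.H896

open Finset Matrix MeasureTheory
open Vale.Agent.P159.TM.H104 (EM Ex Cv K3 Lg li nh Gr)
open Vale.Agent.P159.TM.H764 (EE)
open Vale.Agent.P159.H37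
open Vale.Agent.P159.H864 (TI sym MC cobV cl up fc Gc lapM)
open Vale.Agent.P159.H963 (Pn Gnc nMC nwt obsN ntr Neu)
open Vale.Agent.P159.H859 (psd_of Rk gd gd_le)
open Vale.Agent.P159.H447 (SN CN CN_gram SN_tr gm_CN)
open Vale.Agent.P159.H239 (exists_increment)
open Vale.Agent.P159.TM.Spec (V)
open Vale.Agent.P159.TM.SpecC (wT)

noncomputable section

/-- the sum of the energies of the columns is the trace -/
lemma trace_cols {W I : Type*} [Fintype W] [Fintype I] (G : Matrix W W ℝ) (X : Matrix W I ℝ) :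
    (Xᵀ * G * X).trace = ∑ i, qf G (Xᵀ i) := by
  unfold Matrix.trace
  refine Finset.sum_congr rfl fun i _ => ?_
  rw [Matrix.diag_apply, Matrix.mul_assoc, Matrix.mul_apply, qf_eq]
  rfl

lemma trace_swap {W I : Type*} [Fintype W] [Fintype I] (G : Matrix W W ℝ) (X : Matrix W I ℝ) :
    (Xᵀ * G * X).trace = (G * (X * Xᵀ)).trace := by
  rw [Matrix.trace_mul_comm, ← Matrix.mul_assoc, Matrix.trace_mul_comm]

variable {N l : ℕ} [NeZero N] [NeZero (N / l)] {b t : ℝ} {I : Type*} [Fintype I]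
  {X : Matrix (V N) I ℝ}

/-- the trace of the neutral cell covariance -/
theorem trace_Gnc (hb : 0 < b) (hl : l ∣ N) (ht : 0 < t) :
    (Gnc N l b t t).trace ≤ 2 * b * (N : ℝ) ^ 2 * (2 + Real.log ((N / l : ℕ) : ℝ)) := by
  have hlp : (0 : ℝ) < l := by exact_mod_cast H864.l_pos hl
  have hNp : (0 : ℝ) < N := by exact_mod_cast NeZero.pos N
  have hn : (0 : ℝ) < ((N / l : ℕ) : ℝ) := by exact_mod_cast NeZero.pos (N / l)
  have tG : TI (Gnc N l b t t) := H963.ti_Gnc hb.le hl ht le_rfl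
  rw [tG.trace_eq]
  set κ : ℝ := 1 / b / (l : ℝ) ^ 2 with hκ
  have hκ0 : 0 < κ := by positivity
  set r : ℝ := κ / ((N / l : ℕ) : ℝ) ^ 2 with hr
  have hr0 : 0 < r := by positivity
  have h1 : ∀ k : V (N / l), sym (Gnc N l b t t) k ≤ 2 * (r + κ * EE k)⁻¹ := by
    intro k
    by_cases hk : k = 0
    · rw [hk, H963.sym_Gnc_zero hl hb.le ht le_rfl]
      have := TM.H764.EE_nonneg (0 : V (N / l))
      positivity
    · have h2 := H859.Gnck_dom hb.le hl (κ := 1 / b) ht le_rfl (by positivity)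
        (by rw [mul_one_div_cancel hb.ne']) k
      refine h2.trans ?_
      have hE := EE_gap' hk
      have hE0 : 0 < EE k := lt_of_lt_of_le (by positivity) hE
      have h3 : r ≤ κ * EE k := by
        have := mul_le_mul_of_nonneg_left hE hκ0.le
        refine le_trans ?_ this
        rw [hr, ← mul_div_assoc]
        refine div_le_div_of_nonneg_right ?_ (by positivity)
        linarith
      have h4 : 0 < κ * EE k := by positivity
      rw [← div_eq_mul_inv, inv_eq_one_div, div_le_div_iff₀ (by positivity) (by positivity)]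
      linarith
  refine (Finset.sum_le_sum fun k _ => h1 k).trans ?_
  rw [← Finset.mul_sum]
  have h5 := gd_le (n := N / l) hr0 hκ0
  rw [H859.gd_eq hr0 hκ0.le] at h5
  have h6 : ∑ k : V (N / l), (r + κ * EE k)⁻¹ ≤
      ((N / l : ℕ) : ℝ) ^ 2 * (1 / (r * ((N / l : ℕ) : ℝ) ^ 2) +
        (1 + Real.log ((N / l : ℕ) : ℝ)) / κ) := by
    have h7 := mul_le_mul_of_nonneg_left h5 (by positivity : 0 ≤ ((N / l : ℕ) : ℝ) ^ 2)
    rwa [← mul_assoc, mul_inv_cancel₀ (by positivity), one_mul] at h7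
  have e : 2 * (((N / l : ℕ) : ℝ) ^ 2 * (1 / (r * ((N / l : ℕ) : ℝ) ^ 2) +
      (1 + Real.log ((N / l : ℕ) : ℝ)) / κ)) =
      2 * b * (N : ℝ) ^ 2 * (2 + Real.log ((N / l : ℕ) : ℝ)) := by
    rw [hr, hκ]
    generalize Real.log ((N / l : ℕ) : ℝ) = w
    rw [cast_div' hl]
    field_simp
    ring
  rw [← e]
  linarith

/-- the trace of the energy of a source -/
theorem trace_energy (hb : 0 < b) (hl : l ∣ N) (ht : 0 < t) {q : ℝ} (hq : 0 ≤ q)
    (hup : (q • SN N l - X * Xᵀ).PosSemidef) :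
    (Xᵀ * Gm (nwt N b t 0) * X).trace ≤
      q * (2 * b * (N : ℝ) ^ 2 * (2 + Real.log ((N / l : ℕ) : ℝ))) := by
  classical
  have hem := H963.em_nwt (N := N) hb.le ht 0
  set G := Gm (nwt N b t 0) with hG
  obtain ⟨C, hC⟩ := exists_increment hup
  have h1 : 0 ≤ (Cᵀ * G * C).trace := by
    rw [trace_cols]
    exact Finset.sum_nonneg fun i _ => H114.qf_Cm_nonneg hem 0 _
  rw [trace_swap, ← hC, Matrix.mul_sub, Matrix.trace_sub, Matrix.mul_smul, Matrix.trace_smul,
    smul_eq_mul] at h1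
  have h2 : (G * SN N l).trace = (Gnc N l b t t).trace := by
    rw [← CN_gram hl, ← gm_CN hl, ← Matrix.mul_assoc, Matrix.trace_mul_comm, ← Matrix.mul_assoc]
  rw [h2] at h1
  rw [trace_swap]
  have h3 := mul_le_mul_of_nonneg_left (trace_Gnc hb hl ht) hq
  linarith

/-- **tail of the energy** -/
theorem energy_tail (hb : 0 < b) (hl : l ∣ N) (ht : 0 < t) {q : ℝ} (hq : 0 ≤ q)
    (hup : (q • SN N l - X * Xᵀ).PosSemidef) {M : ℝ} (hM : 0 < M)
    (hqM : q * (2 * b * (N : ℝ) ^ 2 * (2 + Real.log ((N / l : ℕ) : ℝ))) ≤ M) (y : ℝ) :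
    (gau I).real {g | 4 * M * (y + 1 / 2) ≤ qf (Gm (nwt N b t 0)) (X *ᵥ g)} ≤ Real.exp (-y) := by
  classical
  have hem := H963.em_nwt (N := N) hb.le ht 0
  set G := Gm (nwt N b t 0) with hG
  have hGs : Gᵀ = G := H663.Gm_symm _
  have hG0 : ∀ u, 0 ≤ qf G u := fun u => H114.qf_Cm_nonneg hem 0 u
  have htr := (trace_energy hb hl ht hq hup).trans hqM
  rw [← hG] at htr
  set K := Xᵀ * G * X with hK
  have hKq : ∀ g : I → ℝ, qf K g = qf G (X *ᵥ g) := by
    intro g
    rw [hK, qf_eq, qf_eq, ← mulVec_mulVec, ← mulVec_mulVec, dotProduct_mulVec, vecMul_transpose]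
  have hKs : Kᵀ = K := by
    rw [hK, transpose_mul, transpose_mul, transpose_transpose, hGs, Matrix.mul_assoc]
  have hKn : ∀ g : I → ℝ, qf K g ≤ M * ∑ i, g i ^ 2 := by
    intro g
    have h1 := norm_le_tr (R := G) (psd_of hGs hG0) Xᵀ g
    rw [transpose_transpose, ← trace_cols, ← hK] at h1
    rw [hKq]
    exact h1.trans (mul_le_mul_of_nonneg_right htr (Finset.sum_nonneg fun _ _ => sq_nonneg _))
  have h2 := H663.gau_tail hKs (fun g => by rw [hKq]; exact hG0 _) (lam := 1 / (2 * M))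
    (by positivity) (fun g => by
      have := hKn g
      rw [div_mul_eq_mul_div, one_mul, div_le_iff₀ (by positivity)]
      linarith) (4 * M * (y + 1 / 2))
  have hm : MeasurableSet {g : I → ℝ | 4 * M * (y + 1 / 2) ≤ qf K g} := by
    refine measurableSet_le measurable_const ?_
    unfold H37.qf
    fun_prop
  rw [integral_indicator hm, setIntegral_const, smul_eq_mul, mul_one] at h2
  simp only [hKq] at h2
  refine h2.trans (Real.exp_le_exp.2 ?_)
  have h3 : 1 / (2 * M) * K.trace ≤ 1 / 2 := by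
    rw [div_mul_eq_mul_div, one_mul, div_le_iff₀ (by positivity)]
    linarith
  have h4 : 1 / (2 * M) * (4 * M * (y + 1 / 2)) / 2 = y + 1 / 2 := by
    field_simp
    ring
  linarith

end

end Vale.Agent.P159.H896
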