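import Vale.Agent.P159.H896.Rq3
import Vale.Agent.P159.H30.RF0

/-!
P159 (helper896), quantitative V bound, part 4: **from the scalar mass `F` to the smaller scalar mass
`t`**, Gaussian law of the source of the cells `2 ^ S`, amplitude `2 ^ j / 2`.
-/

set_option linter.unusedSectionVars false

namespace Vale.Agent.P159.H896

open Finset Matrix MeasureTheory
open Vale.Agent.P159.TM.H104 (EM Ex Cv K3 Lg li nh Gr)
open Vale.Agent.P159.TM.H764 (EE)
open Vale.Agent.P159.H37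
open Vale.Agent.P159.H864 (TI sym MC cobV cl up fc Gc lapM)
open Vale.Agent.P159.H963 (Pn Gnc nMC nwt obsN ntr Neu)
open Vale.Agent.P159.H730 (RL Hm wN)
open Vale.Agent.P159.H859 (psd_of Rk gd gd_le)
open Vale.Agent.P159.H447 (SN CN CN_gram SN_tr gm_CN maj_nwt)
open Vale.Agent.P159.H239 (TypE exists_increment rs_ray rs_meas)
open Vale.Agent.P159.TM.Spec (V)
open Vale.Agent.P159.TM.SpecC (wT)

noncomputable section

section neu

variable {N l : ℕ} [NeZero N] [NeZero (N / l)] {b F T a : ℝ} {I : Type*} [Fintype I]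
  {X : Matrix (V N) I ℝ}

lemma CN_one (hl : l ∣ N) : CN N l *ᵥ (fun _ => (1 : ℝ)) = 0 := by
  rw [H447.CN_eq hl, ← mulVec_mulVec]
  have : (Pn : Matrix (V N) (V N) ℝ) *ᵥ (fun _ => (1 : ℝ)) = 0 := by
    funext y
    simp only [Matrix.mulVec, dotProduct, mul_one, Pi.zero_apply]
    exact H963.Pn_row y
  rw [this, mulVec_zero]

/-- the source is neutral -/
theorem rl_neu (hb : 0 ≤ b) (hl : l ∣ N) (ha : 0 < a) (h1 : a < T) (h : T ≤ F)
    (hX : RL (nMC N l b F a 0) (obsN N l (T - a)) X) (g : I → ℝ) : Neu (X *ᵥ g) := by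
  have h2 := rl_qf hb hl ha h1 h hX (fun _ => (1 : ℝ))
  rw [CN_one hl] at h2
  have e0 : qf (Bk N l b F T a) (0 : V (N / l) → ℝ) = 0 := by
    unfold H37.qf
    simp
  rw [e0, mul_zero, qf_eq, ← mulVec_mulVec, dotProduct_mulVec, ← mulVec_transpose] at h2
  have h3 : Xᵀ *ᵥ (fun _ => (1 : ℝ)) = 0 := by
    set w := Xᵀ *ᵥ (fun _ => (1 : ℝ)) with hw
    have h4 : ∑ i, w i ^ 2 = 0 := by
      rw [← h2]
      unfold dotProduct
      exact Finset.sum_congr rfl fun i _ => by ring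
    funext i
    have h5 := (Finset.sum_eq_zero_iff_of_nonneg fun i _ => sq_nonneg (w i)).1 h4 i
      (Finset.mem_univ i)
    simpa using h5
  unfold H963.Neu
  have h6 : ∑ x, (X *ᵥ g) x = (fun _ => (1 : ℝ)) ⬝ᵥ (X *ᵥ g) := by
    unfold dotProduct
    exact Finset.sum_congr rfl fun i _ => by ring
  rw [h6, dotProduct_mulVec, ← mulVec_transpose, h3, zero_dotProduct]

end neu

section amp

variable {N l : ℕ} [NeZero N] [NeZero (N / l)] {b F t a : ℝ} {I : Type*} [Fintype I]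
  {X : Matrix (V N) I ℝ}

/-- the a-priori bound for the law with fine mass `F`, scalar mass `t` -/
theorem amp_fine (hb : 0 < b) (hl : l ∣ N) (ha : 0 < a) (h1 : a < t) (h : t ≤ F)
    (hX : RL (nMC N l b F a 0) (obsN N l (t - a)) X) {Y p : ℝ} (hT : TypE N l b t a Y 1 p)
    (hY : 1 ≤ Y) (hp : p ≤ 1 / 2) {x : ℝ} (hx : 0 ≤ x) (hxY : x * √(q1 N b t) ≤ Y) :
    (gau I).real {g | 1 < Rs (nwt N b t 0) (x • (X *ᵥ g))} ≤ 12 * p := by
  have ht : 0 < t := ha.trans h1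
  have hM := maj_nwt (N := N) hb.le ht 0
  have hq := one_le_q1 N hb.le ht.le
  have hEM : EM (nMC N l b t a 0) := H963.em_nMC hb.le hl ha h1.le 0
  have hpost : post (nMC N l b t a 0) (obsN N l (t - a)) = nwt N b t 0 := by
    rw [H963.post_nMC hl b h1.le 0, H963.nMC_self]
  obtain ⟨XL, hXL⟩ := H730.exists_RL (P := obsN N l (t - a)) hEM (by
    rw [hpost]
    exact hM.Rs_nonneg)
  have h2 := rl_up hb.le hl ha h1 h hb hX
  have h3 := (rl_low hb.le hl ha h1 le_rfl hXL).smul (by linarith : 0 ≤ q1 N b t)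
  have h4 : ((√(q1 N b t) ^ 2) • (XL * XLᵀ) - X * Xᵀ).PosSemidef := by
    have h5 := h3.add h2
    rw [Real.sq_sqrt (by linarith)]
    have e : q1 N b t • (XL * XLᵀ - (t - a) • SN N l) +
        ((q1 N b t * (t - a)) • SN N l - X * Xᵀ) = q1 N b t • (XL * XLᵀ) - X * Xᵀ := by
      rw [smul_sub, smul_smul]
      abel
    rwa [e] at h5
  have h5 := hM.prob_psd x (√(q1 N b t)) h4 1
  have h6 := typ_gauss hb.le hl ha h1 hXL hT hY le_rfl hp
  have h7 : (gau (V (N / l))).real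
      {g | 1 < Rs (nwt N b t 0) ((x * √(q1 N b t)) • (XL *ᵥ g))} ≤ 6 * p := by
    refine (measureReal_mono fun g hg => ?_).trans h6
    simp only [Set.mem_ofPred_eq] at hg ⊢
    exact hg.trans_le (rs_ray hb.le ht _ (by positivity) hxY)
  linarith

end amp

/-- **the mass step**, Gaussian law -/
theorem mass_step {b : ℝ} (hb : 0 < b) : ∃ C c : ℝ, 0 ≤ C ∧ 0 < c ∧ c ≤ 1 ∧
    ∀ (N : ℕ) [NeZero N] (S p : ℕ) [NeZero (N / 2 ^ S)], 2 ^ S ∣ N → 2 ^ p ∣ N →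
    ∀ F t a : ℝ, 0 < a → a < t → t ≤ F → F * ((2 : ℝ) ^ S) ^ 2 ≤ 1 → 1 < F * 4 ^ (p + 1) →
    ∀ ρ pr Y p2 M y : ℝ, TypE N (2 ^ S) b F a 1 ρ pr → 0 < pr → pr ≤ 1 / 4 →
      ρ + 2 * √pr ≤ 1 → TypE N (2 ^ S) b t a Y 1 p2 → 1 ≤ Y → p2 ≤ 1 / 2 →
      q1 N b t * t * (2 * b * (N : ℝ) ^ 2 * (2 + Real.log ((N / 2 ^ S : ℕ) : ℝ))) ≤ M → 0 < M →
      0 ≤ y → ∀ j k : ℕ, (2 : ℝ) ^ (j + k) / 2 * √(q1 N b t) ≤ Y →
    ∀ {I : Type*} [Fintype I] (X : Matrix (V N) I ℝ),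
      RL (nMC N (2 ^ S) b F a 0) (obsN N (2 ^ S) (t - a)) X →
    (gau I).real {g | 576 * 16 ^ j * (ρ + 2 * √pr + C * ((2 + 2 * M * (y + 1 / 2)) ^ 6 *
        (F * (N : ℝ) ^ 2)) * ((2 : ℝ) ^ S * √F) ^ c) ^ (1 - (1 / 2 : ℝ) ^ k) <
        Rs (nwt N b t 0) (((2 : ℝ) ^ j / 2) • (X *ᵥ g))} ≤
      6 * √pr + 12 * p2 + Real.exp (-y) := by
  obtain ⟨C, c, hC, hc, hc1, hpu⟩ := H692.pu11_nwt hb.le
  refine ⟨C, c, hC, hc, hc1, ?_⟩
  intro N _ S p _ hS hp F t a ha h1 h hFS hFp ρ pr Y p2 M y hT1 hpr0 hpr hρ hT2 hY hp2 hM hM0 hy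
    j k hjk I _ X hX
  have ht : 0 < t := ha.trans h1
  have hF : 0 < F := ht.trans_le h
  have hMj := maj_nwt (N := N) hb.le ht 0
  have hq := one_le_q1 N hb.le ht.le
  set μ := nwt N b t 0 with hμ
  set μc := nMC N (2 ^ S) b F t 0 with hμc
  have hpostc : post (nMC N (2 ^ S) b F a 0) (obsN N (2 ^ S) (t - a)) = μc :=
    H963.post_nMC hS b h1.le 0
  have hemc : EM μc := H963.em_nMC hb.le hS ht h 0
  have hevc : Ev μc := H963.ev_nMC hb.le F t 0
  have hpkc : PK μc := H963.pk_nMC hb.le hS ht h 0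
  -- the three events
  have hset := pset_tor (N := N) (l := 2 ^ S) hb.le hS ha h1 h hpr0 hpr hT1
  have hspr : √pr ≤ 1 / 2 := by
    rw [Real.sqrt_le_left (by norm_num)]
    linarith
  have hSm : MeasurableSet {J : V N → ℝ | Rs μc J ≤ ρ + 2 * √pr} :=
    measurableSet_le (H114.continuous_Rs hemc).measurable measurable_const
  have e1 := gau_of_exact hX hρ hspr (by rw [hpostc]; exact hset)
    (S := {J : V N → ℝ | Rs μc J ≤ ρ + 2 * √pr}) hSm hset
  have e2 := amp_fine hb hS ha h1 h hX hT2 hY hp2 (x := (2 : ℝ) ^ (j + k) / 2) (by positivity) hjk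
  have hup : ((q1 N b t * t) • SN N (2 ^ S) - X * Xᵀ).PosSemidef := by
    have h2 := rl_up hb.le hS ha h1 h hb hX
    have h3 : ((q1 N b t * a) • SN N (2 ^ S)).PosSemidef := by
      refine Matrix.PosSemidef.smul ?_ (by positivity)
      rw [← CN_gram hS]
      have h4 := H447.psd_gram (CN N (2 ^ S))ᵀ
      rwa [transpose_transpose] at h4
    have h5 := h2.add h3
    have e : (q1 N b t * (t - a)) • SN N (2 ^ S) - X * Xᵀ + (q1 N b t * a) • SN N (2 ^ S) =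
        (q1 N b t * t) • SN N (2 ^ S) - X * Xᵀ := by
      have e' : q1 N b t * t = q1 N b t * (t - a) + q1 N b t * a := by ring
      rw [e', add_smul]
      abel
    rwa [e] at h5
  have e3 := energy_tail hb hS ht (q := q1 N b t * t) (by positivity) hup hM0 hM y
  -- off the three events
  have key : {g : I → ℝ | 576 * 16 ^ j * (ρ + 2 * √pr + C * ((2 + 2 * M * (y + 1 / 2)) ^ 6 *
        (F * (N : ℝ) ^ 2)) * ((2 : ℝ) ^ S * √F) ^ c) ^ (1 - (1 / 2 : ℝ) ^ k) <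
        Rs μ (((2 : ℝ) ^ j / 2) • (X *ᵥ g))} ⊆
      ({g | X *ᵥ g ∉ {J : V N → ℝ | Rs μc J ≤ ρ + 2 * √pr}} ∪
        {g | 1 < Rs μ (((2 : ℝ) ^ (j + k) / 2) • (X *ᵥ g))}) ∪
        {g | 4 * M * (y + 1 / 2) ≤ qf (Gm μ) (X *ᵥ g)} := by
    intro g hg
    by_contra hcon
    simp only [Set.mem_union, Set.mem_ofPred_eq, not_or, not_lt, not_le] at hcon hg
    obtain ⟨⟨g1, g2⟩, g3⟩ := hcon
    set J := X *ᵥ g with hJ
    have hneu : Neu ((1 / 2 : ℝ) • J) := (rl_neu hb.le hS ha h1 h hX g).smul _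
    have e22 : (2 : ℝ) • ((1 / 2 : ℝ) • J) = J := by
      rw [smul_smul]
      norm_num
    -- the energy
    have hRh : Rs μ ((1 / 2 : ℝ) • J) ≤ 1 := by
      refine (rs_ray hb.le ht J (by norm_num) ?_).trans g2
      have : (1 : ℝ) ≤ 2 ^ (j + k) := one_le_pow₀ (by norm_num)
      linarith
    by_cases hjk0 : j + k = 0
    · -- no amplitude needed
      have hj : j = 0 := by omega
      have hk : k = 0 := by omega
      subst hj hk
      rw [pow_zero, pow_zero, mul_one, sub_self, Real.rpow_zero] at hg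
      have e0 : ((1 : ℝ) / 2) • J = (1 / 2 : ℝ) • J := rfl
      rw [pow_zero] at hg
      have := hg.trans_le hRh
      norm_num at this
    have hJ1 : Rs μ J ≤ 1 := by
      have h5 := rs_ray hb.le ht J zero_le_one (y := (2 : ℝ) ^ (j + k) / 2) (by
        obtain ⟨m, hm⟩ := Nat.exists_eq_succ_of_ne_zero hjk0
        rw [hm, pow_succ]
        have : (1 : ℝ) ≤ 2 ^ m := one_le_pow₀ (by norm_num)
        linarith)
      rw [one_smul] at h5
      exact h5.trans g2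
    have hU : Lg μ ((2 : ℝ) • ((1 / 2 : ℝ) • J)) - Lg μ 0 ≤ 1 + 2 * M * (y + 1 / 2) := by
      rw [e22]
      have h6 : Rs μ J = Lg μ J - Lg μ 0 - qf (Gm μ) J / 2 := rfl
      linarith
    have hRc : Rs (nMC N (2 ^ S) b F t 0) ((2 : ℝ) • ((1 / 2 : ℝ) • J)) ≤ 1 := by
      rw [e22]
      exact le_trans g1 hρ
    have h7 := (hpu N S p hS hp F hF hFS hFp t ht h 0 ((1 / 2 : ℝ) • J) hneu
      (1 + 2 * M * (y + 1 / 2)) hU hRc).2.2
    have h8 : Rs μc ((1 / 2 : ℝ) • J) ≤ ρ + 2 * √pr := by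
      have h9 := H789.Rs_ray_mono hemc hevc hpkc J (by norm_num : (0 : ℝ) ≤ 1 / 2)
        (by norm_num : (1 / 2 : ℝ) ≤ 1)
      rw [one_smul] at h9
      exact h9.trans g1
    have h10 : Rs μ ((1 / 2 : ℝ) • J) ≤ ρ + 2 * √pr + C * ((2 + 2 * M * (y + 1 / 2)) ^ 6 *
        (F * (N : ℝ) ^ 2)) * ((2 : ℝ) ^ S * √F) ^ c := by
      refine h7.trans ?_
      have e5 : (1 : ℝ) + (1 + 2 * M * (y + 1 / 2)) = 2 + 2 * M * (y + 1 / 2) := by ring
      rw [e5]
      exact add_le_add_left h8 _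
    have h11 : Rs μ ((2 : ℝ) ^ (j + k) • ((1 / 2 : ℝ) • J)) ≤ 1 := by
      rw [smul_smul, mul_one_div]
      exact g2
    have h12 := amp_le hMj.em hMj.ev hMj.pk h11 h10
    rw [smul_smul, mul_one_div] at h12
    exact absurd h12 (not_le.2 hg)
  refine (measureReal_mono key).trans ((measureReal_union_le _ _).trans ?_)
  have h2 := measureReal_union_le (μ := gau I)
    {g | X *ᵥ g ∉ {J : V N → ℝ | Rs μc J ≤ ρ + 2 * √pr}}
    {g | 1 < Rs μ (((2 : ℝ) ^ (j + k) / 2) • (X *ᵥ g))}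
  linarith

end

end Vale.Agent.P159.H896
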