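import Vale.Agent.P159.H896.Rq4
import Vale.Agent.P159.H663.Off

/-!
P159 (helper896), quantitative V bound, part 5: **the source of the fine cells `2 ^ s`**: coarse part
compared with the source of the cells `2 ^ S`, fine part by the fine modes, then the exact law.
-/

set_option linter.unusedSectionVars false

namespace Vale.Agent.P159.H896

open Finset Matrix MeasureTheory
open Vale.Agent.P159.TM.H104 (EM Ex Cv K3 Lg li nh Gr)
open Vale.Agent.P159.TM.H764 (EE)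
open Vale.Agent.P159.H37
open Vale.Agent.P159.H864 (TI sym MC cobV cl up fc Gc lapM)
open Vale.Agent.P159.H963 (Pn Gnc nMC nwt obsN ntr Neu)
open Vale.Agent.P159.H730 (RL Hm wN)
open Vale.Agent.P159.H859 (psd_of Rk gd gd_le Sgn)
open Vale.Agent.P159.H447 (SN CN CN_gram SN_tr gm_CN maj_nwt psd_conj_sub Ful)
open Vale.Agent.P159.H239 (TypE exists_increment rs_ray rs_meas)
open Vale.Agent.P159.TM.Spec (V)
open Vale.Agent.P159.TM.SpecC (wT)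

noncomputable section

section proj

variable {N l L : ℕ} [NeZero N] [NeZero (N / l)] [NeZero (N / L)]

lemma cellP_Pn (hl : l ∣ N) : cellP N l * (Pn : Matrix (V N) (V N) ℝ) =
    (Pn : Matrix (V N) (V N) ℝ) * cellP N l := by
  have h1 := H963.cobV_mul_Pn (N := N) hl
  have h2 := congrArg Matrix.transpose h1
  rw [transpose_mul, transpose_mul, H963.Pn_transpose, H963.Pn_transpose] at h2
  rw [H864.cellP_eq hl, Matrix.mul_assoc, h1, ← Matrix.mul_assoc, ← h2, Matrix.mul_assoc]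

/-- the coarse projection of the neutral projection -/
lemma SN_proj (h : l ∣ L) (hL : L ∣ N) :
    cellP N L * SN N l * cellP N L = SN N L := by
  have hl : l ∣ N := h.trans hL
  unfold H447.SN
  rw [← H963.Pn_cellP_Pn hl, ← H963.Pn_cellP_Pn hL]
  have e1 := cellP_Pn (N := N) (l := L) hL
  calc cellP N L * ((Pn : Matrix (V N) (V N) ℝ) * cellP N l * Pn) * cellP N L
      = (cellP N L * (Pn : Matrix (V N) (V N) ℝ)) * cellP N l * (Pn * cellP N L) := by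
        simp only [Matrix.mul_assoc]
    _ = (Pn * cellP N L) * cellP N l * (cellP N L * Pn) := by rw [← e1]
    _ = Pn * ((cellP N L * cellP N l) * cellP N L) * Pn := by simp only [Matrix.mul_assoc]
    _ = Pn * cellP N L * Pn := by rw [H864.cellP_coarse_mul h hL, H864.cellP_idem hL]

end proj

/-- **Gaussian law of the fine cells** -/
theorem fine_cells {b : ℝ} (hb : 0 < b) : ∃ C c : ℝ, 0 ≤ C ∧ 0 < c ∧ c ≤ 1 ∧
    ∀ (N : ℕ) [NeZero N] (S s p : ℕ) [NeZero (N / 2 ^ S)] [NeZero (N / 2 ^ s)], s ≤ S →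
      2 ^ S ∣ N → 2 ^ p ∣ N →
    ∀ F t a : ℝ, 0 < a → a < t → t ≤ F → t * ((2 : ℝ) ^ S) ^ 2 ≤ 1 → 1 < t * 4 ^ (p + 1) →
    ∀ (j : ℕ) (r4 r5 α : ℝ), 4 * √(q1 N b t) ≤ 2 ^ j → 1 ≤ α → 0 < r5 →
      30 * (C * ((t * (N : ℝ) ^ 2) * (α ^ 2 * q1 N b t) ^ 3) * ((2 : ℝ) ^ S * √t) ^ c) ≤ r5 →
    ∀ {I I' : Type*} [Fintype I] [Fintype I'] (X : Matrix (V N) I ℝ) (X' : Matrix (V N) I' ℝ),
      RL (nMC N (2 ^ s) b t a 0) (obsN N (2 ^ s) (t - a)) X →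
      RL (nMC N (2 ^ S) b F a 0) (obsN N (2 ^ S) (t - a)) X' →
    (gau I).real {g | 1 / 2 * r4 + 1 / 2 * r5 < Rs (nwt N b t 0) (X *ᵥ g)} ≤
      2 * (gau I').real {g | r4 < Rs (nwt N b t 0) (((2 : ℝ) ^ j / 2) • (X' *ᵥ g))} +
        Real.exp (-(α ^ 2 / 7)) := by
  obtain ⟨C, c, hC, hc, hc1, hfine⟩ := H30.fine_gau_N hb.le
  refine ⟨C, c, hC, hc, hc1, ?_⟩
  intro N _ S s p _ _ hsS hS hp F t a ha h1 h htS htp j r4 r5 α hj hα hr5 hE I I' _ _ X X' hX hX'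
  have ht : 0 < t := ha.trans h1
  have hs : 2 ^ s ∣ N := (pow_dvd_pow 2 hsS).trans hS
  have hM := maj_nwt (N := N) hb.le ht 0
  have hq := one_le_q1 N hb.le ht.le
  have hq0 : 0 < q1 N b t := by linarith
  have hconv := H789.Rs_convex hM.em hM.ev hM.pk
  set μ := nwt N b t 0 with hμ
  -- the coarse part
  have hup := rl_up hb.le hs ha h1 le_rfl hb hX
  have hlow := (rl_low hb.le hS ha h1 h hX').smul hq0.le
  have hco : ((√(q1 N b t) ^ 2) • (X' * X'ᵀ) -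
      (cellP N (2 ^ S) * X) * (cellP N (2 ^ S) * X)ᵀ).PosSemidef := by
    have h2 := psd_conj_sub hup (cellP N (2 ^ S))
    rw [H864.cellP_tr] at h2
    have e1 : cellP N (2 ^ S) * (q1 N b t * (t - a)) • SN N (2 ^ s) * cellP N (2 ^ S) =
        (q1 N b t * (t - a)) • SN N (2 ^ S) := by
      rw [Matrix.mul_smul, Matrix.smul_mul, SN_proj (pow_dvd_pow 2 hsS) hS]
    have e2 : cellP N (2 ^ S) * (X * Xᵀ) * cellP N (2 ^ S) =
        (cellP N (2 ^ S) * X) * (cellP N (2 ^ S) * X)ᵀ := by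
      rw [transpose_mul, H864.cellP_tr]
      simp only [Matrix.mul_assoc]
    rw [e1, e2] at h2
    have h3 := hlow.add h2
    rw [Real.sq_sqrt hq0.le]
    have e3 : q1 N b t • (X' * X'ᵀ - (t - a) • SN N (2 ^ S)) +
        ((q1 N b t * (t - a)) • SN N (2 ^ S) -
          (cellP N (2 ^ S) * X) * (cellP N (2 ^ S) * X)ᵀ) =
        q1 N b t • (X' * X'ᵀ) - (cellP N (2 ^ S) * X) * (cellP N (2 ^ S) * X)ᵀ := by
      rw [smul_sub, smul_smul]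
      abel
    rwa [e3] at h3
  have hc1' := hM.prob_psd 2 (√(q1 N b t)) hco r4
  have hc2 : (gau I').real {g | r4 < Rs μ ((2 * √(q1 N b t)) • (X' *ᵥ g))} ≤
      (gau I').real {g | r4 < Rs μ (((2 : ℝ) ^ j / 2) • (X' *ᵥ g))} := by
    refine measureReal_mono fun g hg => ?_
    simp only [Set.mem_ofPred_eq] at hg ⊢
    exact hg.trans_le (rs_ray hb.le ht _ (by positivity) (by linarith))
  -- the fine part
  have hA : ∀ v : V N → ℝ, ∑ i, ((α • X)ᵀ *ᵥ v) i ^ 2 ≤ (α ^ 2 * q1 N b t * t) * ∑ x, v x ^ 2 := by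
    intro v
    have e1 : ∑ i, ((α • X)ᵀ *ᵥ v) i ^ 2 = α ^ 2 * qf (X * Xᵀ) v := by
      have e2 : qf (X * Xᵀ) v = ∑ i, (Xᵀ *ᵥ v) i ^ 2 := by
        have := qf_gram Xᵀ v
        rwa [transpose_transpose] at this
      rw [e2, Finset.mul_sum]
      refine Finset.sum_congr rfl fun i _ => ?_
      rw [transpose_smul, smul_mulVec, Pi.smul_apply, smul_eq_mul, mul_pow]
    have h3 := hup.dotProduct_mulVec_nonneg v
    have h4 : qf (X * Xᵀ) v ≤ q1 N b t * (t - a) * qf (SN N (2 ^ s)) v := by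
      have h5 : 0 ≤ qf ((q1 N b t * (t - a)) • SN N (2 ^ s) - X * Xᵀ) v := by
        rw [H859.qf_qd]
        simpa using h3
      rw [H859.qf_sub_m, H864.qf_smul_mat] at h5
      linarith
    have h5 : qf (SN N (2 ^ s)) v ≤ ∑ x, v x ^ 2 := by
      rw [qf_SN hs, H447.CN_eq hs]
      have h6 : ∑ c, ((cobV N (2 ^ s) * (Pn : Matrix (V N) (V N) ℝ)) *ᵥ v) c ^ 2 =
          qf (cellP N (2 ^ s)) ((Pn : Matrix (V N) (V N) ℝ) *ᵥ v) := by
        rw [H864.cellP_eq hs, qf_gram, ← mulVec_mulVec]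
      rw [h6]
      exact (H864.qf_cellP_le hs _).trans (H663.Pn_sq_le v)
    have h6 : 0 ≤ ∑ x, v x ^ 2 := Finset.sum_nonneg fun _ _ => sq_nonneg _
    have h7 : qf (X * Xᵀ) v ≤ q1 N b t * t * ∑ x, v x ^ 2 := by
      refine h4.trans ((mul_le_mul_of_nonneg_left h5
        (mul_nonneg hq0.le (by linarith))).trans ?_)
      refine mul_le_mul_of_nonneg_right ?_ h6
      exact mul_le_mul_of_nonneg_left (by linarith) hq0.le
    rw [e1]
    calc α ^ 2 * qf (X * Xᵀ) v ≤ α ^ 2 * (q1 N b t * t * ∑ x, v x ^ 2) :=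
          mul_le_mul_of_nonneg_left h7 (sq_nonneg α)
      _ = _ := by ring
  have hα2 : 1 ≤ α ^ 2 := one_le_pow₀ hα
  have hαq : 1 ≤ α ^ 2 * q1 N b t := by nlinarith
  have hmas := H692.masN_MC (N := N) hS ht le_rfl ht le_rfl
  rw [H864.MC_self] at hmas
  obtain ⟨hi, hE1⟩ := hfine N S p hS hp t ht htS htp _ _ _ hmas
    (fun y _ => by rw [smul_mulVec, one_mulVec]) 0 (α • X) (α ^ 2 * q1 N b t * t)
    (by nlinarith) hA
  have hwt : H963.nM (wT b N) (t • (1 : Matrix (V N) (V N) ℝ)) t 0 = μ := rfl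
  rw [hwt] at hi hE1
  have e4 : α ^ 2 * q1 N b t * t / t = α ^ 2 * q1 N b t := by field_simp
  rw [e4] at hE1
  set f : (V N → ℝ) → ℝ := fun J => Rs μ ((2 : ℝ) • ((1 - cellP N (2 ^ S)) *ᵥ J)) with hf
  have hfm : Measurable f := by
    have h2 : Measurable fun z : V N → ℝ => (1 - cellP N (2 ^ S)) *ᵥ z := H552.meas_mulVec _
    exact ((H692.continuous_Rs hM.em).measurable.comp (measurable_const_smul _)).comp h2
  have hfc : ConvexOn ℝ Set.univ f := by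
    refine ⟨convex_univ, fun x _ y _ u v hu hv huv => ?_⟩
    have h2 := hconv.2 (Set.mem_univ ((2 : ℝ) • ((1 - cellP N (2 ^ S)) *ᵥ x)))
      (Set.mem_univ ((2 : ℝ) • ((1 - cellP N (2 ^ S)) *ᵥ y))) hu hv huv
    have e5 : u • ((2 : ℝ) • ((1 - cellP N (2 ^ S)) *ᵥ x)) +
        v • ((2 : ℝ) • ((1 - cellP N (2 ^ S)) *ᵥ y)) =
        (2 : ℝ) • ((1 - cellP N (2 ^ S)) *ᵥ (u • x + v • y)) := by
      rw [mulVec_add, mulVec_smul, mulVec_smul, smul_add, smul_comm u, smul_comm v]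
    rw [e5] at h2
    exact h2
  have hfe : ∀ x, f (-x) = f x := by
    intro x
    simp only [hf]
    rw [mulVec_neg, smul_neg, H789.Rs_neg hM.ev]
  have hmk : (gau I).real {g | r5 < f ((α • X) *ᵥ g)} ≤ 1 / 30 := by
    have h4 := mul_meas_ge_le_integral_of_nonneg (Filter.Eventually.of_forall fun g : I → ℝ =>
      hM.Rs_nonneg ((2 : ℝ) • ((1 - cellP N (2 ^ S)) *ᵥ ((α • X) *ᵥ g)))) hi r5
    have h5 : r5 * (gau I).real {g | r5 < f ((α • X) *ᵥ g)} ≤ r5 * (1 / 30) := by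
      have h6 : (gau I).real {g | r5 < f ((α • X) *ᵥ g)} ≤ (gau I).real
          {g | r5 ≤ Rs μ ((2 : ℝ) • ((1 - cellP N (2 ^ S)) *ᵥ ((α • X) *ᵥ g)))} := by
        refine measureReal_mono fun g hg => ?_
        simp only [Set.mem_ofPred_eq, hf] at hg ⊢
        exact hg.le
      have h7 := mul_le_mul_of_nonneg_left h6 hr5.le
      linarith
    exact le_of_mul_le_mul_left h5 hr5
  have hfern := H586.fern_f hfm hfc hfe (α • X) hmk hα
  have e6 : ∀ g : I → ℝ, α⁻¹ • ((α • X) *ᵥ g) = X *ᵥ g := by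
    intro g
    rw [smul_mulVec, smul_smul, inv_mul_cancel₀ (by linarith), one_smul]
  simp only [e6] at hfern
  -- union
  have key : {g : I → ℝ | 1 / 2 * r4 + 1 / 2 * r5 < Rs μ (X *ᵥ g)} ⊆
      {g | r4 < Rs μ ((2 : ℝ) • ((cellP N (2 ^ S) * X) *ᵥ g))} ∪ {g | r5 < f (X *ᵥ g)} := by
    intro g hg
    by_contra hcon
    simp only [Set.mem_union, Set.mem_ofPred_eq, not_or, not_lt] at hcon hg
    obtain ⟨g1, g2⟩ := hcon
    have h2 := hconv.2 (Set.mem_univ ((2 : ℝ) • ((cellP N (2 ^ S) * X) *ᵥ g)))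
      (Set.mem_univ ((2 : ℝ) • ((1 - cellP N (2 ^ S)) *ᵥ (X *ᵥ g))))
      (by norm_num : (0 : ℝ) ≤ 1 / 2) (by norm_num : (0 : ℝ) ≤ 1 / 2) (by norm_num)
    have e7 : (1 / 2 : ℝ) • ((2 : ℝ) • ((cellP N (2 ^ S) * X) *ᵥ g)) +
        (1 / 2 : ℝ) • ((2 : ℝ) • ((1 - cellP N (2 ^ S)) *ᵥ (X *ᵥ g))) = X *ᵥ g := by
      rw [smul_smul, smul_smul, ← mulVec_mulVec, sub_mulVec, one_mulVec]
      norm_num
    rw [e7] at h2
    simp only [smul_eq_mul] at h2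
    have g2' : Rs μ ((2 : ℝ) • ((1 - cellP N (2 ^ S)) *ᵥ (X *ᵥ g))) ≤ r5 := g2
    linarith
  refine (measureReal_mono key).trans ((measureReal_union_le _ _).trans ?_)
  linarith

/-- **RF2b, abstract form**: the quantitative bound of the exact law of the fine cells -/
theorem rf2 {b : ℝ} (hb : 0 < b) : ∃ C c : ℝ, 0 ≤ C ∧ 0 < c ∧ c ≤ 1 ∧
    ∀ (N : ℕ) [NeZero N] (S s p : ℕ) [NeZero (N / 2 ^ S)] [NeZero (N / 2 ^ s)], s ≤ S →
      2 ^ S ∣ N → 2 ^ p ∣ N →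
    ∀ F t a : ℝ, 0 < a → a < t → t ≤ F → F * ((2 : ℝ) ^ S) ^ 2 ≤ 1 → 1 < t * 4 ^ (p + 1) →
    ∀ ρ pr Y p2 M y : ℝ, TypE N (2 ^ S) b F a 1 ρ pr → 0 < pr → pr ≤ 1 / 4 →
      ρ + 2 * √pr ≤ 1 → TypE N (2 ^ S) b t a Y 1 p2 → 1 ≤ Y → p2 ≤ 1 / 2 →
      q1 N b t * t * (2 * b * (N : ℝ) ^ 2 * (2 + Real.log ((N / 2 ^ S : ℕ) : ℝ))) ≤ M → 0 < M →
      0 ≤ y → ∀ j k : ℕ, (2 : ℝ) ^ (j + k) / 2 * √(q1 N b t) ≤ Y → 4 * √(q1 N b t) ≤ 2 ^ j →
    ∀ r5 α p3 : ℝ, 1 ≤ α → 0 < r5 →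
      C * ((t * (N : ℝ) ^ 2) * (α ^ 2 * q1 N b t) ^ 3) * ((2 : ℝ) ^ S * √t) ^ c ≤ r5 →
      TypE N (2 ^ s) b t a 1 1 p3 →
    TypE N (2 ^ s) b t a 1
      (1 / 2 * (576 * 16 ^ j * (ρ + 2 * √pr + C * ((2 + 2 * M * (y + 1 / 2)) ^ 6 *
        (F * (N : ℝ) ^ 2)) * ((2 : ℝ) ^ S * √F) ^ c) ^ (1 - (1 / 2 : ℝ) ^ k)) + 1 / 2 * r5)
      (p3 + 3 * (2 * (6 * √pr + 12 * p2 + Real.exp (-y)) + Real.exp (-(α ^ 2 / 7)))) := by
  obtain ⟨C₁, c₁, hC₁, hc₁, hc₁', h₁⟩ := mass_step hb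
  obtain ⟨C₂, c₂, hC₂, hc₂, hc₂', h₂⟩ := fine_cells hb
  refine ⟨max C₁ (30 * C₂), min c₁ c₂, le_max_of_le_left hC₁, lt_min hc₁ hc₂,
    min_le_of_left_le hc₁', ?_⟩
  intro N _ S s p _ _ hsS hS hp F t a ha h1 h hFS htp ρ pr Y p2 M y hT1 hpr0 hpr hρ hT2 hY hp2 hM
    hM0 hy j k hjk hj r5 α p3 hα hr5 hE hT3
  have ht : 0 < t := ha.trans h1
  have hF : 0 < F := ht.trans_le h
  have hs : 2 ^ s ∣ N := (pow_dvd_pow 2 hsS).trans hS
  have hMj := maj_nwt (N := N) hb.le ht 0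
  have hq := one_le_q1 N hb.le ht.le
  have hpow : ∀ (T : ℝ), 0 < T → T * ((2 : ℝ) ^ S) ^ 2 ≤ 1 → 0 < (2 : ℝ) ^ S * √T ∧
      (2 : ℝ) ^ S * √T ≤ 1 := by
    intro T hT hTS
    have h2 : 0 < √T := Real.sqrt_pos.2 hT
    refine ⟨by positivity, ?_⟩
    have h3 : ((2 : ℝ) ^ S * √T) ^ 2 ≤ 1 := by
      rw [mul_pow, Real.sq_sqrt hT.le]
      linarith
    exact (sq_le_one_iff₀ (by positivity)).1 h3
  have htS : t * ((2 : ℝ) ^ S) ^ 2 ≤ 1 :=
    (mul_le_mul_of_nonneg_right h (by positivity)).trans hFS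
  have hFp : 1 < F * 4 ^ (p + 1) :=
    htp.trans_le (mul_le_mul_of_nonneg_right h (by positivity))
  -- the realisations
  have hEM' : EM (nMC N (2 ^ S) b F a 0) := H963.em_nMC hb.le hS ha (h1.le.trans h) 0
  obtain ⟨X', hX'⟩ := H730.exists_RL (P := obsN N (2 ^ S) (t - a)) hEM' (by
    rw [H963.post_nMC hS b h1.le 0]
    exact fun J => H789.Rs_nonneg (H963.em_nMC hb.le hS ht h 0) (H963.ev_nMC hb.le F t 0)
      (H963.pk_nMC hb.le hS ht h 0) J)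
  have hd := H859.dat_neu' (N := N) (l := 2 ^ s) (t := t) hb hs ht
  obtain ⟨A, hA⟩ := exists_increment (hd.pd ha h1).posSemidef
  have hA' : A * Aᵀ = Sgn N (2 ^ s) b t a := hA.symm
  have hFu : Ful N (2 ^ s) b t a A := ⟨hb, hs, ha, h1, hA'⟩
  have hX := H447.rl_tor hb.le hs ha h1 hA'
  -- the first constant
  have hmass := h₁ N S p hS hp F t a ha h1 h hFS hFp ρ pr Y p2 M y hT1 hpr0 hpr hρ hT2 hY hp2
    hM hM0 hy j k hjk X' hX'
  have hfine := h₂ N S s p hsS hS hp F t a ha h1 h htS htp j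
    (576 * 16 ^ j * (ρ + 2 * √pr + max C₁ (30 * C₂) * ((2 + 2 * M * (y + 1 / 2)) ^ 6 *
        (F * (N : ℝ) ^ 2)) * ((2 : ℝ) ^ S * √F) ^ (min c₁ c₂)) ^ (1 - (1 / 2 : ℝ) ^ k)) r5 α hj hα
    hr5 (by
      refine le_trans ?_ hE
      obtain ⟨g1, g2⟩ := hpow t ht htS
      have h3 : ((2 : ℝ) ^ S * √t) ^ c₂ ≤ ((2 : ℝ) ^ S * √t) ^ (min c₁ c₂) :=
        Real.rpow_le_rpow_of_exponent_ge g1 g2 (min_le_right _ _)
      have h4 : 0 ≤ (t * (N : ℝ) ^ 2) * (α ^ 2 * q1 N b t) ^ 3 := by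
        have : 0 ≤ α ^ 2 * q1 N b t := mul_nonneg (sq_nonneg _) (by linarith)
        positivity
      have h5 : 0 ≤ ((2 : ℝ) ^ S * √t) ^ c₂ := (Real.rpow_pos_of_pos g1 _).le
      calc 30 * (C₂ * ((t * (N : ℝ) ^ 2) * (α ^ 2 * q1 N b t) ^ 3) * ((2 : ℝ) ^ S * √t) ^ c₂)
          = (30 * C₂) * ((t * (N : ℝ) ^ 2) * (α ^ 2 * q1 N b t) ^ 3) *
            ((2 : ℝ) ^ S * √t) ^ c₂ := by ring
        _ ≤ max C₁ (30 * C₂) * ((t * (N : ℝ) ^ 2) * (α ^ 2 * q1 N b t) ^ 3) *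
            ((2 : ℝ) ^ S * √t) ^ (min c₁ c₂) := by
          refine mul_le_mul ?_ h3 h5 (mul_nonneg (le_max_of_le_left hC₁) h4)
          exact mul_le_mul_of_nonneg_right (le_max_right _ _) h4)
    ((CN N (2 ^ s))ᵀ * A) X' hX hX'
  set r4 := 576 * 16 ^ j * (ρ + 2 * √pr + max C₁ (30 * C₂) * ((2 + 2 * M * (y + 1 / 2)) ^ 6 *
        (F * (N : ℝ) ^ 2)) * ((2 : ℝ) ^ S * √F) ^ (min c₁ c₂)) ^ (1 - (1 / 2 : ℝ) ^ k) with hr4
  have hle : 576 * 16 ^ j * (ρ + 2 * √pr + C₁ * ((2 + 2 * M * (y + 1 / 2)) ^ 6 *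
        (F * (N : ℝ) ^ 2)) * ((2 : ℝ) ^ S * √F) ^ c₁) ^ (1 - (1 / 2 : ℝ) ^ k) ≤ r4 ∨ ρ < 0 := by
    rcases lt_or_ge ρ 0 with h0 | h0
    · exact Or.inr h0
    · left
      obtain ⟨g1, g2⟩ := hpow F hF hFS
      have h3 : ((2 : ℝ) ^ S * √F) ^ c₁ ≤ ((2 : ℝ) ^ S * √F) ^ (min c₁ c₂) :=
        Real.rpow_le_rpow_of_exponent_ge g1 g2 (min_le_left _ _)
      have h4 : 0 ≤ (2 + 2 * M * (y + 1 / 2)) ^ 6 * (F * (N : ℝ) ^ 2) := by positivity
      have h5 : 0 ≤ ((2 : ℝ) ^ S * √F) ^ c₁ := (Real.rpow_pos_of_pos g1 _).le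
      have h6 : C₁ * ((2 + 2 * M * (y + 1 / 2)) ^ 6 * (F * (N : ℝ) ^ 2)) *
          ((2 : ℝ) ^ S * √F) ^ c₁ ≤ max C₁ (30 * C₂) * ((2 + 2 * M * (y + 1 / 2)) ^ 6 *
          (F * (N : ℝ) ^ 2)) * ((2 : ℝ) ^ S * √F) ^ (min c₁ c₂) := by
        refine mul_le_mul ?_ h3 h5 (mul_nonneg (le_max_of_le_left hC₁) h4)
        exact mul_le_mul_of_nonneg_right (le_max_left _ _) h4
      have hk1 : (1 / 2 : ℝ) ^ k ≤ 1 := pow_le_one₀ (by norm_num) (by norm_num)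
      rw [hr4]
      refine mul_le_mul_of_nonneg_left (Real.rpow_le_rpow ?_ (add_le_add_right h6 _)
        (by linarith)) (by positivity)
      have := mul_nonneg (mul_nonneg hC₁ h4) h5
      positivity
  have hρ0 : 0 ≤ ρ := by
    -- the exact probability of a set with negative bound is one
    by_contra hneg
    have hneg' : ρ < 0 := not_le.1 hneg
    have hem := H963.em_nMC (N := N) hb.le hS ha (h1.le.trans h) 0
    unfold H239.TypE at hT1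
    have hset : {J : V N → ℝ | Rs (nwt N b F 0) ((1 : ℝ) • J) ≤ ρ}ᶜ = Set.univ := by
      ext J
      simp only [Set.mem_compl_iff, Set.mem_ofPred_eq, not_le, Set.mem_univ, iff_true]
      exact hneg'.trans_le ((maj_nwt (N := N) hb.le hF 0).Rs_nonneg _)
    rw [hset, Set.indicator_univ, Ech_const hem] at hT1
    linarith
  have hle' := hle.resolve_right (not_lt.2 hρ0)
  have hg4 : (gau (V (N / 2 ^ S))).real
      {g | r4 < Rs (nwt N b t 0) (((2 : ℝ) ^ j / 2) • (X' *ᵥ g))} ≤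
      6 * √pr + 12 * p2 + Real.exp (-y) := by
    refine (measureReal_mono fun g hg => ?_).trans hmass
    simp only [Set.mem_ofPred_eq] at hg ⊢
    exact hle'.trans_lt hg
  have hG : (gau (V (N / 2 ^ s))).real {g | ¬Rs (nwt N b t 0)
      ((1 : ℝ) • (((CN N (2 ^ s))ᵀ * A) *ᵥ g)) ≤ 1 / 2 * r4 + 1 / 2 * r5} ≤
      2 * (6 * √pr + 12 * p2 + Real.exp (-y)) + Real.exp (-(α ^ 2 / 7)) := by
    have e : {g : V (N / 2 ^ s) → ℝ | ¬Rs (nwt N b t 0)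
        ((1 : ℝ) • (((CN N (2 ^ s))ᵀ * A) *ᵥ g)) ≤ 1 / 2 * r4 + 1 / 2 * r5} =
        {g | 1 / 2 * r4 + 1 / 2 * r5 < Rs (nwt N b t 0) (((CN N (2 ^ s))ᵀ * A) *ᵥ g)} := by
      ext g
      simp only [Set.mem_ofPred_eq, not_le, one_smul]
    rw [e]
    linarith
  have h0 : Ech (wN N (2 ^ s) b t a) 0 (obsN N (2 ^ s) (t - a))
      ({J : V N → ℝ | Rs (nwt N b t 0) J ≤ 1}ᶜ.indicator fun _ => (1 : ℝ)) ≤ p3 := by
    unfold H239.TypE at hT3
    simpa only [one_smul] using hT3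
  have h9 := hFu.exact (κ := 1) (ρ := 1 / 2 * r4 + 1 / 2 * r5) (η := 1) h0 hG
  unfold H239.TypE
  refine h9.trans (add_le_add_right ?_ _)
  have h10 : Real.exp 1 ≤ 3 := by
    have := Real.exp_one_lt_d9
    linarith
  have h11 : 0 ≤ 2 * (6 * √pr + 12 * p2 + Real.exp (-y)) + Real.exp (-(α ^ 2 / 7)) :=
    measureReal_nonneg.trans hG
  exact mul_le_mul_of_nonneg_right h10 h11

end

end Vale.Agent.P159.H896
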