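import Vale.Agent.P159.H896.Rq5
import Vale.Agent.P159.H692.Fn8

/-!
P159 (helper896), quantitative V bound, part 6: the resolvent of the channel decreases with the fine
mass, and the a-priori amplitude of the law with fine mass `F`, scalar mass `t`, without a factor.
-/

set_option linter.unusedSectionVars false

namespace Vale.Agent.P159.H896

open Finset Matrix MeasureTheory
open Vale.Agent.P159.TM.H104 (EM Ex Cv K3 Lg li nh Gr)
open Vale.Agent.P159.TM.H764 (EE)
open Vale.Agent.P159.H37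
open Vale.Agent.P159.H864 (TI sym MC cobV cl up fc Gc lapM)
open Vale.Agent.P159.H963 (Pn Gnc nMC nwt obsN ntr Neu nM gw_wT)
open Vale.Agent.P159.H730 (RL Hm wN)
open Vale.Agent.P159.H859 (psd_of Rk gd gd_le)
open Vale.Agent.P159.H447 (SN CN CN_gram SN_tr gm_CN maj_nwt)
open Vale.Agent.P159.H239 (TypE exists_increment rs_ray rs_meas)
open Vale.Agent.P159.TM.Spec (V)
open Vale.Agent.P159.TM.SpecC (wT)

noncomputable section

variable {N l : ℕ} [NeZero N] [NeZero (N / l)] {b F t a : ℝ} {I : Type*} [Fintype I]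
  {X : Matrix (V N) I ℝ}

/-- the neutral cell covariance decreases with the fine mass -/
theorem sym_Gnc_fine (hb : 0 ≤ b) (hl : l ∣ N) (ht : 0 < t) (h : t ≤ F) (k : V (N / l)) :
    sym (Gnc N l b F t) k ≤ sym (Gnc N l b t t) k := by
  by_cases hk : k = 0
  · subst hk
    rw [H963.sym_Gnc_zero hl hb ht h, H963.sym_Gnc_zero hl hb ht le_rfl]
  have hw := gw_wT (N := N) hb
  have hF := H692.mf_MC' (N := N) hl ht ht
  have hF1 := H692.mf_MC' (N := N) hl (ht.trans_le h) ht
  have hE := hw.em_nM hF 0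
  have hE1 := hw.em_nM hF1 0
  have hEv1 := hw.ev_nM (MC N l F t) t 0
  have hK1 : PK (nM (wT b N) (MC N l F t) t 0) := hw.pk_nM hF1 0
  have hpost : post (nM (wT b N) (MC N l t t) t 0) (H692.Pf N l (F - t)) =
      nM (wT b N) (MC N l F t) t 0 := by
    rw [H963.post_nM, H692.Pf_gram hl (sub_nonneg.2 h), ← H692.MC_add_fine]
  have key : ∀ u : V (N / l) → ℝ, Neu u → qf (Gnc N l b F t) u ≤ qf (Gnc N l b t t) u := by
    intro u hu
    rw [H963.qf_Gnc_neu hl b F t hu, H963.qf_Gnc_neu hl b t t hu]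
    have h2 := H692.qf_mass_mono hE (H692.Pf N l (F - t))
      (by rw [hpost]; exact fun J u => H789.qf_mono hE1 hEv1 hK1 J u) ((cobV N l)ᵀ *ᵥ u)
    rw [hpost] at h2
    exact h2
  exact H963.sym_le_of_waves' (H963.ti_Gnc hb hl ht h) (H963.ti_Gnc hb hl ht le_rfl)
    (key _ (H963.neu_cN hk)) (key _ (H963.neu_sN k))

lemma Bk_fine (hb : 0 ≤ b) (hl : l ∣ N) (ha : 0 < a) (h1 : a < t) (h : t ≤ F) (k : V (N / l)) :
    sym (Bk N l b F t a) k ≤ sym (Bk N l b t t a) k := by
  rw [sym_Bk hb hl ha h1 h, sym_Bk hb hl ha h1 le_rfl]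
  refine inv_anti₀ (bk_pos hb hl ha h1 le_rfl k) ?_
  have := mul_le_mul_of_nonneg_left (sym_Gnc_fine hb hl (ha.trans h1) h k)
    (by linarith : 0 ≤ t - a)
  linarith

/-- **the source with the larger fine mass is smaller** -/
theorem rl_fine (hb : 0 ≤ b) (hl : l ∣ N) (ha : 0 < a) (h1 : a < t) (h : t ≤ F)
    (hX : RL (nMC N l b F a 0) (obsN N l (t - a)) X) {I' : Type*} [Fintype I']
    {XL : Matrix (V N) I' ℝ} (hXL : RL (nMC N l b t a 0) (obsN N l (t - a)) XL) :
    (XL * XLᵀ - X * Xᵀ).PosSemidef := by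
  refine psd_of ?_ fun u => ?_
  · rw [transpose_sub, H859.gram_symm, H859.gram_symm]
  · rw [H859.qf_sub_m, rl_qf hb hl ha h1 h hX, rl_qf hb hl ha h1 le_rfl hXL, ← mul_sub]
    refine mul_nonneg (by linarith) ?_
    have h2 := qf_neu_le (S := Bk N l b F t a) (R := Bk N l b t t a) ti_Bk ti_Bk (c := 1)
      (fun k _ => by
        rw [one_mul]
        exact Bk_fine hb hl ha h1 h k) (neu_CN (l := l) u)
    linarith

/-- the a-priori bound for the law with fine mass `F`, scalar mass `t`, without a factor -/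
theorem amp_fine1 (hb : 0 < b) (hl : l ∣ N) (ha : 0 < a) (h1 : a < t) (h : t ≤ F)
    (hX : RL (nMC N l b F a 0) (obsN N l (t - a)) X) {Y p : ℝ} (hT : TypE N l b t a Y 1 p)
    (hY : 1 ≤ Y) (hp : p ≤ 1 / 2) {x : ℝ} (hx : 0 ≤ x) (hxY : x ≤ Y) :
    (gau I).real {g | 1 < Rs (nwt N b t 0) (x • (X *ᵥ g))} ≤ 12 * p := by
  have ht : 0 < t := ha.trans h1
  have hM := maj_nwt (N := N) hb.le ht 0
  have hEM : EM (nMC N l b t a 0) := H963.em_nMC hb.le hl ha h1.le 0
  have hpost : post (nMC N l b t a 0) (obsN N l (t - a)) = nwt N b t 0 := by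
    rw [H963.post_nMC hl b h1.le 0, H963.nMC_self]
  obtain ⟨XL, hXL⟩ := H730.exists_RL (P := obsN N l (t - a)) hEM (by
    rw [hpost]
    exact hM.Rs_nonneg)
  have h4 : (((1 : ℝ) ^ 2) • (XL * XLᵀ) - X * Xᵀ).PosSemidef := by
    rw [one_pow, one_smul]
    exact rl_fine hb.le hl ha h1 h hX hXL
  have h5 := hM.prob_psd x 1 h4 1
  have h6 := typ_gauss hb.le hl ha h1 hXL hT hY le_rfl hp
  have h7 : (gau (V (N / l))).real
      {g | 1 < Rs (nwt N b t 0) ((x * 1) • (XL *ᵥ g))} ≤ 6 * p := by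
    refine (measureReal_mono fun g hg => ?_).trans h6
    simp only [Set.mem_ofPred_eq] at hg ⊢
    exact hg.trans_le (rs_ray hb.le ht _ (by positivity) (by linarith))
  linarith

end

end Vale.Agent.P159.H896
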