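import Vale.Agent.P159.H896.Rq6
import Vale.Agent.P159.H340.Al2
import Vale.Agent.P159.H375.AclE

/-!
P159 (helper896), quantitative V bound, part 7: **the coarse projection of the source of the fine
cells is at most `1 + 20 b` times the source of the coarse cells** (flat profile used).
-/

set_option linter.unusedSectionVars false

namespace Vale.Agent.P159.H896

open Finset Matrix MeasureTheory
open Vale.Agent.P159.TM.H104 (EM Ex Cv K3 Lg li nh Gr)
open Vale.Agent.P159.TM.H764 (EE)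
open Vale.Agent.P159.H37
open Vale.Agent.P159.H864 (TI sym MC cobV cl up fc Gc lapM)
open Vale.Agent.P159.H963 (Pn Gnc nMC nwt obsN ntr Neu nM gw_wT)
open Vale.Agent.P159.H730 (RL Hm wN)
open Vale.Agent.P159.H859 (psd_of Rk gd gd_le)
open Vale.Agent.P159.H447 (SN CN CN_gram SN_tr gm_CN maj_nwt)
open Vale.Agent.P159.H239 (TypE exists_increment rs_ray rs_meas)
open Vale.Agent.P159.H340 (tce)
open Vale.Agent.P159.TM.Spec (V)
open Vale.Agent.P159.TM.SpecC (wT)

noncomputable section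

lemma qf_Rk_tce {n m : ℕ} [NeZero n] [NeZero m] (h : n = m) (r κ : ℝ) (φ : V n → ℝ) :
    qf (Rk r κ : Matrix (V m) (V m) ℝ) (φ ∘ (tce h).symm) =
      qf (Rk r κ : Matrix (V n) (V n) ℝ) φ := by
  subst h
  congr 1
  funext x
  rw [Function.comp_apply]
  congr 1
  rw [Equiv.symm_apply_eq, H340.tce_rfl]

lemma sum_sq_tce {n m : ℕ} [NeZero n] [NeZero m] (h : n = m) (φ : V n → ℝ) :
    ∑ x, (φ ∘ (tce h).symm) x ^ 2 = ∑ x, φ x ^ 2 := by
  rw [← (tce h).sum_comp]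
  refine Finset.sum_congr rfl fun x _ => ?_
  simp

section up

variable {N l ρ : ℕ} [NeZero N] [NeZero (N / l)] [NeZero (N / l / ρ)] [NeZero (N / (l * ρ))]
  {b t a : ℝ} {I : Type*} [Fintype I] {X : Matrix (V N) I ℝ}

lemma CN_cellP (hl : l ∣ N) (hρ : ρ ∣ N / l) (u : V N → ℝ) : ∃ φ : V (N / l / ρ) → ℝ,
    CN N (l * ρ) *ᵥ u = φ ∘ (tce (Nat.div_div_eq_div_mul N l ρ)).symm ∧
    CN N l *ᵥ (cellP N (l * ρ) *ᵥ u) = (cobV (N / l) ρ)ᵀ *ᵥ φ := by
  have hL := H340.dvd_lr hl hρ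
  set h := Nat.div_div_eq_div_mul N l ρ with hh
  refine ⟨(CN N (l * ρ) *ᵥ u) ∘ tce h, ?_, ?_⟩
  · funext x
    simp
  · have e1 : (((CN N (l * ρ) *ᵥ u) ∘ tce h) ∘ (tce h).symm) = CN N (l * ρ) *ᵥ u := by
      funext x
      simp
    have e2 := H340.cob_cob_tr hl hρ ((CN N (l * ρ) *ᵥ u) ∘ tce h)
    rw [← hh, e1] at e2
    have e3 : (Pn : Matrix (V N) (V N) ℝ) *ᵥ (cellP N (l * ρ) *ᵥ u) =
        (cobV N (l * ρ))ᵀ *ᵥ (CN N (l * ρ) *ᵥ u) := by
      rw [H447.CN_eq hL, mulVec_mulVec, mulVec_mulVec, ← cellP_Pn hL, H864.cellP_eq hL,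
        Matrix.mul_assoc]
    rw [H447.CN_eq hl, ← mulVec_mulVec, e3, e2, mulVec_mulVec, H864.cobV_mul_tr hl, one_mulVec]

/-- the coarse projection of the source of the fine cells -/
theorem coarse_up (hb : 0 < b) (hl : l ∣ N) (hρ : ρ ∣ N / l) (ha : 0 < a) (h1 : a < t)
    (hX : RL (nMC N l b t a 0) (obsN N l (t - a)) X) (u : V N → ℝ) :
    qf (X * Xᵀ) (cellP N (l * ρ) *ᵥ u) ≤ (t - a) * (∑ c, (CN N (l * ρ) *ᵥ u) c ^ 2 +
      (t - a) * qf (Rk a (1 / b / ((l * ρ : ℕ) : ℝ) ^ 2)) (CN N (l * ρ) *ᵥ u)) := by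
  have ht : 0 < t := ha.trans h1
  have hlp : (0 : ℝ) < l := by exact_mod_cast H864.l_pos hl
  rw [rl_qf hb.le hl ha h1 le_rfl hX]
  refine mul_le_mul_of_nonneg_left ?_ (by linarith)
  obtain ⟨φ, hφ1, hφ2⟩ := CN_cellP hl hρ u
  have hneu : Neu (CN N l *ᵥ (cellP N (l * ρ) *ᵥ u)) := neu_CN _
  have hκ : (0 : ℝ) < 1 / b / (l : ℝ) ^ 2 := by positivity
  have tR : TI ((1 : Matrix (V (N / l)) (V (N / l)) ℝ) + (t - a) • Rk a (1 / b / (l : ℝ) ^ 2)) :=
    TI.one.add ((H859.ti_Rk _ _).smul _)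
  have h2 := qf_neu_le (S := Bk N l b t t a) (R := 1 + (t - a) • Rk a (1 / b / (l : ℝ) ^ 2))
    ti_Bk tR (c := 1) (fun k hk => by
      rw [one_mul, H864.sym_add, H864.sym_one, H864.sym_smul, H859.sym_Rk ha hκ.le,
        sym_Bk hb.le hl ha h1 le_rfl]
      have h3 := bk_pos hb.le hl ha h1 (le_refl t) k
      have h4 := H859.Gnck_dom hb.le hl (κ := 1 / b) ht (le_refl t) (by positivity)
        (by rw [mul_one_div_cancel hb.ne']) k
      have hE0 : 0 ≤ EE k := H462.EE_nonneg k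
      set x : ℝ := 1 / b / (l : ℝ) ^ 2 * EE k with hx
      have hx0 : 0 ≤ x := by positivity
      have h5 : (t - a) * sym (Gnc N l b t t) k ≤ (t - a) * (t + x)⁻¹ :=
        mul_le_mul_of_nonneg_left h4 (by linarith)
      have h6 : (a + x) / (t + x) ≤ 1 - (t - a) * sym (Gnc N l b t t) k := by
        have : (t - a) * (t + x)⁻¹ = 1 - (a + x) / (t + x) := by
          field_simp
          ring
        linarith
      have h7 : 0 < (a + x) / (t + x) := by positivity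
      refine (inv_anti₀ h7 h6).trans (le_of_eq ?_)
      rw [inv_div]
      field_simp
      ring) hneu
  rw [one_mul] at h2
  refine h2.trans ?_
  rw [H37.qf_add_mat, H864.qf_smul_mat, hφ2]
  have e1 : qf (1 : Matrix (V (N / l)) (V (N / l)) ℝ) ((cobV (N / l) ρ)ᵀ *ᵥ φ) =
      ∑ c, (CN N (l * ρ) *ᵥ u) c ^ 2 := by
    have e2 : qf (1 : Matrix (V (N / l)) (V (N / l)) ℝ) ((cobV (N / l) ρ)ᵀ *ᵥ φ) =
        ∑ x, ((cobV (N / l) ρ)ᵀ *ᵥ φ) x ^ 2 := by
      rw [qf_eq, one_mulVec]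
      unfold dotProduct
      exact Finset.sum_congr rfl fun x _ => by ring
    rw [e2, H864.sq_cobV_tr hρ, hφ1, sum_sq_tce]
  rw [e1]
  have h3 : qf (Rk a (1 / b / (l : ℝ) ^ 2)) ((cobV (N / l) ρ)ᵀ *ᵥ φ) ≤
      qf (Rk a (1 / b / ((l * ρ : ℕ) : ℝ) ^ 2)) (CN N (l * ρ) *ᵥ u) := by
    have h4 := H859.cob_res_le (N := N / l) (l := ρ) hρ
      (M := a • (1 : Matrix (V (N / l)) (V (N / l)) ℝ))
      (by rw [transpose_smul, transpose_one]) ha (fun f => by
        rw [H37.qf_smul_one]) (τ := a) (κ := 1 / b / (l : ℝ) ^ 2) ha hκ.le (fun f => by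
        rw [H37.qf_smul_one]
        exact mul_le_mul_of_nonneg_left (H859.sq_cobV_le hρ f) ha.le) φ
    rw [hφ1, qf_Rk_tce]
    have e5 : 1 / b / ((l * ρ : ℕ) : ℝ) ^ 2 = 1 / b / (l : ℝ) ^ 2 / (ρ : ℝ) ^ 2 := by
      push_cast
      rw [mul_pow]
      exact (div_div _ _ _).symm
    rw [e5]
    exact h4
  have h4 := mul_le_mul_of_nonneg_left h3 (by linarith : 0 ≤ t - a)
  linarith

end up

section low

variable {N l : ℕ} [NeZero N] [NeZero (N / l)] {b F t a : ℝ}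

/-- the resolvent of the channel from below -/
theorem Bk_low (hb : 0 < b) (hl : l ∣ N) (ha : 0 < a) (h1 : a < t) (h : t ≤ F)
    (hG : ∀ k : V (N / l), sym (H363.acl N l b F F) k ≤ 10 * EE k) {k : V (N / l)} (hk : k ≠ 0) :
    1 + (t - a) * (a + 1 / b / (l : ℝ) ^ 2 * EE k)⁻¹ ≤
      (1 + 20 * b) * sym (Bk N l b F t a) k := by
  have ht : 0 < t := ha.trans h1
  have hF : 0 < F := ht.trans_le h
  have hlp : (0 : ℝ) < l := by exact_mod_cast H864.l_pos hl
  have hNp : (0 : ℝ) < ((N / l : ℕ) : ℝ) := by exact_mod_cast NeZero.pos (N / l)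
  have hE0 : 0 < EE k := lt_of_lt_of_le (by positivity) (EE_gap' hk)
  have h2 := hG k
  rw [H363.sym_acl_eq hb hl hF le_rfl hk] at h2
  have hP0 := H963.PinC_nonneg hb hl hF le_rfl hk
  have hPm := H447.PinC_mono hb hl ht h (le_refl F) hk
  have hP1 := H963.PinC_nonneg hb hl ht h hk
  set e : ℝ := EE k / (l : ℝ) ^ 2 with he
  have he0 : 0 < e := by positivity
  have hey : 1 / b / (l : ℝ) ^ 2 * EE k = e / b := by
    rw [he]
    field_simp
  rw [hey]
  have hB1 := Bk_ge hb.le hl ha h1 h k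
  set P := H963.PinC N l b F F k with hP
  set Q := H963.PinC N l b F t k with hQ
  have hBk : sym (Bk N l b F t a) k = 1 + (t - a) * (a + Q)⁻¹ := by
    rw [sym_Bk hb.le hl ha h1 h]
    have h4 := H963.sym_Gnc_pos hb hl ht h hk
    have h5 : t + Q = (sym (Gnc N l b F t) k)⁻¹ := by
      rw [hQ]
      unfold H963.PinC
      ring
    have h6 : sym (Gnc N l b F t) k = (t + Q)⁻¹ := by
      rw [h5, inv_inv]
    rw [h6]
    have h7 : 0 < t + Q := by linarith
    have h8 : 0 < a + Q := by linarith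
    have e1 : 1 - (t - a) * (t + Q)⁻¹ = (a + Q) / (t + Q) := by
      field_simp
      ring
    rw [e1, inv_div]
    field_simp
    ring
  have hd0 : 0 ≤ t - a := by linarith
  rcases le_or_gt (20 * e) F with hc | hc
  · -- low momenta
    have h3 : P ≤ 20 * e := by
      have h4 : F * P / (F + P) ≤ 10 * e := by
        have h5 : (l : ℝ) ^ 2 * (F * P / (F + P)) ≤ (l : ℝ) ^ 2 * (10 * e) := by
          refine h2.trans (le_of_eq ?_)
          rw [he]
          field_simp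
        exact le_of_mul_le_mul_left h5 (by positivity)
      rw [div_le_iff₀ (by linarith)] at h4
      have h6 : 10 * e * P ≤ F / 2 * P := mul_le_mul_of_nonneg_right (by linarith) hP0
      have h7 : F * P ≤ F * (20 * e) := by linarith
      exact le_of_mul_le_mul_left h7 hF
    have h4 : Q ≤ 20 * e := hPm.trans h3
    rw [hBk]
    have h5 : (a + 20 * e)⁻¹ ≤ (a + Q)⁻¹ := inv_anti₀ (by linarith) (by linarith)
    have h6 : (a + e / b)⁻¹ ≤ (1 + 20 * b) * (a + 20 * e)⁻¹ := by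
      rw [← div_eq_mul_inv, inv_eq_one_div, div_le_div_iff₀ (by positivity) (by positivity)]
      have : e / b * b = e := div_mul_cancel₀ _ hb.ne'
      have h7 : 0 ≤ e / b := by positivity
      nlinarith
    have h7 : (t - a) * (a + e / b)⁻¹ ≤ (t - a) * ((1 + 20 * b) * (a + Q)⁻¹) := by
      refine mul_le_mul_of_nonneg_left (h6.trans ?_) hd0
      exact mul_le_mul_of_nonneg_left h5 (by positivity)
    have h8 : (1 : ℝ) ≤ 1 + 20 * b := by linarith
    calc 1 + (t - a) * (a + e / b)⁻¹ ≤ (1 + 20 * b) + (t - a) * ((1 + 20 * b) * (a + Q)⁻¹) := by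
          linarith
      _ = (1 + 20 * b) * (1 + (t - a) * (a + Q)⁻¹) := by ring
  · -- high momenta
    have h3 : (t - a) * (a + e / b)⁻¹ ≤ 20 * b := by
      rw [← div_eq_mul_inv, div_le_iff₀ (by positivity)]
      have : e / b * b = e := div_mul_cancel₀ _ hb.ne'
      have h7 : 0 ≤ b * a := by positivity
      nlinarith
    have h4 : (1 + 20 * b) * 1 ≤ (1 + 20 * b) * sym (Bk N l b F t a) k :=
      mul_le_mul_of_nonneg_left hB1 (by positivity)
    linarith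

end low

/-- **the coarse projection of the fine source against the coarse source** -/
theorem coarse_cA {N l L : ℕ} [NeZero N] [NeZero (N / l)] [NeZero (N / L)] {b F t a : ℝ}
    (hb : 0 < b) (h : l ∣ L) (hL : L ∣ N) (ha : 0 < a) (h1 : a < t) (htF : t ≤ F)
    (hG : ∀ k : V (N / L), sym (H363.acl N L b F F) k ≤ 10 * EE k)
    {I I' : Type*} [Fintype I] [Fintype I'] {X : Matrix (V N) I ℝ} {X' : Matrix (V N) I' ℝ}
    (hX : RL (nMC N l b t a 0) (obsN N l (t - a)) X)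
    (hX' : RL (nMC N L b F a 0) (obsN N L (t - a)) X') :
    ((1 + 20 * b) • (X' * X'ᵀ) - (cellP N L * X) * (cellP N L * X)ᵀ).PosSemidef := by
  obtain ⟨ρ, rfl⟩ := h
  have hl : l ∣ N := (Dvd.intro _ rfl).trans hL
  have hρ : ρ ∣ N / l := by
    obtain ⟨q, hq⟩ := hL
    refine ⟨q, ?_⟩
    rw [hq, Nat.mul_assoc, Nat.mul_div_cancel_left _ (H864.l_pos hl)]
  haveI : NeZero (N / l / ρ) := ⟨by
    rw [Nat.div_div_eq_div_mul]
    exact NeZero.ne _⟩
  have hLp : (0 : ℝ) < ((l * ρ : ℕ) : ℝ) := by exact_mod_cast H864.l_pos hL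
  refine psd_of ?_ fun u => ?_
  · rw [transpose_sub, transpose_smul, H859.gram_symm, H859.gram_symm]
  · rw [H859.qf_sub_m, H864.qf_smul_mat, rl_qf hb.le hL ha h1 htF hX']
    have e1 : qf ((cellP N (l * ρ) * X) * (cellP N (l * ρ) * X)ᵀ) u =
        qf (X * Xᵀ) (cellP N (l * ρ) *ᵥ u) := by
      have e2 : ∀ (Z : Matrix (V N) I ℝ) (w : V N → ℝ), qf (Z * Zᵀ) w = ∑ i, (Zᵀ *ᵥ w) i ^ 2 := by
        intro Z w
        have := qf_gram Zᵀ w
        rwa [transpose_transpose] at this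
      rw [e2, e2, transpose_mul, H864.cellP_tr, mulVec_mulVec]
    rw [e1]
    have h2 := coarse_up hb hl hρ ha h1 hX u
    have hκ : (0 : ℝ) ≤ 1 / b / ((l * ρ : ℕ) : ℝ) ^ 2 := by positivity
    have tR : TI ((1 : Matrix (V (N / (l * ρ))) (V (N / (l * ρ))) ℝ) +
        (t - a) • Rk a (1 / b / ((l * ρ : ℕ) : ℝ) ^ 2)) :=
      TI.one.add ((H859.ti_Rk _ _).smul _)
    have h3 := qf_neu_le (S := 1 + (t - a) • Rk a (1 / b / ((l * ρ : ℕ) : ℝ) ^ 2))
      (R := Bk N (l * ρ) b F t a) tR ti_Bk (c := 1 + 20 * b) (fun k hk => by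
        rw [H864.sym_add, H864.sym_one, H864.sym_smul, H859.sym_Rk ha hκ]
        exact Bk_low hb hL ha h1 htF hG hk) (neu_CN (l := l * ρ) u)
    rw [H37.qf_add_mat, H864.qf_smul_mat] at h3
    have e3 : qf (1 : Matrix (V (N / (l * ρ))) (V (N / (l * ρ))) ℝ) (CN N (l * ρ) *ᵥ u) =
        ∑ c, (CN N (l * ρ) *ᵥ u) c ^ 2 := by
      rw [qf_eq, one_mulVec]
      unfold dotProduct
      exact Finset.sum_congr rfl fun x _ => by ring
    rw [e3] at h3
    have h4 := mul_le_mul_of_nonneg_left h3 (by linarith : 0 ≤ t - a)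
    linarith

end

end Vale.Agent.P159.H896
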